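import Vale.Agent.P359.MathlibUsed
import Vale.Agent.P359.Stmt

set_option linter.all false

section

section

/-!
Finite flux: scaled annihilators, pair operators, ladder operators, in an abstract real star ring.
-/

set_option linter.unusedSectionVars false

namespace Vale.Agent.P359

open Finset

/-- `Q ^ a / binom Q a` -/
noncomputable def nu (Q a : ℕ) : ℝ := (Q : ℝ) ^ a / (Q.choose a : ℝ)

/-- `Q ^ s / binom (2 Q - 2) s` -/
noncomputable def rsq (Q s : ℕ) : ℝ := (Q : ℝ) ^ s / ((2 * Q - 2).choose s : ℝ)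

/-- coefficients of the pair operators -/
noncomputable def bcoef (Q s a b : ℕ) : ℝ :=
  ((b : ℝ) - (a : ℝ)) * (Q.choose a : ℝ) * (Q.choose b : ℝ)
    / (2 * (Q : ℝ) * ((2 * Q - 2).choose s : ℝ))

theorem nu_zero (Q : ℕ) : nu Q 0 = 1 := by simp only [nu, pow_zero, Nat.choose_zero_right, Nat.cast_one, ne_eq, one_ne_zero, not_false_eq_true, div_self]

theorem nu_one (Q : ℕ) (hQ : 1 ≤ Q) : nu Q 1 = 1 := by
  have : (Q : ℝ) ≠ 0 := by positivity
  simp [nu, this]

theorem nu_pos (Q a : ℕ) (hQ : 1 ≤ Q) (ha : a ≤ Q) : 0 < nu Q a := by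
  have h1 : 0 < (Q : ℝ) := by positivity
  have h2 : 0 < (Q.choose a : ℝ) := by exact_mod_cast Nat.choose_pos ha
  unfold nu
  positivity

theorem nu_nonneg (Q a : ℕ) : 0 ≤ nu Q a := by
  unfold nu
  positivity

theorem nu_gt (Q a : ℕ) (ha : Q < a) : nu Q a = 0 := by
  simp [nu, Nat.choose_eq_zero_of_lt ha]

theorem rsq_zero (Q : ℕ) : rsq Q 0 = 1 := by simp only [rsq, pow_zero, Nat.choose_zero_right, Nat.cast_one, ne_eq, one_ne_zero, not_false_eq_true, div_self]

theorem rsq_pos (Q s : ℕ) (hQ : 1 ≤ Q) (hs : s ≤ 2 * Q - 2) : 0 < rsq Q s := by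
  have h1 : 0 < (Q : ℝ) := by positivity
  have h2 : 0 < ((2 * Q - 2).choose s : ℝ) := by exact_mod_cast Nat.choose_pos hs
  unfold rsq
  positivity

theorem rsq_nonneg (Q s : ℕ) : 0 ≤ rsq Q s := by
  unfold rsq
  positivity

theorem bcoef_antisymm (Q s a b : ℕ) : bcoef Q s a b = - bcoef Q s b a := by
  unfold bcoef
  ring

theorem bcoef_gt_left (Q s a b : ℕ) (h : Q < a) : bcoef Q s a b = 0 := by
  simp only [bcoef, Nat.choose_eq_zero_of_lt h, CharP.cast_eq_zero, mul_zero, zero_mul, zero_div]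

theorem bcoef_gt_right (Q s a b : ℕ) (h : Q < b) : bcoef Q s a b = 0 := by
  simp only [bcoef, Nat.choose_eq_zero_of_lt h, CharP.cast_eq_zero, mul_zero, zero_div]

variable {R : Type*} [Ring R] [StarRing R] [Algebra ℝ R] [StarModule ℝ R]

/-- scaled canonical anticommutation relations for orbitals `0, ..., Q` -/
structure ScaledCAR (Q : ℕ) (C : ℕ → R) : Prop where
  anti : ∀ a b, C a * C b = -(C b * C a)
  cross : ∀ a b, C a * star (C b) = (if a = b then nu Q a else 0) • (1 : R) - star (C b) * C a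
  zero : ∀ a, Q < a → C a = 0

/-- pair annihilators -/
noncomputable def pairOp (Q : ℕ) (C : ℕ → R) (s : ℕ) : R :=
  ∑ ab ∈ antidiagonal (s + 1), bcoef Q s ab.1 ab.2 • (C ab.1 * C ab.2)

/-- ladder operator lowering the level of annihilators -/
noncomputable def ladder (Q : ℕ) (C : ℕ → R) : R :=
  ∑ e ∈ range Q, (((e : ℝ) + 1) / nu Q (e + 1)) • (star (C (e + 1)) * C e)

/-- level operator -/
noncomputable def levelOp (Q : ℕ) (C : ℕ → R) : R :=
  ∑ e ∈ range (Q + 1), ((e : ℝ) / nu Q e) • (star (C e) * C e)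

/-- the Hamiltonian -/
noncomputable def ham (Q : ℕ) (C : ℕ → R) : R :=
  ∑ s ∈ range (2 * Q - 1), (rsq Q s)⁻¹ • (star (pairOp Q C s) * pairOp Q C s)

section comm

/-- commutator -/
def ad (x y : R) : R := x * y - y * x

theorem ad_mul (x y z : R) : ad x (y * z) = ad x y * z + y * ad x z := by
  unfold ad; noncomm_ring

theorem ad_smul (x y : R) (r : ℝ) : ad x (r • y) = r • ad x y := by
  unfold ad; rw [mul_smul_comm, smul_mul_assoc, smul_sub]

theorem ad_sum {ι : Type*} (x : R) (s : Finset ι) (f : ι → R) :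
    ad x (∑ i ∈ s, f i) = ∑ i ∈ s, ad x (f i) := by
  unfold ad; rw [mul_sum, sum_mul, sum_sub_distrib]

theorem sum_ad {ι : Type*} (x : R) (s : Finset ι) (f : ι → R) :
    ad (∑ i ∈ s, f i) x = ∑ i ∈ s, ad (f i) x := by
  unfold ad; rw [mul_sum, sum_mul, sum_sub_distrib]

theorem smul_ad (x y : R) (r : ℝ) : ad (r • x) y = r • ad x y := by
  unfold ad; rw [mul_smul_comm, smul_mul_assoc, smul_sub]

theorem star_ad (x y : R) : star (ad x y) = - ad (star x) (star y) := by
  unfold ad; rw [star_sub, star_mul, star_mul]; noncomm_ring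

variable {Q : ℕ} {C : ℕ → R}

theorem ad_bilin (h : ScaledCAR Q C) (e f a : ℕ) :
    ad (star (C e) * C f) (C a) = -((if a = e then nu Q a else 0) • C f) := by
  have h1 := h.cross a e
  have h2 := h.anti f a
  have h3 : star (C e) * C a = (if a = e then nu Q a else 0) • (1 : R) - C a * star (C e) := by
    rw [h1]; noncomm_ring
  unfold ad
  rw [mul_assoc, h2, mul_neg, ← mul_assoc, h3, sub_mul, smul_mul_assoc, one_mul]
  noncomm_ring

theorem ad_ladder (h : ScaledCAR Q C) (hQ : 1 ≤ Q) (a : ℕ) (ha : a ≤ Q) :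
    ad (ladder Q C) (C a) = -((a : ℝ) • C (a - 1)) := by
  unfold ladder
  rw [sum_ad]
  rcases Nat.eq_zero_or_pos a with h0 | h0
  · subst h0
    rw [sum_eq_zero]
    · simp
    · intro e _
      rw [smul_ad, ad_bilin h]
      simp
  · rw [sum_eq_single (a - 1)]
    · rw [smul_ad, ad_bilin h, Nat.sub_add_cancel h0, if_pos rfl, smul_neg, smul_smul]
      have h1 : nu Q a ≠ 0 := (nu_pos Q a hQ ha).ne'
      have h2 : (((a - 1 : ℕ) : ℝ) + 1) = a := by
        have : (1 : ℕ) ≤ a := h0
        push_cast [this]; ring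
      rw [h2, div_mul_cancel₀ _ h1]
    · intro e _ he
      rw [smul_ad, ad_bilin h, if_neg (by omega)]
      simp only [zero_smul, neg_zero, smul_zero]
    · intro hn
      exact absurd (mem_range.mpr (by omega)) hn

theorem nu_ratio (Q a : ℕ) (hQ : 1 ≤ Q) (ha : a < Q) :
    ((a : ℝ) + 1) / nu Q (a + 1) * nu Q a = ((Q : ℝ) - a) / Q := by
  have hQ' : (Q : ℝ) ≠ 0 := by positivity
  have h1 : (Q.choose a : ℝ) ≠ 0 := by exact_mod_cast (Nat.choose_pos ha.le).ne'
  have h2 : (Q.choose (a + 1) : ℝ) ≠ 0 := by exact_mod_cast (Nat.choose_pos ha).ne'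
  have h3 : (Q.choose (a + 1) : ℝ) * ((a : ℝ) + 1) = Q.choose a * ((Q : ℝ) - a) := by
    have := Nat.choose_succ_right_eq Q a
    have h4 : ((Q - a : ℕ) : ℝ) = (Q : ℝ) - a := by
      rw [Nat.cast_sub ha.le]
    rw [← h4]
    exact_mod_cast this
  unfold nu
  have h5 : ((a : ℝ) + 1) / ((Q : ℝ) ^ (a + 1) / (Q.choose (a + 1) : ℝ)) * ((Q : ℝ) ^ a / (Q.choose a : ℝ))
      = ((Q.choose (a + 1) : ℝ) * ((a : ℝ) + 1)) / (Q * Q.choose a) := by
    field_simp
    ring
  rw [h5, h3]
  field_simp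

theorem star_ladder (Q : ℕ) (C : ℕ → R) : star (ladder Q C) =
    ∑ e ∈ range Q, (((e : ℝ) + 1) / nu Q (e + 1)) • (star (C e) * C (e + 1)) := by
  unfold ladder
  rw [star_sum]
  refine sum_congr rfl fun e _ => ?_
  rw [star_smul, star_mul, star_star]
  simp only [star_trivial]

theorem ad_star_ladder (h : ScaledCAR Q C) (hQ : 1 ≤ Q) (a : ℕ) (ha : a ≤ Q) :
    ad (star (ladder Q C)) (C a) = -((((Q : ℝ) - a) / Q) • C (a + 1)) := by
  rw [star_ladder, sum_ad]
  rcases Nat.lt_or_ge a Q with h0 | h0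
  · rw [sum_eq_single a]
    · rw [smul_ad, ad_bilin h, if_pos rfl, smul_neg, smul_smul, nu_ratio Q a hQ h0]
    · intro e _ he
      rw [smul_ad, ad_bilin h, if_neg (by omega)]
      simp only [zero_smul, neg_zero, smul_zero]
    · intro hn
      exact absurd (mem_range.mpr h0) hn
  · have h1 : a = Q := le_antisymm ha h0
    rw [sum_eq_zero]
    · rw [h1, h.zero (Q + 1) (Nat.lt_succ_self _)]
      simp
    · intro e he
      have := mem_range.mp he
      rw [smul_ad, ad_bilin h, if_neg (by omega)]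
      simp only [zero_smul, neg_zero, smul_zero]

theorem ad_levelOp (h : ScaledCAR Q C) (hQ : 1 ≤ Q) (a : ℕ) :
    ad (levelOp Q C) (C a) = -((a : ℝ) • C a) := by
  unfold levelOp
  rw [sum_ad]
  rcases Nat.lt_or_ge Q a with h0 | h0
  · rw [h.zero a h0]
    rw [sum_eq_zero]
    · simp
    · intro e _
      simp only [ad, mul_zero, Algebra.mul_smul_comm, zero_mul, smul_zero, sub_self]
  · rw [sum_eq_single a]
    · rw [smul_ad, ad_bilin h, if_pos rfl, smul_neg, smul_smul]
      have h1 : nu Q a ≠ 0 := (nu_pos Q a hQ h0).ne'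
      rw [div_mul_cancel₀ _ h1]
    · intro e _ he
      rw [smul_ad, ad_bilin h, if_neg (by omega)]
      simp only [zero_smul, neg_zero, smul_zero]
    · intro hn
      exact absurd (mem_range.mpr (by omega)) hn

end comm

section pairs

variable {Q : ℕ} {C : ℕ → R}

theorem choose_succ_real (n k : ℕ) :
    (n.choose (k + 1) : ℝ) * ((k : ℝ) + 1) = (n.choose k : ℝ) * ((n : ℝ) - k) := by
  rcases Nat.lt_or_ge n k with h | h
  · rw [Nat.choose_eq_zero_of_lt h, Nat.choose_eq_zero_of_lt (by omega)]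
    simp
  · have h1 := Nat.choose_succ_right_eq n k
    have h2 : ((n - k : ℕ) : ℝ) = (n : ℝ) - k := Nat.cast_sub h
    rw [← h2]
    exact_mod_cast h1

theorem cast_two_Q (Q : ℕ) (hQ : 1 ≤ Q) : ((2 * Q - 2 : ℕ) : ℝ) = 2 * (Q : ℝ) - 2 := by
  rw [Nat.cast_sub (by omega)]; push_cast; ring

theorem bcoef_lower (Q s a b : ℕ) (hQ : 1 ≤ Q) (hs : s + 1 ≤ 2 * Q - 2) (hab : a + b = s + 1) :
    bcoef Q (s + 1) (a + 1) b * ((a : ℝ) + 1) + bcoef Q (s + 1) a (b + 1) * ((b : ℝ) + 1)
      = ((s : ℝ) + 1) * bcoef Q s a b := by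
  have hQ' : (Q : ℝ) ≠ 0 := by positivity
  have h1 : ((2 * Q - 2).choose s : ℝ) ≠ 0 := by
    exact_mod_cast (Nat.choose_pos (by omega : s ≤ 2 * Q - 2)).ne'
  have h2 : ((2 * Q - 2).choose (s + 1) : ℝ) ≠ 0 := by exact_mod_cast (Nat.choose_pos hs).ne'
  have e1 := choose_succ_real Q a
  have e2 := choose_succ_real Q b
  have e3 := choose_succ_real (2 * Q - 2) s
  rw [cast_two_Q Q hQ] at e3
  have hab' : (a : ℝ) + b = s + 1 := by exact_mod_cast hab
  unfold bcoef
  push_cast
  have l1 : ((b : ℝ) - ((a : ℝ) + 1)) * (Q.choose (a + 1) : ℝ) * (Q.choose b : ℝ)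
      / (2 * (Q : ℝ) * ((2 * Q - 2).choose (s + 1) : ℝ)) * ((a : ℝ) + 1)
      + ((b : ℝ) + 1 - (a : ℝ)) * (Q.choose a : ℝ) * (Q.choose (b + 1) : ℝ)
      / (2 * (Q : ℝ) * ((2 * Q - 2).choose (s + 1) : ℝ)) * ((b : ℝ) + 1)
      = (((b : ℝ) - ((a : ℝ) + 1)) * (Q.choose b : ℝ) * ((Q.choose (a + 1) : ℝ) * ((a : ℝ) + 1))
        + ((b : ℝ) + 1 - (a : ℝ)) * (Q.choose a : ℝ) * ((Q.choose (b + 1) : ℝ) * ((b : ℝ) + 1)))
      / (2 * (Q : ℝ) * ((2 * Q - 2).choose (s + 1) : ℝ)) := by
    ring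
  rw [l1, e1, e2]
  rw [div_eq_iff (by (clear * - hQ h2; positivity))]
  have l2 : ((s : ℝ) + 1) * (((b : ℝ) - (a : ℝ)) * (Q.choose a : ℝ) * (Q.choose b : ℝ)
      / (2 * (Q : ℝ) * ((2 * Q - 2).choose s : ℝ)))
      * (2 * (Q : ℝ) * ((2 * Q - 2).choose (s + 1) : ℝ))
      = ((b : ℝ) - (a : ℝ)) * (Q.choose a : ℝ) * (Q.choose b : ℝ)
        * (((2 * Q - 2).choose (s + 1) : ℝ) * ((s : ℝ) + 1)) / ((2 * Q - 2).choose s : ℝ) := by
    (clear * - hQ' h2 h1; field_simp)
  rw [l2, e3]
  have l3 : ((b : ℝ) - (a : ℝ)) * (Q.choose a : ℝ) * (Q.choose b : ℝ)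
        * (((2 * Q - 2).choose s : ℝ) * (2 * (Q : ℝ) - 2 - s)) / ((2 * Q - 2).choose s : ℝ)
      = ((b : ℝ) - (a : ℝ)) * (Q.choose a : ℝ) * (Q.choose b : ℝ) * (2 * (Q : ℝ) - 2 - s) := by
    (clear * - h1; field_simp)
  rw [l3]
  have : (s : ℝ) = a + b - 1 := by linarith only [hab']
  rw [this]
  ring

theorem ad_ladder_pair (h : ScaledCAR Q C) (hQ : 1 ≤ Q) (s : ℕ) (hs : s + 1 ≤ 2 * Q - 2) :
    ad (ladder Q C) (pairOp Q C (s + 1)) = -(((s : ℝ) + 1) • pairOp Q C s) := by
  have key : ∀ ab : ℕ × ℕ, ad (ladder Q C) (bcoef Q (s + 1) ab.1 ab.2 • (C ab.1 * C ab.2))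
      = -((bcoef Q (s + 1) ab.1 ab.2 * ab.1) • (C (ab.1 - 1) * C ab.2))
        - ((bcoef Q (s + 1) ab.1 ab.2 * ab.2) • (C ab.1 * C (ab.2 - 1))) := by
    intro ab
    rcases Nat.lt_or_ge Q ab.1 with h1 | h1
    · rw [bcoef_gt_left Q _ _ _ h1]; simp only [ad, zero_smul, mul_zero, zero_mul, sub_self, neg_zero]
    rcases Nat.lt_or_ge Q ab.2 with h2 | h2
    · rw [bcoef_gt_right Q _ _ _ h2]; simp only [ad, zero_smul, mul_zero, zero_mul, sub_self, neg_zero]
    rw [ad_smul, ad_mul, ad_ladder h hQ _ h1, ad_ladder h hQ _ h2]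
    simp only [neg_mul, mul_neg, smul_mul_assoc, mul_smul_comm, smul_add, smul_neg, smul_smul]
    abel
  unfold pairOp
  rw [ad_sum, sum_congr rfl (fun ab _ => key ab), sum_sub_distrib, sum_neg_distrib]
  rw [Finset.Nat.sum_antidiagonal_succ
    (f := fun ab : ℕ × ℕ => (bcoef Q (s + 1) ab.1 ab.2 * ab.1) • (C (ab.1 - 1) * C ab.2)),
    Finset.Nat.sum_antidiagonal_succ'
    (f := fun ab : ℕ × ℕ => (bcoef Q (s + 1) ab.1 ab.2 * ab.2) • (C ab.1 * C (ab.2 - 1)))]
  simp only [Nat.cast_zero, mul_zero, zero_smul, zero_add, Nat.add_sub_cancel]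
  rw [smul_sum, ← sum_neg_distrib, ← sum_sub_distrib, ← sum_neg_distrib]
  refine sum_congr rfl fun ab hab => ?_
  have hab' := mem_antidiagonal.mp hab
  have hb := bcoef_lower Q s ab.1 ab.2 hQ hs hab'
  rw [smul_smul, ← hb]
  push_cast
  rw [add_smul]
  abel

theorem ad_ladder_pair_zero (h : ScaledCAR Q C) (hQ : 1 ≤ Q) :
    ad (ladder Q C) (pairOp Q C 0) = 0 := by
  have key : ∀ ab : ℕ × ℕ, ad (ladder Q C) (bcoef Q 0 ab.1 ab.2 • (C ab.1 * C ab.2))
      = -((bcoef Q 0 ab.1 ab.2 * ab.1) • (C (ab.1 - 1) * C ab.2))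
        - ((bcoef Q 0 ab.1 ab.2 * ab.2) • (C ab.1 * C (ab.2 - 1))) := by
    intro ab
    rcases Nat.lt_or_ge Q ab.1 with h1 | h1
    · rw [bcoef_gt_left Q _ _ _ h1]; simp only [ad, zero_smul, mul_zero, zero_mul, sub_self, neg_zero]
    rcases Nat.lt_or_ge Q ab.2 with h2 | h2
    · rw [bcoef_gt_right Q _ _ _ h2]; simp only [ad, zero_smul, mul_zero, zero_mul, sub_self, neg_zero]
    rw [ad_smul, ad_mul, ad_ladder h hQ _ h1, ad_ladder h hQ _ h2]
    simp only [neg_mul, mul_neg, smul_mul_assoc, mul_smul_comm, smul_add, smul_neg, smul_smul]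
    abel
  have hC0 : C 0 * C 0 = 0 := by
    have h1 := h.anti 0 0
    have h2 : (2 : ℝ) • (C 0 * C 0) = 0 := by
      rw [two_smul]; nth_rewrite 1 [h1]; simp
    have h3 := congrArg (fun x => (2 : ℝ)⁻¹ • x) h2
    simpa only [smul_smul, ne_eq, OfNat.ofNat_ne_zero, not_false_eq_true, inv_mul_cancel₀, one_smul,     smul_zero] using h3
  unfold pairOp
  rw [ad_sum, sum_congr rfl (fun ab _ => key ab)]
  rw [Finset.Nat.sum_antidiagonal_succ]
  simp only [zero_add, CharP.cast_eq_zero, mul_zero, zero_tsub, zero_smul, neg_zero, Nat.cast_one, mul_one, tsub_self, hC0, smul_zero, sub_self, HasAntidiagonal.antidiagonal_zero, Nat.cast_add, add_tsub_cancel_right, sum_sub_distrib, sum_neg_distrib, sum_singleton, add_zero]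

theorem bcoef_raise_aux (Q s a b : ℕ) :
    (((b : ℝ) - ((a : ℝ) + 1) + 1) * ((a : ℝ) + 1) * (Q.choose (a + 1) : ℝ) * (Q.choose b : ℝ)
      / (2 * (Q : ℝ) ^ 2 * ((2 * Q - 2).choose s : ℝ)))
      = bcoef Q s a b * (((Q : ℝ) - a) / Q) := by
  have e1 := choose_succ_real Q a
  have l1 : ((b : ℝ) - ((a : ℝ) + 1) + 1) * ((a : ℝ) + 1) * (Q.choose (a + 1) : ℝ)
      * (Q.choose b : ℝ) = ((b : ℝ) - a) * (Q.choose b : ℝ)
      * ((Q.choose (a + 1) : ℝ) * ((a : ℝ) + 1)) := by ring
  rw [l1, e1]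
  unfold bcoef
  rw [div_mul_div_comm]
  congr 1 <;> ring

theorem bcoef_raise_aux' (Q s a b : ℕ) :
    ((((b : ℝ) + 1) - 1 - a) * ((b : ℝ) + 1) * (Q.choose a : ℝ) * (Q.choose (b + 1) : ℝ)
      / (2 * (Q : ℝ) ^ 2 * ((2 * Q - 2).choose s : ℝ)))
      = bcoef Q s a b * (((Q : ℝ) - b) / Q) := by
  have e1 := choose_succ_real Q b
  have l1 : (((b : ℝ) + 1) - 1 - a) * ((b : ℝ) + 1) * (Q.choose a : ℝ)
      * (Q.choose (b + 1) : ℝ) = ((b : ℝ) - a) * (Q.choose a : ℝ)
      * ((Q.choose (b + 1) : ℝ) * ((b : ℝ) + 1)) := by ring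
  rw [l1, e1]
  unfold bcoef
  rw [div_mul_div_comm]
  congr 1 <;> ring

theorem bcoef_raise (Q s a b : ℕ) (hQ : 1 ≤ Q) (hs : s ≤ 2 * Q - 2) (hab : a + b = s + 2) :
    ((b : ℝ) - a + 1) * a * (Q.choose a : ℝ) * (Q.choose b : ℝ)
      / (2 * (Q : ℝ) ^ 2 * ((2 * Q - 2).choose s : ℝ))
    + ((b : ℝ) - 1 - a) * b * (Q.choose a : ℝ) * (Q.choose b : ℝ)
      / (2 * (Q : ℝ) ^ 2 * ((2 * Q - 2).choose s : ℝ))
    = (2 * (Q : ℝ) - 2 - s) / Q * bcoef Q (s + 1) a b := by
  have hQ' : (Q : ℝ) ≠ 0 := by positivity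
  have h1 : ((2 * Q - 2).choose s : ℝ) ≠ 0 := by
    exact_mod_cast (Nat.choose_pos hs).ne'
  have hab' : (a : ℝ) + b = s + 2 := by exact_mod_cast hab
  have l0 : ((b : ℝ) - a + 1) * a * (Q.choose a : ℝ) * (Q.choose b : ℝ)
      / (2 * (Q : ℝ) ^ 2 * ((2 * Q - 2).choose s : ℝ))
    + ((b : ℝ) - 1 - a) * b * (Q.choose a : ℝ) * (Q.choose b : ℝ)
      / (2 * (Q : ℝ) ^ 2 * ((2 * Q - 2).choose s : ℝ))
    = ((s : ℝ) + 1) * ((b : ℝ) - a) * (Q.choose a : ℝ) * (Q.choose b : ℝ)
      / (2 * (Q : ℝ) ^ 2 * ((2 * Q - 2).choose s : ℝ)) := by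
    rw [← add_div]
    congr 1
    have : (s : ℝ) = a + b - 2 := by linarith only [hab']
    rw [this]; ring
  rw [l0]
  rcases Nat.lt_or_ge s (2 * Q - 2) with h2 | h2
  · have h3 : ((2 * Q - 2).choose (s + 1) : ℝ) ≠ 0 := by exact_mod_cast (Nat.choose_pos h2).ne'
    have e3 := choose_succ_real (2 * Q - 2) s
    rw [cast_two_Q Q hQ] at e3
    have e4 : ((s : ℝ) + 1) = ((2 * Q - 2).choose s : ℝ) * (2 * (Q : ℝ) - 2 - s)
        / ((2 * Q - 2).choose (s + 1) : ℝ) := by
      rw [eq_div_iff h3, ← e3]; ring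
    rw [e4]
    unfold bcoef
    (clear * - h1 h3 hQ'; field_simp)
  · have h3 : s = 2 * Q - 2 := le_antisymm hs h2
    have h4 : (2 * (Q : ℝ) - 2 - s) = 0 := by
      rw [h3, cast_two_Q Q hQ]; ring
    rw [h4]
    have h5 : ((b : ℝ) - a) * (Q.choose a : ℝ) * (Q.choose b : ℝ) = 0 := by
      rcases Nat.lt_or_ge Q a with h6 | h6
      · rw [Nat.choose_eq_zero_of_lt h6]; simp
      · rcases Nat.lt_or_ge Q b with h7 | h7
        · rw [Nat.choose_eq_zero_of_lt h7]; simp
        · have : a = b := by omega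
          rw [this]; simp
    have h6 : ((s : ℝ) + 1) * ((b : ℝ) - a) * (Q.choose a : ℝ) * (Q.choose b : ℝ)
        = ((s : ℝ) + 1) * (((b : ℝ) - a) * (Q.choose a : ℝ) * (Q.choose b : ℝ)) := by ring
    rw [h6, h5]
    simp only [mul_zero, zero_div, zero_mul]

theorem ad_star_ladder_pair (h : ScaledCAR Q C) (hQ : 1 ≤ Q) (s : ℕ) (hs : s ≤ 2 * Q - 2) :
    ad (star (ladder Q C)) (pairOp Q C s)
      = -(((2 * (Q : ℝ) - 2 - s) / Q) • pairOp Q C (s + 1)) := by
  have key : ∀ ab : ℕ × ℕ, ad (star (ladder Q C)) (bcoef Q s ab.1 ab.2 • (C ab.1 * C ab.2))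
      = -((bcoef Q s ab.1 ab.2 * (((Q : ℝ) - ab.1) / Q)) • (C (ab.1 + 1) * C ab.2))
        - ((bcoef Q s ab.1 ab.2 * (((Q : ℝ) - ab.2) / Q)) • (C ab.1 * C (ab.2 + 1))) := by
    intro ab
    rcases Nat.lt_or_ge Q ab.1 with h1 | h1
    · rw [bcoef_gt_left Q _ _ _ h1]; simp only [ad, zero_smul, mul_zero, zero_mul, sub_self, neg_zero]
    rcases Nat.lt_or_ge Q ab.2 with h2 | h2
    · rw [bcoef_gt_right Q _ _ _ h2]; simp only [ad, zero_smul, mul_zero, zero_mul, sub_self, neg_zero]
    rw [ad_smul, ad_mul, ad_star_ladder h hQ _ h1, ad_star_ladder h hQ _ h2]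
    simp only [neg_mul, mul_neg, smul_mul_assoc, mul_smul_comm, smul_add, smul_neg, smul_smul]
    abel
  have e1 : ∑ ab ∈ antidiagonal (s + 1),
      (bcoef Q s ab.1 ab.2 * (((Q : ℝ) - ab.1) / Q)) • (C (ab.1 + 1) * C ab.2)
      = ∑ ab ∈ antidiagonal (s + 1 + 1),
      (((ab.2 : ℝ) - ab.1 + 1) * ab.1 * (Q.choose ab.1 : ℝ) * (Q.choose ab.2 : ℝ)
      / (2 * (Q : ℝ) ^ 2 * ((2 * Q - 2).choose s : ℝ))) • (C ab.1 * C ab.2) := by
    rw [Finset.Nat.sum_antidiagonal_succ
      (f := fun ab : ℕ × ℕ => (((ab.2 : ℝ) - ab.1 + 1) * ab.1 * (Q.choose ab.1 : ℝ)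
        * (Q.choose ab.2 : ℝ)
        / (2 * (Q : ℝ) ^ 2 * ((2 * Q - 2).choose s : ℝ))) • (C ab.1 * C ab.2))]
    simp only [Nat.cast_zero, mul_zero, zero_mul, zero_div, zero_smul, zero_add]
    refine sum_congr rfl fun ab _ => ?_
    congr 1
    rw [← bcoef_raise_aux]
    push_cast
    ring
  have e2 : ∑ ab ∈ antidiagonal (s + 1),
      (bcoef Q s ab.1 ab.2 * (((Q : ℝ) - ab.2) / Q)) • (C ab.1 * C (ab.2 + 1))
      = ∑ ab ∈ antidiagonal (s + 1 + 1),
      (((ab.2 : ℝ) - 1 - ab.1) * ab.2 * (Q.choose ab.1 : ℝ) * (Q.choose ab.2 : ℝ)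
      / (2 * (Q : ℝ) ^ 2 * ((2 * Q - 2).choose s : ℝ))) • (C ab.1 * C ab.2) := by
    rw [Finset.Nat.sum_antidiagonal_succ'
      (f := fun ab : ℕ × ℕ => (((ab.2 : ℝ) - 1 - ab.1) * ab.2 * (Q.choose ab.1 : ℝ)
        * (Q.choose ab.2 : ℝ)
        / (2 * (Q : ℝ) ^ 2 * ((2 * Q - 2).choose s : ℝ))) • (C ab.1 * C ab.2))]
    simp only [Nat.cast_zero, mul_zero, zero_mul, zero_div, zero_smul, zero_add]
    refine sum_congr rfl fun ab _ => ?_
    congr 1
    rw [← bcoef_raise_aux']
    push_cast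
    ring
  unfold pairOp
  rw [ad_sum, sum_congr rfl (fun ab _ => key ab), sum_sub_distrib, sum_neg_distrib, e1, e2,
    smul_sum, ← sum_neg_distrib, ← sum_sub_distrib, ← sum_neg_distrib]
  refine sum_congr rfl fun ab hab => ?_
  have hab' := mem_antidiagonal.mp hab
  have hb := bcoef_raise Q s ab.1 ab.2 hQ hs hab'
  rw [smul_smul, ← hb, add_smul]
  abel

theorem ad_levelOp_pair (h : ScaledCAR Q C) (hQ : 1 ≤ Q) (s : ℕ) :
    ad (levelOp Q C) (pairOp Q C s) = -(((s : ℝ) + 1) • pairOp Q C s) := by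
  unfold pairOp
  rw [ad_sum, smul_sum, ← sum_neg_distrib]
  refine sum_congr rfl fun ab hab => ?_
  have hab' := mem_antidiagonal.mp hab
  have h1 : ((s : ℝ) + 1) = (ab.1 : ℝ) + ab.2 := by exact_mod_cast hab'.symm
  rw [ad_smul, ad_mul, ad_levelOp h hQ, ad_levelOp h hQ, h1]
  simp only [neg_mul, mul_neg, smul_mul_assoc, mul_smul_comm, smul_add, smul_neg, smul_smul,
    add_mul, add_smul]
  rw [mul_comm (bcoef Q s ab.1 ab.2), mul_comm (bcoef Q s ab.1 ab.2)]
  abel

theorem ad_star_pair {X Y : R} : ad X (star Y) = - star (ad (star X) Y) := by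
  rw [star_ad, star_star, neg_neg]

theorem rsq_ratio (Q s : ℕ) (hQ : 1 ≤ Q) (hs : s < 2 * Q - 2) :
    (rsq Q (s + 1))⁻¹ * ((s : ℝ) + 1) = (rsq Q s)⁻¹ * ((2 * (Q : ℝ) - 2 - s) / Q) := by
  have hQ' : (Q : ℝ) ≠ 0 := by positivity
  have h1 : ((2 * Q - 2).choose s : ℝ) ≠ 0 := by
    exact_mod_cast (Nat.choose_pos hs.le).ne'
  have h3 : ((2 * Q - 2).choose (s + 1) : ℝ) ≠ 0 := by exact_mod_cast (Nat.choose_pos hs).ne'
  have e3 := choose_succ_real (2 * Q - 2) s
  rw [cast_two_Q Q hQ] at e3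
  unfold rsq
  rw [inv_div, inv_div, div_mul_eq_mul_div, e3]
  field_simp
  ring

theorem ad_star_ladder_ham (h : ScaledCAR Q C) (hQ : 1 ≤ Q) :
    ad (star (ladder Q C)) (ham Q C) = 0 := by
  have hK : 2 * Q - 1 = (2 * Q - 2) + 1 := by omega
  have e1 : ∀ s ∈ range (2 * Q - 1),
      ad (star (ladder Q C)) ((rsq Q s)⁻¹ • (star (pairOp Q C s) * pairOp Q C s))
      = (rsq Q s)⁻¹ • (-(star (ad (ladder Q C) (pairOp Q C s))) * pairOp Q C s)
        - ((rsq Q s)⁻¹ * ((2 * (Q : ℝ) - 2 - s) / Q)) •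
          (star (pairOp Q C s) * pairOp Q C (s + 1)) := by
    intro s hs
    have hs' : s ≤ 2 * Q - 2 := by have := mem_range.mp hs; omega
    rw [ad_smul, ad_mul, ad_star_pair, star_star, ad_star_ladder_pair h hQ s hs']
    rw [smul_add, mul_neg, smul_neg, mul_smul_comm, smul_smul, ← sub_eq_add_neg]
  unfold ham
  rw [ad_sum, sum_congr rfl e1, sum_sub_distrib, hK]
  rw [Finset.sum_range_succ', ad_ladder_pair_zero h hQ]
  rw [Finset.sum_range_succ (n := 2 * Q - 2)
    (f := fun s : ℕ => ((rsq Q s)⁻¹ * ((2 * (Q : ℝ) - 2 - s) / Q)) •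
          (star (pairOp Q C s) * pairOp Q C (s + 1)))]
  have h0 : (2 * (Q : ℝ) - 2 - ((2 * Q - 2 : ℕ) : ℝ)) = 0 := by
    rw [cast_two_Q Q hQ]; ring
  rw [h0]
  simp only [star_zero, neg_zero, zero_mul, smul_zero, add_zero, zero_div, mul_zero, zero_smul]
  rw [← sum_sub_distrib]
  refine sum_eq_zero fun s hs => ?_
  have hs' := mem_range.mp hs
  rw [ad_ladder_pair h hQ s (by omega), ← rsq_ratio Q s hQ hs']
  rw [star_neg, neg_neg, star_smul, smul_mul_assoc, smul_smul]
  simp only [star_trivial, sub_self]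

theorem ad_ladder_ham (h : ScaledCAR Q C) (hQ : 1 ≤ Q) :
    ad (ladder Q C) (ham Q C) = 0 := by
  have hs : star (ham Q C) = ham Q C := by
    unfold ham
    rw [star_sum]
    refine sum_congr rfl fun s _ => ?_
    rw [star_smul, star_mul, star_star]
    simp only [star_trivial]
  have h1 := ad_star_ladder_ham h hQ
  have h2 := congrArg star h1
  rw [star_ad, star_star, hs, star_zero, neg_eq_zero] at h2
  exact h2

theorem ad_levelOp_ham (h : ScaledCAR Q C) (hQ : 1 ≤ Q) :
    ad (levelOp Q C) (ham Q C) = 0 := by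
  have hs : star (levelOp Q C) = levelOp Q C := by
    unfold levelOp
    rw [star_sum]
    refine sum_congr rfl fun s _ => ?_
    rw [star_smul, star_mul, star_star]
    simp only [star_trivial]
  unfold ham
  rw [ad_sum]
  refine sum_eq_zero fun s _ => ?_
  rw [ad_smul, ad_mul, ad_star_pair, hs, ad_levelOp_pair h hQ]
  simp only [star_neg, star_smul, star_trivial, neg_neg, Algebra.smul_mul_assoc, mul_neg, Algebra.mul_smul_comm, add_neg_cancel, smul_zero]

end pairs

end Vale.Agent.P359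
end
end

section

section

/-!
Fock space conventions for P359 (real coefficients, occupation-number basis).
-/

namespace Vale.Agent.P359

open Finset

/-- Fock space over `n` orbitals -/
abbrev Fock (n : ℕ) := EuclideanSpace ℝ (Finset (Fin n))

/-- annihilation operator `c_a`: `(c_a Φ)(S) = (-1)^{#{b ∈ S | b < a}} Φ(S ∪ {a})` if `a ∉ S` -/
noncomputable def ann {n : ℕ} (a : Fin n) : Fock n →ₗ[ℝ] Fock n where
  toFun Φ := WithLp.toLp 2 fun S =>
    if a ∈ S then 0 else (-1 : ℝ) ^ (S.filter (· < a)).card * Φ (insert a S)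
  map_add' := by
    intro x y; ext S; simp only [PiLp.add_apply]; split_ifs <;> ring
  map_smul' := by
    intro c x; ext S; simp only [PiLp.smul_apply, smul_eq_mul, RingHom.id_apply]; split_ifs <;> ring

/-- pair amplitude `beta^{(s)}_{ab}`, `a + b = s + 1` -/
noncomputable def beta (Q a b : ℕ) : ℝ :=
  ((b : ℝ) - (a : ℝ)) *
    Real.sqrt ((Nat.choose Q a : ℝ) * (Nat.choose Q b : ℝ)
      / ((Q : ℝ) * (Nat.choose (2 * Q - 2) (a + b - 1) : ℝ)))

/-- normalized pair annihilator `b_s = ∑_{a < b, a + b = s + 1} beta_{ab} c_a c_b` -/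
noncomputable def pairAnn (Q s : ℕ) : Fock (Q + 1) →ₗ[ℝ] Fock (Q + 1) :=
  ∑ a : Fin (Q + 1), ∑ b ∈ univ.filter (fun b : Fin (Q + 1) => a < b ∧ (a : ℕ) + b = s + 1),
    beta Q a b • (ann a ∘ₗ ann b)

/-- the energy `⟨Φ, H Φ⟩ = ∑_s ‖b_s Φ‖^2` -/
noncomputable def fockEnergy (Q : ℕ) (Φ : Fock (Q + 1)) : ℝ :=
  ∑ s ∈ range (2 * Q - 1), ‖pairAnn Q s Φ‖ ^ 2

end Vale.Agent.P359
end
end

section

section

/-!
Statement-level definitions for P359 (spherical Laughlin Hamiltonian).

`U_Q` is identified with `Fin (Q + 1) → ℂ` through the orthonormal basis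
`e_a = sqrt (binom Q a) u^(Q - a) v^a`, `a = 0, …, Q`, of the homogeneous polynomials of degree `Q`
in `(u, v)` with the `SU(2)`-invariant inner product.
-/

namespace Vale.Agent.P359

open scoped Kronecker
open Matrix

/-- `U_Q ⊗ ⋯ ⊗ U_Q` (`N` factors): coordinates in the orthonormal basis
`e_{x 0} ⊗ ⋯ ⊗ e_{x (N-1)}`. -/
abbrev Tensors (N Q : ℕ) := EuclideanSpace ℂ (Fin N → Fin (Q + 1))

/-- the fermionic space `⋀^N U_Q`: antisymmetric tensors -/
def Fermions (N Q : ℕ) : Submodule ℂ (Tensors N Q) where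
  carrier := {Ψ | ∀ (σ : Equiv.Perm (Fin N)) (x : Fin N → Fin (Q + 1)),
    Ψ (x ∘ σ) = ((Equiv.Perm.sign σ : ℤ) : ℂ) * Ψ x}
  add_mem' := by
    intro a b ha hb σ x
    have h1 := ha σ x
    have h2 := hb σ x
    simp only [PiLp.add_apply] at *
    rw [h1, h2]; ring
  zero_mem' := by intro σ x; simp
  smul_mem' := by
    intro c a ha σ x
    have h1 := ha σ x
    simp only [PiLp.smul_apply, smul_eq_mul] at *
    rw [h1]; ring

/-- spin operator `J_z` on `U_Q`: `J_z e_a = (Q/2 - a) e_a` -/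
noncomputable def Jz (Q : ℕ) : Matrix (Fin (Q + 1)) (Fin (Q + 1)) ℂ :=
  Matrix.diagonal fun a => (Q : ℂ) / 2 - ((a : ℕ) : ℂ)

/-- raising operator `J_+` on `U_Q`: `J_+ e_b = sqrt (b (Q - b + 1)) e_{b-1}` -/
noncomputable def Jp (Q : ℕ) : Matrix (Fin (Q + 1)) (Fin (Q + 1)) ℂ :=
  Matrix.of fun a b =>
    if (b : ℕ) = (a : ℕ) + 1 then
      ((Real.sqrt (((b : ℕ) : ℝ) * ((Q : ℝ) - ((b : ℕ) : ℝ) + 1)) : ℝ) : ℂ)
    else 0

/-- lowering operator `J_-`, the adjoint of `J_+` -/
noncomputable def Jm (Q : ℕ) : Matrix (Fin (Q + 1)) (Fin (Q + 1)) ℂ := (Jp Q)ᴴ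

/-- `A ⊗ 1 + 1 ⊗ A` on `U_Q ⊗ U_Q` -/
noncomputable def total {Q : ℕ} (A : Matrix (Fin (Q + 1)) (Fin (Q + 1)) ℂ) :
    Matrix (Fin (Q + 1) × Fin (Q + 1)) (Fin (Q + 1) × Fin (Q + 1)) ℂ :=
  A ⊗ₖ (1 : Matrix (Fin (Q + 1)) (Fin (Q + 1)) ℂ) + (1 : Matrix (Fin (Q + 1)) (Fin (Q + 1)) ℂ) ⊗ₖ A

/-- total spin squared `J_x^2 + J_y^2 + J_z^2` on `U_Q ⊗ U_Q` -/
noncomputable def spinSq (Q : ℕ) :
    Matrix (Fin (Q + 1) × Fin (Q + 1)) (Fin (Q + 1) × Fin (Q + 1)) ℂ :=
  total (Jz Q) * total (Jz Q)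
    + (1 / 2 : ℂ) • (total (Jp Q) * total (Jm Q) + total (Jm Q) * total (Jp Q))

/-- the component of `U_Q ⊗ U_Q` of total spin `J` (eigenvalue `J (J + 1)` of `spinSq`) -/
noncomputable def spinComponent (Q : ℕ) (J : ℂ) :
    Submodule ℂ (EuclideanSpace ℂ (Fin (Q + 1) × Fin (Q + 1))) :=
  LinearMap.ker (Matrix.toEuclideanLin (spinSq Q - (J * (J + 1)) • 1))

/-- the pair projection: orthogonal projection of `U_Q ⊗ U_Q` onto total spin `Q - 1` -/
noncomputable def pairProj (Q : ℕ) :
    EuclideanSpace ℂ (Fin (Q + 1) × Fin (Q + 1)) →L[ℂ]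
      EuclideanSpace ℂ (Fin (Q + 1) × Fin (Q + 1)) :=
  (spinComponent Q ((Q : ℂ) - 1)).starProjection

/-- the two-particle tensor obtained from `Ψ` by freezing all coordinates of `x` except the
`i`-th and the `j`-th -/
noncomputable def slice {N Q : ℕ} (i j : Fin N) (Ψ : Tensors N Q) (x : Fin N → Fin (Q + 1)) :
    EuclideanSpace ℂ (Fin (Q + 1) × Fin (Q + 1)) :=
  WithLp.toLp 2 fun p => Ψ (Function.update (Function.update x i p.1) j p.2)

/-- `P_{ij}`: the pair projection acting on the tensor factors `i` and `j` -/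
noncomputable def pairTerm {N Q : ℕ} (i j : Fin N) (Ψ : Tensors N Q) : Tensors N Q :=
  WithLp.toLp 2 fun x => pairProj Q (slice i j Ψ x) (x i, x j)

/-- the Hamiltonian `H_{N,Q} = ∑_{i<j} P_{ij}` -/
noncomputable def hamiltonian (N Q : ℕ) (Ψ : Tensors N Q) : Tensors N Q :=
  ∑ i : Fin N, ∑ j ∈ Finset.Ioi i, pairTerm i j Ψ

/-- `∏_{i<j} (u_i v_j - u_j v_i)^3`, with `u_i = X (i, false)` and `v_i = X (i, true)` -/
noncomputable def laughlinPoly (N : ℕ) : MvPolynomial (Fin N × Bool) ℂ :=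
  ∏ i : Fin N, ∏ j ∈ Finset.Ioi i,
    (MvPolynomial.X (i, false) * MvPolynomial.X (j, true)
      - MvPolynomial.X (j, false) * MvPolynomial.X (i, true)) ^ 3

/-- the exponent of the monomial `∏_i u_i^(Q - x_i) v_i^(x_i)` -/
noncomputable def expo {N Q : ℕ} (x : Fin N → Fin (Q + 1)) : Fin N × Bool →₀ ℕ :=
  Finsupp.equivFunOnFinite.symm fun p => if p.2 then (x p.1 : ℕ) else Q - (x p.1 : ℕ)

/-- the Laughlin vector at flux `Q = 3 (N - 1)`: the polynomial
`∑_x c_x ∏_i u_i^(Q - x_i) v_i^(x_i)` has the coordinates `c_x / ∏_i sqrt (binom Q (x_i))`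
in the orthonormal basis -/
noncomputable def laughlin (N : ℕ) : Tensors N (3 * (N - 1)) :=
  WithLp.toLp 2 fun x => (laughlinPoly N).coeff (expo x)
    / ∏ i : Fin N, ((Real.sqrt (Nat.choose (3 * (N - 1)) (x i : ℕ)) : ℝ) : ℂ)

end Vale.Agent.P359
end
end

section

section

/-!
Bridge between first quantization (antisymmetric functions on `Fin N → Fin n`) and Fock space.
-/

namespace Vale.Agent.P359

open Finset

/-- real antisymmetric functions of `N` orbitals -/
def IsAnti {N n : ℕ} (Φ : (Fin N → Fin n) → ℝ) : Prop :=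
  ∀ (σ : Equiv.Perm (Fin N)) (x : Fin N → Fin n),
    Φ (x ∘ σ) = ((Equiv.Perm.sign σ : ℤ) : ℝ) * Φ x

namespace IsAnti

variable {N n : ℕ}

theorem smul {Φ : (Fin N → Fin n) → ℝ} (c : ℝ) (h1 : IsAnti Φ) : IsAnti (c • Φ) := by
  intro σ x
  simp only [Pi.smul_apply, smul_eq_mul, h1 σ x]
  ring

theorem sub {Φ Ψ : (Fin N → Fin n) → ℝ} (h1 : IsAnti Φ) (h2 : IsAnti Ψ) : IsAnti (Φ - Ψ) := by
  intro σ x
  simp only [Pi.sub_apply, h1 σ x, h2 σ x]
  ring

theorem sum {ι : Type*} (s : Finset ι) {Φ : ι → (Fin N → Fin n) → ℝ}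
    (h : ∀ i ∈ s, IsAnti (Φ i)) : IsAnti (∑ i ∈ s, Φ i) := by
  intro σ x
  rw [Finset.sum_apply, Finset.sum_apply, mul_sum]
  exact sum_congr rfl (fun i hi => h i hi σ x)

theorem eq_zero {Φ : (Fin N → Fin n) → ℝ} (hΦ : IsAnti Φ) {x : Fin N → Fin n}
    (hx : ¬ Function.Injective x) : Φ x = 0 := by
  unfold Function.Injective at hx
  push Not at hx
  obtain ⟨i, j, hij, hne⟩ := hx
  have h1 : x ∘ (Equiv.swap i j) = x := by
    funext k
    simp only [Function.comp_apply]
    rcases eq_or_ne k i with hk | hk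
    · rw [hk, Equiv.swap_apply_left, hij]
    · rcases eq_or_ne k j with hk' | hk'
      · rw [hk', Equiv.swap_apply_right, hij]
      · rw [Equiv.swap_apply_of_ne_of_ne hk hk']
  have h2 := hΦ (Equiv.swap i j) x
  rw [h1, Equiv.Perm.sign_swap hne] at h2
  push_cast at h2
  linarith only [h2]

theorem cons {Φ : (Fin (N + 1) → Fin n) → ℝ} (hΦ : IsAnti Φ) (a : Fin n) :
    IsAnti (fun y : Fin N → Fin n => Φ (Fin.cons a y)) := by
  intro σ y
  have h1 : (Fin.cons a (y ∘ σ) : Fin (N + 1) → Fin n) =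
      (Fin.cons a y : Fin (N + 1) → Fin n) ∘ (Equiv.Perm.decomposeFin.symm (0, σ)) := by
    funext k
    refine Fin.cases ?_ (fun k => ?_) k
    · simp [Equiv.Perm.decomposeFin_symm_apply_zero]
    · simp [Equiv.Perm.decomposeFin_symm_apply_succ]
  show Φ (Fin.cons a (y ∘ σ)) = _
  rw [h1, hΦ, Equiv.Perm.decomposeFin.symm_sign]
  simp

end IsAnti

/-- the Fock vector of a function of `N` orbitals -/
noncomputable def toFock {N n : ℕ} : ((Fin N → Fin n) → ℝ) →ₗ[ℝ] Fock n where
  toFun Φ := WithLp.toLp 2 fun S =>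
    if h : S.card = N then Real.sqrt (N.factorial : ℝ) * Φ (S.orderEmbOfFin h) else 0
  map_add' := by
    intro x y
    ext S
    simp only [PiLp.add_apply, Pi.add_apply]
    split_ifs <;> ring
  map_smul' := by
    intro c x
    ext S
    simp only [PiLp.smul_apply, smul_eq_mul, RingHom.id_apply, Pi.smul_apply]
    split_ifs <;> ring

variable {N n : ℕ}

theorem toFock_apply (Φ : (Fin N → Fin n) → ℝ) (S : Finset (Fin n)) (h : S.card = N) :
    toFock Φ S = Real.sqrt (N.factorial : ℝ) * Φ (S.orderEmbOfFin h) := by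
  simp only [toFock, LinearMap.coe_mk, AddHom.coe_mk, h, ↓reduceDIte]

theorem toFock_apply_ne (Φ : (Fin N → Fin n) → ℝ) (S : Finset (Fin n)) (h : S.card ≠ N) :
    toFock Φ S = 0 := by
  simp only [toFock, LinearMap.coe_mk, AddHom.coe_mk, h, ↓reduceDIte]

theorem ann_apply_pow (a : Fin n) (F : Fock n) (S : Finset (Fin n)) :
    ann a F S = if a ∈ S then 0 else (-1 : ℝ) ^ (S.filter (· < a)).card * F (insert a S) := rfl

/-- value of an antisymmetric function when one orbital is put in front of a sorted list -/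
theorem cons_orderEmb {Φ : (Fin (N + 1) → Fin n) → ℝ} (hΦ : IsAnti Φ) {a : Fin n}
    {S : Finset (Fin n)} (h : S.card = N) (h' : (insert a S).card = N + 1) :
    Φ (Fin.cons a (S.orderEmbOfFin h)) =
      (-1 : ℝ) ^ (S.filter (· < a)).card * Φ ((insert a S).orderEmbOfFin h') := by
  set T := insert a S with hT
  set e := T.orderEmbOfFin h' with he
  have haT : a ∈ Set.range e := by
    rw [he, range_orderEmbOfFin]
    exact mem_coe.mpr (mem_insert_self a S)
  obtain ⟨i, hi⟩ := haT
  have h1 : (fun k => e (i.succAbove k)) = S.orderEmbOfFin h := by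
    refine orderEmbOfFin_unique h (fun k => ?_) (fun k l hkl => ?_)
    · have hmem : e (i.succAbove k) ∈ T := orderEmbOfFin_mem T h' _
      rcases mem_insert.mp hmem with hk | hk
      · exfalso
        rw [← hi] at hk
        exact Fin.succAbove_ne i k (e.injective hk)
      · exact hk
    · exact e.strictMono (Fin.strictMono_succAbove i hkl)
  have h2 : (Fin.cons a (S.orderEmbOfFin h) : Fin (N + 1) → Fin n) =
      (e : Fin (N + 1) → Fin n) ∘ (i.cycleRange.symm : Equiv.Perm (Fin (N + 1))) := by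
    funext k
    refine Fin.cases ?_ (fun k => ?_) k
    · simp only [Fin.cons_zero, Function.comp_apply, Fin.cycleRange_symm_zero, hi]
    · simp only [Fin.cons_succ, Function.comp_apply, Fin.cycleRange_symm_succ]
      exact (congrFun h1 k).symm
  have h3 : (S.filter (· < a)).card = (i : ℕ) := by
    have h4 : S.filter (· < a) = (Iio i).map e.toEmbedding := by
      ext b
      simp only [mem_filter, mem_map, mem_Iio]
      constructor
      · rintro ⟨hb, hba⟩
        have hbT : b ∈ Set.range e := by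
          rw [he, range_orderEmbOfFin]
          exact mem_coe.mpr (mem_insert_of_mem hb)
        obtain ⟨k, hk⟩ := hbT
        refine ⟨k, ?_, hk⟩
        rw [← hk, ← hi] at hba
        exact e.lt_iff_lt.mp hba
      · rintro ⟨k, hk, hk'⟩
        have hba : b < a := by
          rw [← hk', ← hi]
          exact e.lt_iff_lt.mpr hk
        refine ⟨?_, hba⟩
        have hmem : e k ∈ T := orderEmbOfFin_mem T h' _
        have hk'' : e k = b := hk'
        rw [hk''] at hmem
        rcases mem_insert.mp hmem with hb | hb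
        · exact absurd hb hba.ne
        · exact hb
    rw [h4, card_map, Fin.card_Iio]
  rw [h2, hΦ, h3]
  congr 1
  have h5 : Equiv.Perm.sign (i.cycleRange.symm : Equiv.Perm (Fin (N + 1))) =
      (-1) ^ (i : ℕ) := by
    rw [Equiv.Perm.sign_symm, Fin.sign_cycleRange]
  rw [h5]
  push_cast
  rfl

/-- annihilation in first quantization: freeze the first argument -/
theorem ann_toFock {Φ : (Fin (N + 1) → Fin n) → ℝ} (hΦ : IsAnti Φ) (a : Fin n) :
    ann a (toFock Φ) =
      Real.sqrt ((N : ℝ) + 1) • toFock (fun y : Fin N → Fin n => Φ (Fin.cons a y)) := by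
  ext S
  rw [ann_apply_pow, PiLp.smul_apply, smul_eq_mul]
  by_cases haS : a ∈ S
  · rw [if_pos haS]
    by_cases h : S.card = N
    · rw [toFock_apply _ S h]
      have h1 : ¬ Function.Injective (Fin.cons a (S.orderEmbOfFin h) : Fin (N + 1) → Fin n) := by
        intro hinj
        have haT : a ∈ Set.range (S.orderEmbOfFin h) := by
          rw [range_orderEmbOfFin]
          exact mem_coe.mpr haS
        obtain ⟨k, hk⟩ := haT
        have h2 : (Fin.cons a (S.orderEmbOfFin h) : Fin (N + 1) → Fin n) 0 =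
            (Fin.cons a (S.orderEmbOfFin h) : Fin (N + 1) → Fin n) k.succ := by
          simp only [Fin.cons_zero, Fin.cons_succ, hk]
        exact absurd (hinj h2) (Fin.succ_ne_zero k).symm
      rw [hΦ.eq_zero h1]
      ring
    · rw [toFock_apply_ne _ S h]
      ring
  · rw [if_neg haS]
    by_cases h : S.card = N
    · have h' : (insert a S).card = N + 1 := by rw [card_insert_of_notMem haS, h]
      rw [toFock_apply _ S h, toFock_apply _ _ h', cons_orderEmb hΦ h h']
      have h3 : Real.sqrt ((N + 1).factorial : ℝ) =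
          Real.sqrt ((N : ℝ) + 1) * Real.sqrt (N.factorial : ℝ) := by
        rw [Nat.factorial_succ, Nat.cast_mul, Real.sqrt_mul (by positivity)]
        push_cast
        rfl
      rw [h3]
      ring
    · have h' : (insert a S).card ≠ N + 1 := by
        rw [card_insert_of_notMem haS]
        omega
      rw [toFock_apply_ne _ S h, toFock_apply_ne _ _ h']
      ring

theorem ann_toFock_zero (Φ : (Fin 0 → Fin n) → ℝ) (a : Fin n) : ann a (toFock Φ) = 0 := by
  ext S
  rw [ann_apply_pow]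
  have h : toFock Φ (insert a S) = 0 := by
    refine toFock_apply_ne _ _ ?_
    exact (card_pos.mpr ⟨a, mem_insert_self a S⟩).ne'
  rw [h]
  simp only [mul_zero, ite_self, PiLp.zero_apply]

/-- number operator identity -/
theorem sum_ann_norm_sq (F : Fock n) (hF : ∀ S : Finset (Fin n), S.card ≠ N → F S = 0) :
    ∑ a, ‖ann a F‖ ^ 2 = (N : ℝ) * ‖F‖ ^ 2 := by
  have h1 : ∀ a : Fin n, ‖ann a F‖ ^ 2 = ∑ T : Finset (Fin n), if a ∈ T then F T ^ 2 else 0 := by
    intro a
    rw [EuclideanSpace.real_norm_sq_eq]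
    have h2 : ∀ S : Finset (Fin n), (ann a F S) ^ 2 =
        if a ∉ S then F (insert a S) ^ 2 else 0 := by
      intro S
      rw [ann_apply_pow]
      by_cases ha : a ∈ S
      · simp [ha]
      · rw [if_neg ha, if_pos ha, mul_pow, ← pow_mul, mul_comm _ 2, pow_mul]
        simp only [even_two, Even.neg_pow, one_pow, one_mul]
    rw [sum_congr rfl (fun S _ => h2 S), ← sum_filter, ← sum_filter]
    refine sum_nbij' (fun S => insert a S) (fun T => T.erase a) ?_ ?_ ?_ ?_ ?_
    · intro S hS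
      simp
    · intro T hT
      simp
    · intro S hS
      exact erase_insert (mem_filter.mp hS).2
    · intro T hT
      exact insert_erase (mem_filter.mp hT).2
    · intro S hS
      rfl
  rw [sum_congr rfl (fun a _ => h1 a), sum_comm, EuclideanSpace.real_norm_sq_eq, mul_sum]
  refine sum_congr rfl (fun T _ => ?_)
  rw [← sum_filter, sum_const, nsmul_eq_mul]
  have h3 : (univ.filter (fun a => a ∈ T)).card = T.card := by simp only [subset_univ, filter_mem_eq_of_subset]
  rw [h3]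
  by_cases hT : T.card = N
  · rw [hT]
  · rw [hF T hT]
    ring

/-- `toFock` is isometric on antisymmetric functions -/
theorem norm_toFock_sq : ∀ {N : ℕ} {Φ : (Fin N → Fin n) → ℝ}, IsAnti Φ →
    ‖toFock Φ‖ ^ 2 = ∑ x, Φ x ^ 2 := by
  intro N
  induction N with
  | zero =>
    intro Φ _
    rw [EuclideanSpace.real_norm_sq_eq]
    have h1 : ∀ S : Finset (Fin n), S ≠ ∅ → (toFock Φ S) ^ 2 = 0 := by
      intro S hS
      rw [toFock_apply_ne _ S (fun h => hS (card_eq_zero.mp h))]
      simp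
    rw [sum_eq_single (∅ : Finset (Fin n)) (fun S _ hS => h1 S hS) (by simp)]
    rw [toFock_apply Φ ∅ card_empty]
    simp only [Nat.factorial_zero, Nat.cast_one, Real.sqrt_one, one_mul]
    rw [Fintype.sum_unique]
    congr 2
    exact Subsingleton.elim _ _
  | succ N ih =>
    intro Φ hΦ
    have h1 := sum_ann_norm_sq (N := N + 1) (toFock Φ) (fun S hS => toFock_apply_ne Φ S hS)
    have h2 : ∀ a : Fin n, ‖ann a (toFock Φ)‖ ^ 2 =
        ((N : ℝ) + 1) * ∑ y : Fin N → Fin n, Φ (Fin.cons a y) ^ 2 := by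
      intro a
      rw [ann_toFock hΦ, norm_smul, mul_pow, ih (hΦ.cons a), Real.norm_eq_abs, sq_abs,
        Real.sq_sqrt (by positivity)]
    rw [sum_congr rfl (fun a _ => h2 a), ← mul_sum] at h1
    have h3 : ((N : ℝ) + 1) ≠ 0 := by positivity
    have h4 : ∑ a : Fin n, ∑ y : Fin N → Fin n, Φ (Fin.cons a y) ^ 2 = ∑ x, Φ x ^ 2 := by
      rw [← Fintype.sum_prod_type']
      exact Fintype.sum_equiv (Fin.consEquiv (fun _ => Fin n)) _ _ (fun p => rfl)
    rw [h4] at h1
    push_cast at h1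
    exact (mul_left_cancel₀ h3 h1).symm

/-- inverse of `toFock` on the `N`-particle sector -/
noncomputable def fromFock (N : ℕ) {n : ℕ} (F : Fock n) : (Fin N → Fin n) → ℝ := by
  classical
  exact fun x => if Function.Injective x then
    (Real.sqrt (N.factorial : ℝ))⁻¹ * ((Equiv.Perm.sign (Tuple.sort x) : ℤ) : ℝ) *
      F (univ.image x) else 0

theorem fromFock_anti (F : Fock n) : IsAnti (fromFock N F) := by
  classical
  intro σ x
  by_cases hx : Function.Injective x
  · have hx' : Function.Injective (x ∘ σ) := hx.comp σ.injective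
    have h1 : σ * Tuple.sort (x ∘ σ) = Tuple.sort x := by
      have h2 := Tuple.comp_perm_comp_sort_eq_comp_sort (f := x) (σ := σ)
      refine Equiv.ext (fun k => ?_)
      have h3 := congrFun h2 k
      simp only [Function.comp_apply] at h3
      exact hx h3
    have h4 : Equiv.Perm.sign (Tuple.sort (x ∘ σ)) =
        Equiv.Perm.sign σ * Equiv.Perm.sign (Tuple.sort x) := by
      rw [← h1, Equiv.Perm.sign_mul, ← mul_assoc]
      rw [Int.units_mul_self, one_mul]
    have h5 : univ.image (x ∘ σ) = univ.image x := by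
      rw [← image_image, image_univ_equiv]
    simp only [fromFock, if_pos hx, if_pos hx', h4, h5]
    push_cast
    ring
  · have hx' : ¬ Function.Injective (x ∘ σ) := by
      intro h
      apply hx
      have := h.comp σ.symm.injective
      rwa [Function.comp_assoc, Equiv.self_comp_symm, Function.comp_id] at this
    simp only [fromFock, if_neg hx, if_neg hx']
    ring

theorem sqrt_factorial_pos (N : ℕ) : 0 < Real.sqrt (N.factorial : ℝ) :=
  Real.sqrt_pos.mpr (by exact_mod_cast N.factorial_pos)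

theorem toFock_fromFock (F : Fock n) (hF : ∀ S : Finset (Fin n), S.card ≠ N → F S = 0) :
    toFock (fromFock N F) = F := by
  classical
  ext S
  by_cases h : S.card = N
  · rw [toFock_apply _ S h]
    have hinj : Function.Injective (S.orderEmbOfFin h) := (S.orderEmbOfFin h).injective
    have h1 : Tuple.sort (S.orderEmbOfFin h) = Equiv.refl _ :=
      Tuple.sort_eq_refl_iff_monotone.mpr (S.orderEmbOfFin h).monotone
    have h2 : univ.image (S.orderEmbOfFin h) = S := image_orderEmbOfFin_univ S h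
    simp only [fromFock, if_pos hinj, h1, h2, Equiv.Perm.sign_refl]
    have h3 := (sqrt_factorial_pos N).ne'
    field_simp
    simp
  · rw [toFock_apply_ne _ S h, hF S h]

/-! ### Pair contractions -/

/-- contraction of `Φ` with the pair vector of index `s` in the coordinates `i, j` -/
noncomputable def contr {N Q : ℕ} (s : ℕ) (Φ : (Fin N → Fin (Q + 1)) → ℝ) (i j : Fin N)
    (x : Fin N → Fin (Q + 1)) : ℝ :=
  ∑ p : Fin (Q + 1), ∑ q : Fin (Q + 1), if (p : ℕ) + q = s + 1 then
    beta Q p q / Real.sqrt 2 * Φ (Function.update (Function.update x i p) j q) else 0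

theorem beta_swap (Q a b : ℕ) : beta Q b a = - beta Q a b := by
  unfold beta
  rw [add_comm b a, mul_comm (Nat.choose Q b : ℝ)]
  ring

theorem beta_self (Q a : ℕ) : beta Q a a = 0 := by
  unfold beta
  rw [sub_self, zero_mul]

/-- the `(N-2)`-particle function behind `b_s Φ` -/
noncomputable def pairRest {N Q : ℕ} (s : ℕ) (Φ : (Fin (N + 2) → Fin (Q + 1)) → ℝ) :
    (Fin N → Fin (Q + 1)) → ℝ :=
  ∑ a : Fin (Q + 1), ∑ b ∈ univ.filter (fun b : Fin (Q + 1) => a < b ∧ (a : ℕ) + b = s + 1),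
    beta Q a b • fun y => Φ (Fin.cons b (Fin.cons a y))

theorem pairRest_apply {N Q : ℕ} (s : ℕ) (Φ : (Fin (N + 2) → Fin (Q + 1)) → ℝ)
    (y : Fin N → Fin (Q + 1)) : pairRest s Φ y =
      ∑ a : Fin (Q + 1), ∑ b : Fin (Q + 1), if a < b ∧ (a : ℕ) + b = s + 1 then
        beta Q a b * Φ (Fin.cons b (Fin.cons a y)) else 0 := by
  unfold pairRest
  rw [Finset.sum_apply]
  refine sum_congr rfl (fun a _ => ?_)
  rw [Finset.sum_apply, sum_filter]
  refine sum_congr rfl (fun b _ => ?_)
  rfl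

theorem pairRest_anti {N Q : ℕ} (s : ℕ) {Φ : (Fin (N + 2) → Fin (Q + 1)) → ℝ} (hΦ : IsAnti Φ) :
    IsAnti (pairRest s Φ) :=
  IsAnti.sum _ (fun a _ => IsAnti.sum _ (fun b _ => ((hΦ.cons b).cons a).smul _))

theorem pairAnn_toFock {N Q : ℕ} (s : ℕ) {Φ : (Fin (N + 2) → Fin (Q + 1)) → ℝ}
    (hΦ : IsAnti Φ) : pairAnn Q s (toFock Φ) =
      (Real.sqrt ((N : ℝ) + 2) * Real.sqrt ((N : ℝ) + 1)) • toFock (pairRest s Φ) := by
  unfold pairAnn pairRest
  simp only [LinearMap.sum_apply, LinearMap.smul_apply, LinearMap.comp_apply, map_sum, map_smul,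
    smul_sum]
  refine sum_congr rfl (fun a _ => sum_congr rfl (fun b _ => ?_))
  rw [ann_toFock hΦ b, map_smul, ann_toFock (hΦ.cons b) a, smul_smul, smul_smul, smul_smul]
  congr 1
  push_cast
  rw [show (N : ℝ) + 1 + 1 = (N : ℝ) + 2 by ring]
  ring

theorem pairAnn_toFock_zero {Q : ℕ} (s : ℕ) (Φ : (Fin 0 → Fin (Q + 1)) → ℝ) :
    pairAnn Q s (toFock Φ) = 0 := by
  unfold pairAnn
  simp only [LinearMap.sum_apply, LinearMap.smul_apply, LinearMap.comp_apply]
  refine sum_eq_zero (fun a _ => sum_eq_zero (fun b _ => ?_))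
  rw [ann_toFock_zero, map_zero, smul_zero]

theorem pairAnn_toFock_one {Q : ℕ} (s : ℕ) {Φ : (Fin 1 → Fin (Q + 1)) → ℝ} (hΦ : IsAnti Φ) :
    pairAnn Q s (toFock Φ) = 0 := by
  unfold pairAnn
  simp only [LinearMap.sum_apply, LinearMap.smul_apply, LinearMap.comp_apply]
  refine sum_eq_zero (fun a _ => sum_eq_zero (fun b _ => ?_))
  rw [ann_toFock hΦ, map_smul, ann_toFock_zero, smul_zero, smul_zero]

theorem swap_cons {N Q : ℕ} {Φ : (Fin (N + 2) → Fin (Q + 1)) → ℝ} (hΦ : IsAnti Φ)
    (p q : Fin (Q + 1)) (y : Fin N → Fin (Q + 1)) :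
    Φ (Fin.cons p (Fin.cons q y)) = - Φ (Fin.cons q (Fin.cons p y)) := by
  have h1 : (Fin.cons p (Fin.cons q y) : Fin (N + 2) → Fin (Q + 1)) =
      (Fin.cons q (Fin.cons p y) : Fin (N + 2) → Fin (Q + 1)) ∘ (Equiv.swap 0 1) := by
    funext k
    refine Fin.cases ?_ (fun k => ?_) k
    · rw [Function.comp_apply, Equiv.swap_apply_left]
      rfl
    · refine Fin.cases ?_ (fun k => ?_) k
      · have : (Fin.succ (0 : Fin (N + 1)) : Fin (N + 2)) = 1 := rfl
        rw [Function.comp_apply, this, Equiv.swap_apply_right]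
        rfl
      · rw [Function.comp_apply, Equiv.swap_apply_of_ne_of_ne (Fin.succ_ne_zero _)]
        · rfl
        · intro h
          have h2 : (k.succ.succ : Fin (N + 2)) = Fin.succ (0 : Fin (N + 1)) := h
          exact Fin.succ_ne_zero k (Fin.succ_injective _ h2)
  have h01 : (0 : Fin (N + 2)) ≠ 1 := by
    intro h
    exact absurd (congrArg Fin.val h) (by simp)
  rw [h1, hΦ, Equiv.Perm.sign_swap h01]
  push_cast
  ring

theorem update_cons {N Q : ℕ} (a b p q : Fin (Q + 1)) (y : Fin N → Fin (Q + 1)) :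
    Function.update (Function.update (Fin.cons a (Fin.cons b y) : Fin (N + 2) → Fin (Q + 1))
      0 p) 1 q = Fin.cons p (Fin.cons q y) := by
  rw [Fin.update_cons_zero]
  have : (1 : Fin (N + 2)) = Fin.succ (0 : Fin (N + 1)) := rfl
  rw [this, ← Fin.cons_update, Fin.update_cons_zero]

theorem contr_cons {N Q : ℕ} (s : ℕ) {Φ : (Fin (N + 2) → Fin (Q + 1)) → ℝ} (hΦ : IsAnti Φ)
    (a b : Fin (Q + 1)) (y : Fin N → Fin (Q + 1)) :
    contr s Φ 0 1 (Fin.cons a (Fin.cons b y)) = - (Real.sqrt 2 * pairRest s Φ y) := by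
  unfold contr
  simp only [update_cons]
  have h1 : ∀ p q : Fin (Q + 1), (if (p : ℕ) + q = s + 1 then
      beta Q p q / Real.sqrt 2 * Φ (Fin.cons p (Fin.cons q y)) else 0) =
      (if p < q ∧ (p : ℕ) + q = s + 1 then
        beta Q p q / Real.sqrt 2 * Φ (Fin.cons p (Fin.cons q y)) else 0) +
      (if q < p ∧ (q : ℕ) + p = s + 1 then
        beta Q q p / Real.sqrt 2 * Φ (Fin.cons q (Fin.cons p y)) else 0) := by
    intro p q
    rcases lt_trichotomy p q with h | h | h
    · simp only [h, true_and, h.not_gt, false_and, ↓reduceIte, add_zero]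
    · subst h
      simp [beta_self]
    · rw [swap_cons hΦ p q, beta_swap Q q p, add_comm (p : ℕ) q]
      simp only [mul_neg, h.not_gt, false_and, ↓reduceIte, h, true_and, zero_add]
      split_ifs <;> ring
  simp only [h1, sum_add_distrib]
  have h2 : ∑ p : Fin (Q + 1), ∑ q : Fin (Q + 1), (if q < p ∧ (q : ℕ) + p = s + 1 then
        beta Q q p / Real.sqrt 2 * Φ (Fin.cons q (Fin.cons p y)) else 0) =
      ∑ p : Fin (Q + 1), ∑ q : Fin (Q + 1), (if p < q ∧ (p : ℕ) + q = s + 1 then
        beta Q p q / Real.sqrt 2 * Φ (Fin.cons p (Fin.cons q y)) else 0) := sum_comm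
  rw [h2, ← two_mul, pairRest_apply, mul_sum, mul_sum, ← sum_neg_distrib]
  refine sum_congr rfl (fun p _ => ?_)
  rw [mul_sum, mul_sum, ← sum_neg_distrib]
  refine sum_congr rfl (fun q _ => ?_)
  split_ifs with h
  · rw [swap_cons hΦ p q]
    have h3 : Real.sqrt 2 ≠ 0 := by positivity
    have h4 : Real.sqrt 2 * Real.sqrt 2 = 2 := Real.mul_self_sqrt (by norm_num)
    field_simp
    linear_combination beta Q p q * Φ (Fin.cons q (Fin.cons p y)) * h4
  · ring

theorem contr_perm {N Q : ℕ} (s : ℕ) {Φ : (Fin N → Fin (Q + 1)) → ℝ} (hΦ : IsAnti Φ)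
    (σ : Equiv.Perm (Fin N)) (i j : Fin N) (x : Fin N → Fin (Q + 1)) :
    contr s Φ (σ.symm i) (σ.symm j) (x ∘ σ) =
      ((Equiv.Perm.sign σ : ℤ) : ℝ) * contr s Φ i j x := by
  unfold contr
  rw [mul_sum]
  refine sum_congr rfl (fun p _ => ?_)
  rw [mul_sum]
  refine sum_congr rfl (fun q _ => ?_)
  rw [← Function.update_comp_equiv, ← Function.update_comp_equiv, hΦ]
  split_ifs <;> ring

theorem sq_sign {N : ℕ} (σ : Equiv.Perm (Fin N)) : (((Equiv.Perm.sign σ : ℤ) : ℝ)) ^ 2 = 1 := by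
  rcases Int.units_eq_one_or (Equiv.Perm.sign σ) with h | h <;> simp only [h, Units.val_neg, Units.val_one, Int.reduceNeg, Int.cast_neg, Int.cast_one, even_two, Even.neg_pow, one_pow]

theorem exists_perm {N : ℕ} {i j : Fin (N + 2)} (hij : i ≠ j) :
    ∃ σ : Equiv.Perm (Fin (N + 2)), σ.symm i = 0 ∧ σ.symm j = 1 := by
  have h01 : (0 : Fin (N + 2)) ≠ 1 := by
    intro h
    exact absurd (congrArg Fin.val h) (by simp)
  set k := Equiv.swap 0 i j with hk
  have hk0 : k ≠ 0 := by
    intro h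
    have h1 : Equiv.swap 0 i k = j := by rw [hk, Equiv.swap_apply_self]
    rw [h, Equiv.swap_apply_left] at h1
    exact hij h1
  refine ⟨Equiv.swap 0 i * Equiv.swap 1 k, ?_, ?_⟩
  · rw [Equiv.symm_apply_eq, Equiv.Perm.mul_apply,
      Equiv.swap_apply_of_ne_of_ne h01 hk0.symm, Equiv.swap_apply_left]
  · rw [Equiv.symm_apply_eq, Equiv.Perm.mul_apply, Equiv.swap_apply_left, hk,
      Equiv.swap_apply_self]

theorem sum_contr_sq {N Q : ℕ} (s : ℕ) {Φ : (Fin (N + 2) → Fin (Q + 1)) → ℝ} (hΦ : IsAnti Φ)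
    {i j : Fin (N + 2)} (hij : i ≠ j) :
    ∑ x, contr s Φ i j x ^ 2 = ((Q : ℝ) + 1) ^ 2 * (2 * ∑ y, pairRest s Φ y ^ 2) := by
  obtain ⟨σ, h1, h2⟩ := exists_perm hij
  have h3 : ∑ x, contr s Φ i j x ^ 2 = ∑ x, contr s Φ 0 1 x ^ 2 := by
    refine Fintype.sum_equiv (Equiv.arrowCongr σ.symm (Equiv.refl _)) _ _ (fun x => ?_)
    have h4 : (Equiv.arrowCongr σ.symm (Equiv.refl _)) x = x ∘ σ := rfl
    rw [h4, ← h1, ← h2, contr_perm s hΦ, mul_pow, sq_sign, one_mul]
  rw [h3]
  have h5 : ∑ x, contr s Φ 0 1 x ^ 2 = ∑ a : Fin (Q + 1), ∑ b : Fin (Q + 1),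
      ∑ y : Fin N → Fin (Q + 1), contr s Φ 0 1 (Fin.cons a (Fin.cons b y)) ^ 2 := by
    rw [← Fintype.sum_equiv (Fin.consEquiv (fun _ => Fin (Q + 1)))
      (fun p => contr s Φ 0 1 (Fin.cons p.1 p.2) ^ 2) _ (fun p => rfl), Fintype.sum_prod_type]
    refine sum_congr rfl (fun a _ => ?_)
    rw [← Fintype.sum_equiv (Fin.consEquiv (fun _ => Fin (Q + 1)))
      (fun p => contr s Φ 0 1 (Fin.cons a (Fin.cons p.1 p.2)) ^ 2) _ (fun p => rfl),
      Fintype.sum_prod_type]
  rw [h5]
  have h6 : ∀ (a b : Fin (Q + 1)) (y : Fin N → Fin (Q + 1)),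
      contr s Φ 0 1 (Fin.cons a (Fin.cons b y)) ^ 2 = 2 * pairRest s Φ y ^ 2 := by
    intro a b y
    rw [contr_cons s hΦ, neg_sq, mul_pow, Real.sq_sqrt (by norm_num)]
  simp only [h6, sum_const, card_univ, Fintype.card_fin, nsmul_eq_mul, ← mul_sum]
  push_cast
  ring

theorem card_pairs (n : ℕ) : (∑ i : Fin n, ((Ioi i).card : ℝ)) * 2 = (n : ℝ) * ((n : ℝ) - 1) := by
  induction n with
  | zero => simp
  | succ n ih =>
    rw [Fin.sum_univ_succ]
    have h1 : ∀ i : Fin n, ((Ioi (Fin.succ i)).card : ℝ) = ((Ioi i).card : ℝ) := by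
      intro i
      rw [Fin.card_Ioi, Fin.card_Ioi]
      congr 1
      simp only [add_tsub_cancel_right, Fin.val_succ]
      omega
    simp only [h1]
    rw [add_mul, ih, Fin.card_Ioi]
    simp only [add_tsub_cancel_right, Fin.coe_ofNat_eq_mod, Nat.zero_mod, tsub_zero, Nat.cast_add, Nat.cast_one, add_sub_cancel_right]
    ring

/-- energy of one pair channel in first quantization -/
theorem norm_pairAnn_toFock_sq {Q : ℕ} (s : ℕ) : ∀ {N : ℕ} {Φ : (Fin N → Fin (Q + 1)) → ℝ},
    IsAnti Φ → ‖pairAnn Q s (toFock Φ)‖ ^ 2 =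
      (∑ i, ∑ j ∈ Ioi i, ∑ x, contr s Φ i j x ^ 2) / ((Q : ℝ) + 1) ^ 2 := by
  intro N Φ hΦ
  match N, Φ, hΦ with
  | 0, Φ, _ => simp only [pairAnn_toFock_zero, norm_zero, ne_eq, OfNat.ofNat_ne_zero, not_false_eq_true, zero_pow, univ_eq_empty, univ_unique, sum_singleton, sum_empty, zero_div]
  | 1, Φ, hΦ => simp only [pairAnn_toFock_one s hΦ, norm_zero, ne_eq, OfNat.ofNat_ne_zero, not_false_eq_true, zero_pow, univ_unique, Fin.default_eq_zero, Fin.isValue, sum_singleton, isMax_iff_eq_top, Fin.zero_eq_top, IsMax.finsetIoi_eq, sum_empty, zero_div]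
  | N + 2, Φ, hΦ =>
    rw [pairAnn_toFock s hΦ, norm_smul, mul_pow, norm_toFock_sq (pairRest_anti s hΦ)]
    have h1 : ∑ i : Fin (N + 2), ∑ j ∈ Ioi i, ∑ x, contr s Φ i j x ^ 2 =
        (∑ i : Fin (N + 2), ((Ioi i).card : ℝ)) *
          (((Q : ℝ) + 1) ^ 2 * (2 * ∑ y, pairRest s Φ y ^ 2)) := by
      rw [sum_mul]
      refine sum_congr rfl (fun i _ => ?_)
      rw [sum_congr rfl (fun j hj => sum_contr_sq s hΦ (mem_Ioi.mp hj).ne), sum_const,
        nsmul_eq_mul]
    have h2 := card_pairs (N + 2)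
    rw [h1, Real.norm_eq_abs, sq_abs, mul_pow, Real.sq_sqrt (by (clear * -; positivity)),
      Real.sq_sqrt (by positivity)]
    have h3 : ((Q : ℝ) + 1) ^ 2 ≠ 0 := by positivity
    rw [eq_div_iff h3]
    push_cast at h2
    linear_combination (-1 : ℝ) * (((Q : ℝ) + 1) ^ 2 * (∑ y, pairRest s Φ y ^ 2)) * h2

/-- the Fock energy in first quantization -/
theorem fockEnergy_toFock {Q N : ℕ} {Φ : (Fin N → Fin (Q + 1)) → ℝ} (hΦ : IsAnti Φ) :
    fockEnergy Q (toFock Φ) = ∑ s ∈ range (2 * Q - 1),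
      (∑ i, ∑ j ∈ Ioi i, ∑ x, contr s Φ i j x ^ 2) / ((Q : ℝ) + 1) ^ 2 :=
  sum_congr rfl (fun s _ => norm_pairAnn_toFock_sq s hΦ)

theorem pairAnn_toFock_eq_zero_iff {Q N : ℕ} (s : ℕ) {Φ : (Fin N → Fin (Q + 1)) → ℝ}
    (hΦ : IsAnti Φ) : pairAnn Q s (toFock Φ) = 0 ↔
      ∀ i j, i < j → ∀ x, contr s Φ i j x = 0 := by
  have h1 := norm_pairAnn_toFock_sq s hΦ
  have h2 : ((Q : ℝ) + 1) ^ 2 ≠ 0 := by positivity
  constructor
  · intro h
    rw [h, norm_zero, eq_comm, zero_pow two_ne_zero, div_eq_zero_iff] at h1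
    have h3 : ∑ i, ∑ j ∈ Ioi i, ∑ x, contr s Φ i j x ^ 2 = 0 := h1.resolve_right h2
    intro i j hij x
    have h4 := (sum_eq_zero_iff_of_nonneg (fun i _ => sum_nonneg (fun j _ =>
      sum_nonneg (fun x _ => sq_nonneg (contr s Φ i j x))))).mp h3 i (mem_univ i)
    have h5 := (sum_eq_zero_iff_of_nonneg (fun j _ =>
      sum_nonneg (fun x _ => sq_nonneg (contr s Φ i j x)))).mp h4 j (mem_Ioi.mpr hij)
    have h6 := (sum_eq_zero_iff_of_nonneg
      (fun x _ => sq_nonneg (contr s Φ i j x))).mp h5 x (mem_univ x)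
    exact pow_eq_zero_iff two_ne_zero |>.mp h6
  · intro h
    have h3 : ∑ i, ∑ j ∈ Ioi i, ∑ x, contr s Φ i j x ^ 2 = 0 := by
      refine sum_eq_zero (fun i _ => sum_eq_zero (fun j hj => sum_eq_zero (fun x _ => ?_)))
      rw [h i j (mem_Ioi.mp hj) x]
      ring
    rw [h3, zero_div] at h1
    exact norm_eq_zero.mp (pow_eq_zero_iff two_ne_zero |>.mp h1)

end Vale.Agent.P359
end
end

section

section

/-!
Complex part of the bridge: the first-quantized energy dominates the Fock energies of the real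
and imaginary parts.
-/

namespace Vale.Agent.P359

open Finset

variable {N Q : ℕ}

theorem re_anti {Ψ : Tensors N Q} (hΨ : Ψ ∈ Fermions N Q) : IsAnti (fun x => (Ψ x).re) := by
  intro σ x
  have h : Ψ (x ∘ σ) = ((Equiv.Perm.sign σ : ℤ) : ℂ) * Ψ x := hΨ σ x
  show (Ψ (x ∘ σ)).re = _
  rw [h, ← Complex.ofReal_intCast, Complex.re_ofReal_mul]

theorem im_anti {Ψ : Tensors N Q} (hΨ : Ψ ∈ Fermions N Q) : IsAnti (fun x => (Ψ x).im) := by
  intro σ x
  have h : Ψ (x ∘ σ) = ((Equiv.Perm.sign σ : ℤ) : ℂ) * Ψ x := hΨ σ x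
  show (Ψ (x ∘ σ)).im = _
  rw [h, ← Complex.ofReal_intCast, Complex.im_ofReal_mul]

/-- summing over one refreshed coordinate -/
theorem sum_updateC {A : Type*} [AddCommMonoid A] (i : Fin N) (h : (Fin N → Fin (Q + 1)) → A) :
    ∑ x : Fin N → Fin (Q + 1), ∑ a : Fin (Q + 1), h (Function.update x i a) =
      (Q + 1) • ∑ x, h x := by
  have h1 : (Q + 1) • ∑ x, h x = ∑ p : (Fin N → Fin (Q + 1)) × Fin (Q + 1), h p.1 := by
    rw [Fintype.sum_prod_type]
    simp only [sum_const, card_univ, Fintype.card_fin]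
    rw [smul_sum]
  rw [h1, ← Fintype.sum_prod_type']
  let e : (Fin N → Fin (Q + 1)) × Fin (Q + 1) ≃ (Fin N → Fin (Q + 1)) × Fin (Q + 1) :=
    { toFun := fun p => (Function.update p.1 i p.2, p.1 i)
      invFun := fun p => (Function.update p.1 i p.2, p.1 i)
      left_inv := fun p => by simp
      right_inv := fun p => by simp }
  exact Fintype.sum_equiv e _ _ (fun p => rfl)

/-- summing over two refreshed coordinates -/
theorem sum_update_two {A : Type*} [AddCommMonoid A] (i j : Fin N)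
    (h : (Fin N → Fin (Q + 1)) → A) :
    ∑ x : Fin N → Fin (Q + 1), ∑ p : Fin (Q + 1) × Fin (Q + 1),
      h (Function.update (Function.update x i p.1) j p.2) =
      (Q + 1) • (Q + 1) • ∑ x, h x := by
  rw [← sum_updateC j h, ← sum_updateC i]
  refine sum_congr rfl (fun x _ => ?_)
  rw [Fintype.sum_prod_type]

theorem slice_apply (i j : Fin N) (Ψ : Tensors N Q) (x : Fin N → Fin (Q + 1))
    (p : Fin (Q + 1) × Fin (Q + 1)) :
    slice i j Ψ x p = Ψ (Function.update (Function.update x i p.1) j p.2) := rfl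

theorem pairTerm_apply (i j : Fin N) (Ψ : Tensors N Q) (x : Fin N → Fin (Q + 1)) :
    pairTerm i j Ψ x = pairProj Q (slice i j Ψ x) (x i, x j) := rfl

theorem update_four {i j : Fin N} (hij : i ≠ j) (x : Fin N → Fin (Q + 1))
    (a b p q : Fin (Q + 1)) :
    Function.update (Function.update (Function.update (Function.update x i a) j b) i p) j q =
      Function.update (Function.update x i p) j q := by
  rw [Function.update_comm hij.symm b p (Function.update x i a), Function.update_idem,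
    Function.update_idem]

theorem slice_update {i j : Fin N} (hij : i ≠ j) (Ψ : Tensors N Q) (x : Fin N → Fin (Q + 1))
    (a b : Fin (Q + 1)) :
    slice i j Ψ (Function.update (Function.update x i a) j b) = slice i j Ψ x := by
  ext p
  rw [slice_apply, slice_apply, update_four hij]

/-- energy of a pair term as an average over the frozen coordinates -/
theorem inner_pairTerm {i j : Fin N} (hij : i ≠ j) (Ψ : Tensors N Q) :
    ((Q : ℂ) + 1) ^ 2 * inner ℂ Ψ (pairTerm i j Ψ) =
      ∑ x : Fin N → Fin (Q + 1), inner ℂ (slice i j Ψ x) (pairProj Q (slice i j Ψ x)) := by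
  have h1 : ∑ x : Fin N → Fin (Q + 1), inner ℂ (slice i j Ψ x) (pairProj Q (slice i j Ψ x)) =
      ∑ x : Fin N → Fin (Q + 1), ∑ p : Fin (Q + 1) × Fin (Q + 1),
        inner ℂ (Ψ (Function.update (Function.update x i p.1) j p.2))
          (pairTerm i j Ψ (Function.update (Function.update x i p.1) j p.2)) := by
    refine sum_congr rfl (fun x _ => ?_)
    rw [PiLp.inner_apply]
    refine sum_congr rfl (fun p _ => ?_)
    have e1 : Function.update (Function.update x i p.1) j p.2 i = p.1 := by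
      rw [Function.update_of_ne hij, Function.update_self]
    have e2 : Function.update (Function.update x i p.1) j p.2 j = p.2 :=
      Function.update_self _ _ _
    rw [slice_apply, pairTerm_apply, slice_update hij, e1, e2]
  rw [h1, sum_update_two i j (fun x => inner ℂ (Ψ x) (pairTerm i j Ψ x)), PiLp.inner_apply]
  simp only [nsmul_eq_mul]
  push_cast
  ring

theorem re_inner_pairTerm {i j : Fin N} (hij : i ≠ j) (Ψ : Tensors N Q) :
    (inner ℂ Ψ (pairTerm i j Ψ)).re =
      (∑ x : Fin N → Fin (Q + 1), ‖pairProj Q (slice i j Ψ x)‖ ^ 2) / ((Q : ℝ) + 1) ^ 2 := by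
  have h1 := inner_pairTerm hij Ψ
  have h2 : ∀ x : Fin N → Fin (Q + 1),
      inner ℂ (slice i j Ψ x) (pairProj Q (slice i j Ψ x)) =
        ((‖pairProj Q (slice i j Ψ x)‖ ^ 2 : ℝ) : ℂ) := by
    intro x
    have h3 : pairProj Q (pairProj Q (slice i j Ψ x)) = pairProj Q (slice i j Ψ x) := by
      unfold pairProj
      exact Submodule.starProjection_eq_self_iff.mpr (Submodule.starProjection_apply_mem _ _)
    conv_lhs => rw [← h3]
    have h4 : ∀ u v, inner ℂ u (pairProj Q v) = inner ℂ (pairProj Q u) v := by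
      intro u v
      unfold pairProj
      rw [Submodule.inner_starProjection_left_eq_right]
    rw [h4, inner_self_eq_norm_sq_to_K]
    push_cast
    rfl
  rw [sum_congr rfl (fun x _ => h2 x), ← Complex.ofReal_sum] at h1
  have h5 : ((Q : ℝ) + 1) ^ 2 ≠ 0 := by (clear * -; positivity)
  rw [eq_div_iff h5]
  have h6 : ((Q : ℂ) + 1) ^ 2 = ((((Q : ℝ) + 1) ^ 2 : ℝ) : ℂ) := by push_cast; rfl
  rw [h6] at h1
  have h7 := congrArg Complex.re h1
  rw [Complex.re_ofReal_mul, Complex.ofReal_re] at h7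
  linarith only [h7]

/-- contraction of a slice with a real pair vector -/
theorem norm_inner_slice_sq {s : ℕ}
    (bv : EuclideanSpace ℂ (Fin (Q + 1) × Fin (Q + 1)))
    (hbv : ∀ p : Fin (Q + 1) × Fin (Q + 1), bv p =
      if (p.1 : ℕ) + p.2 = s + 1 then ((beta Q p.1 p.2 / Real.sqrt 2 : ℝ) : ℂ) else 0)
    (i j : Fin N) (Ψ : Tensors N Q) (x : Fin N → Fin (Q + 1)) :
    ‖inner ℂ bv (slice i j Ψ x)‖ ^ 2 =
      contr s (fun x => (Ψ x).re) i j x ^ 2 + contr s (fun x => (Ψ x).im) i j x ^ 2 := by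
  have h1 : inner ℂ bv (slice i j Ψ x) = ((contr s (fun x => (Ψ x).re) i j x : ℝ) : ℂ) +
      ((contr s (fun x => (Ψ x).im) i j x : ℝ) : ℂ) * Complex.I := by
    rw [PiLp.inner_apply, Fintype.sum_prod_type]
    unfold contr
    rw [Complex.ofReal_sum, Complex.ofReal_sum, sum_mul, ← sum_add_distrib]
    refine sum_congr rfl (fun p _ => ?_)
    rw [Complex.ofReal_sum, Complex.ofReal_sum, sum_mul, ← sum_add_distrib]
    refine sum_congr rfl (fun q _ => ?_)
    rw [hbv, slice_apply, RCLike.inner_apply]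
    simp only
    split_ifs with h
    · rw [Complex.conj_ofReal]
      set z := Ψ (Function.update (Function.update x i p) j q) with hz
      conv_lhs => rw [← Complex.re_add_im z]
      push_cast
      ring
    · simp
  rw [h1, ← Complex.normSq_eq_norm_sq, Complex.normSq_add_mul_I]

theorem re_inner_hamiltonian (Ψ : Tensors N Q) :
    (inner ℂ Ψ (hamiltonian N Q Ψ)).re = ∑ i : Fin N, ∑ j ∈ Ioi i,
      (∑ x : Fin N → Fin (Q + 1), ‖pairProj Q (slice i j Ψ x)‖ ^ 2) / ((Q : ℝ) + 1) ^ 2 := by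
  unfold hamiltonian
  rw [inner_sum, Complex.re_sum]
  refine sum_congr rfl (fun i _ => ?_)
  rw [inner_sum, Complex.re_sum]
  refine sum_congr rfl (fun j hj => ?_)
  exact re_inner_pairTerm (mem_Ioi.mp hj).ne Ψ

/-- the first-quantized energy is at least the Fock energy of real and imaginary parts -/
theorem energy_ge {Ψ : Tensors N Q} (hΨ : Ψ ∈ Fermions N Q)
    (bv : ℕ → EuclideanSpace ℂ (Fin (Q + 1) × Fin (Q + 1)))
    (hbv : ∀ s, s < 2 * Q - 1 → ∀ p : Fin (Q + 1) × Fin (Q + 1), bv s p =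
      if (p.1 : ℕ) + p.2 = s + 1 then ((beta Q p.1 p.2 / Real.sqrt 2 : ℝ) : ℂ) else 0)
    (hproj : ∀ ψ, ∑ s ∈ range (2 * Q - 1), ‖inner ℂ (bv s) ψ‖ ^ 2 ≤ ‖pairProj Q ψ‖ ^ 2) :
    fockEnergy Q (toFock (fun x => (Ψ x).re)) + fockEnergy Q (toFock (fun x => (Ψ x).im)) ≤
      (inner ℂ Ψ (hamiltonian N Q Ψ)).re := by
  rw [fockEnergy_toFock (re_anti hΨ), fockEnergy_toFock (im_anti hΨ), re_inner_hamiltonian,
    ← sum_add_distrib]
  have h1 : ∀ s ∈ range (2 * Q - 1),
      (∑ i, ∑ j ∈ Ioi i, ∑ x, contr s (fun x => (Ψ x).re) i j x ^ 2) / ((Q : ℝ) + 1) ^ 2 +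
      (∑ i, ∑ j ∈ Ioi i, ∑ x, contr s (fun x => (Ψ x).im) i j x ^ 2) / ((Q : ℝ) + 1) ^ 2 =
      ∑ i : Fin N, ∑ j ∈ Ioi i, (∑ x, ‖inner ℂ (bv s) (slice i j Ψ x)‖ ^ 2) /
        ((Q : ℝ) + 1) ^ 2 := by
    intro s hs
    rw [sum_div, sum_div, ← sum_add_distrib]
    refine sum_congr rfl (fun i _ => ?_)
    rw [sum_div, sum_div, ← sum_add_distrib]
    refine sum_congr rfl (fun j _ => ?_)
    rw [← add_div, ← sum_add_distrib]
    congr 1
    refine sum_congr rfl (fun x _ => ?_)
    rw [norm_inner_slice_sq (bv s) (hbv s (mem_range.mp hs))]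
  rw [sum_congr rfl h1, sum_comm]
  refine sum_le_sum (fun i _ => ?_)
  rw [sum_comm]
  refine sum_le_sum (fun j _ => ?_)
  rw [← sum_div]
  refine div_le_div_of_nonneg_right ?_ (by (clear * -; positivity))
  rw [sum_comm]
  exact sum_le_sum (fun x _ => hproj _)

theorem norm_sq_tensor (Ψ : Tensors N Q) :
    ‖Ψ‖ ^ 2 = ∑ x, (Ψ x).re ^ 2 + ∑ x, (Ψ x).im ^ 2 := by
  rw [EuclideanSpace.norm_sq_eq, ← sum_add_distrib]
  refine sum_congr rfl (fun x _ => ?_)
  rw [← Complex.normSq_eq_norm_sq, Complex.normSq_apply]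
  ring

/-- Assembly: a Fock-space gap at flux `Q` in the `N`-particle sector, plus uniqueness of the
zero state, gives the gap inequality for the first-quantized Hamiltonian. -/
theorem gap_assembly {δ : ℝ} (hδ : 0 < δ) (L : Tensors N Q)
    (hgap : ∀ F : Fock (Q + 1), (∀ S : Finset (Fin (Q + 1)), S.card ≠ N → F S = 0) →
      ∃ F0 : Fock (Q + 1), (∀ S : Finset (Fin (Q + 1)), S.card ≠ N → F0 S = 0) ∧
        (∀ s, s < 2 * Q - 1 → pairAnn Q s F0 = 0) ∧ δ * ‖F - F0‖ ^ 2 ≤ fockEnergy Q F)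
    (hker : ∀ Φ : (Fin N → Fin (Q + 1)) → ℝ, IsAnti Φ →
      (∀ s, s < 2 * Q - 1 → ∀ i j, i < j → ∀ x, contr s Φ i j x = 0) →
      ∃ c : ℂ, ∀ x, ((Φ x : ℝ) : ℂ) = c * L x)
    (bv : ℕ → EuclideanSpace ℂ (Fin (Q + 1) × Fin (Q + 1)))
    (hbv : ∀ s, s < 2 * Q - 1 → ∀ p : Fin (Q + 1) × Fin (Q + 1), bv s p =
      if (p.1 : ℕ) + p.2 = s + 1 then ((beta Q p.1 p.2 / Real.sqrt 2 : ℝ) : ℂ) else 0)
    (hproj : ∀ ψ, ∑ s ∈ range (2 * Q - 1), ‖inner ℂ (bv s) ψ‖ ^ 2 ≤ ‖pairProj Q ψ‖ ^ 2)
    {Ψ : Tensors N Q} (hΨ : Ψ ∈ Fermions N Q) :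
    δ * ‖Ψ - (Submodule.span ℂ {L}).starProjection Ψ‖ ^ 2 ≤
      (inner ℂ Ψ (hamiltonian N Q Ψ)).re := by
  have key : ∀ Φ : (Fin N → Fin (Q + 1)) → ℝ, IsAnti Φ → ∃ c : ℂ, ∃ Φ0 : (Fin N → Fin (Q + 1)) → ℝ,
      (∀ x, ((Φ0 x : ℝ) : ℂ) = c * L x) ∧
      δ * ∑ x, (Φ x - Φ0 x) ^ 2 ≤ fockEnergy Q (toFock Φ) := by
    intro Φ hΦ
    obtain ⟨F0, h1, h2, h3⟩ := hgap (toFock Φ) (fun S hS => toFock_apply_ne Φ S hS)
    have h4 : toFock (fromFock N F0) = F0 := toFock_fromFock F0 h1
    have h5 : IsAnti (fromFock N F0) := fromFock_anti F0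
    obtain ⟨c, hc⟩ := hker (fromFock N F0) h5 (fun s hs => by
      have h6 := h2 s hs
      rw [← h4] at h6
      exact (pairAnn_toFock_eq_zero_iff s h5).mp h6)
    refine ⟨c, fromFock N F0, hc, ?_⟩
    have h7 : ‖toFock Φ - F0‖ ^ 2 = ∑ x, (Φ x - fromFock N F0 x) ^ 2 := by
      rw [← h4, ← map_sub, h4, norm_toFock_sq (hΦ.sub h5)]
      rfl
    rw [← h7]
    exact h3
  obtain ⟨c1, Φ1, h11, h12⟩ := key _ (re_anti hΨ)
  obtain ⟨c2, Φ2, h21, h22⟩ := key _ (im_anti hΨ)
  set w : Tensors N Q := (c1 + c2 * Complex.I) • L with hw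
  have hwx : ∀ x, w x = ((Φ1 x : ℝ) : ℂ) + ((Φ2 x : ℝ) : ℂ) * Complex.I := by
    intro x
    rw [hw, PiLp.smul_apply, smul_eq_mul, h11, h21]
    ring
  have hre : ∀ x, ((Ψ - w) x).re = (Ψ x).re - Φ1 x := by
    intro x
    rw [PiLp.sub_apply, hwx]
    simp
  have him : ∀ x, ((Ψ - w) x).im = (Ψ x).im - Φ2 x := by
    intro x
    rw [PiLp.sub_apply, hwx]
    simp
  have hnorm : ‖Ψ - w‖ ^ 2 = ∑ x, ((Ψ x).re - Φ1 x) ^ 2 + ∑ x, ((Ψ x).im - Φ2 x) ^ 2 := by
    rw [norm_sq_tensor]
    simp only [hre, him]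
  have hmem : w ∈ Submodule.span ℂ {L} :=
    Submodule.smul_mem _ _ (Submodule.mem_span_singleton_self L)
  have hmin : ‖Ψ - (Submodule.span ℂ {L}).starProjection Ψ‖ ≤ ‖Ψ - w‖ := by
    rw [Submodule.starProjection_minimal]
    refine ciInf_le ⟨0, ?_⟩ (⟨w, hmem⟩ : Submodule.span ℂ {L})
    rintro _ ⟨y, rfl⟩
    exact norm_nonneg _
  calc δ * ‖Ψ - (Submodule.span ℂ {L}).starProjection Ψ‖ ^ 2
      ≤ δ * ‖Ψ - w‖ ^ 2 := by
        refine mul_le_mul_of_nonneg_left ?_ hδ.le
        exact pow_le_pow_left₀ (norm_nonneg _) hmin 2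
    _ = δ * ∑ x, ((Ψ x).re - Φ1 x) ^ 2 + δ * ∑ x, ((Ψ x).im - Φ2 x) ^ 2 := by
        rw [hnorm, mul_add]
    _ ≤ fockEnergy Q (toFock (fun x => (Ψ x).re)) + fockEnergy Q (toFock (fun x => (Ψ x).im)) :=
        add_le_add h12 h22
    _ ≤ _ := energy_ge hΨ bv hbv hproj

end Vale.Agent.P359
end
end

section

section

/-!
The pair amplitudes span (inside) the total-spin `Q - 1` component of `U_Q ⊗ U_Q`.
-/

namespace Vale.Agent.P359

open Finset

/-- unnormalized pair amplitude -/
noncomputable def wAmp (Q n a b : ℕ) : ℝ :=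
  if a + b = n then
    ((b : ℝ) - (a : ℝ)) * (Real.sqrt (Nat.choose Q a : ℝ) * Real.sqrt (Nat.choose Q b : ℝ))
  else 0

/-- unnormalized pair vector -/
noncomputable def wVec (Q n : ℕ) : Fin (Q + 1) × Fin (Q + 1) → ℂ :=
  fun p => ((wAmp Q n p.1 p.2 : ℝ) : ℂ)

/-- action of `A ⊗ 1 + 1 ⊗ A` on a vector -/
theorem total_mulVec {Q : ℕ} (A : Matrix (Fin (Q + 1)) (Fin (Q + 1)) ℂ)
    (w : Fin (Q + 1) × Fin (Q + 1) → ℂ) (a b : Fin (Q + 1)) :
    (total A).mulVec w (a, b) = ∑ c, A a c * w (c, b) + ∑ c, A b c * w (a, c) := by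
  unfold total
  rw [Matrix.add_mulVec, Pi.add_apply]
  congr 1
  · simp only [Matrix.mulVec, dotProduct, Fintype.sum_prod_type, Matrix.kroneckerMap_apply,
      Matrix.one_apply]
    refine Finset.sum_congr rfl fun c _ => ?_
    rw [Finset.sum_eq_single b]
    · simp
    · intro d _ hd
      simp [Ne.symm hd]
    · simp
  · simp only [Matrix.mulVec, dotProduct, Fintype.sum_prod_type, Matrix.kroneckerMap_apply,
      Matrix.one_apply]
    rw [Finset.sum_eq_single a]
    · simp only [↓reduceIte, one_mul]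
    · intro d _ hd
      simp [Ne.symm hd]
    · simp only [mem_univ, not_true_eq_false, ↓reduceIte, one_mul, IsEmpty.forall_iff]

theorem sum_Jz {Q : ℕ} (a : Fin (Q + 1)) (f : Fin (Q + 1) → ℂ) :
    ∑ c, Jz Q a c * f c = ((Q : ℂ) / 2 - ((a : ℕ) : ℂ)) * f a := by
  unfold Jz
  rw [Finset.sum_eq_single a]
  · simp
  · intro c _ hc
    simp [Matrix.diagonal_apply_ne' _ hc]
  · simp only [mem_univ, not_true_eq_false, Matrix.diagonal_apply_eq, mul_eq_zero, IsEmpty.forall_iff]

/-- row action of `J_+` on a function of the level, extended by `F` to all naturals -/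
theorem sum_Jp {Q : ℕ} (a : Fin (Q + 1)) (F : ℕ → ℝ) :
    ∑ c : Fin (Q + 1), Jp Q a c * ((F c : ℝ) : ℂ)
      = ((Real.sqrt (((a : ℕ) + 1 : ℝ) * ((Q : ℝ) - ((a : ℕ) : ℝ))) * F ((a : ℕ) + 1) : ℝ) : ℂ) := by
  unfold Jp
  by_cases ha : (a : ℕ) + 1 < Q + 1
  · rw [Finset.sum_eq_single (⟨(a : ℕ) + 1, ha⟩ : Fin (Q + 1))]
    · simp only [Matrix.of_apply, if_true]
      push_cast
      congr 3
      ring_nf
    · intro c _ hc
      have : ¬ ((c : ℕ) = (a : ℕ) + 1) := by
        intro h
        exact hc (Fin.ext h)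
      simp only [Nat.cast_nonneg, Real.sqrt_mul, Complex.ofReal_mul, Matrix.of_apply, this, ↓reduceIte, zero_mul]
    · simp only [mem_univ, not_true_eq_false, Nat.cast_nonneg, Real.sqrt_mul, Complex.ofReal_mul, Matrix.of_apply, Nat.add_left_cancel_iff, ↓reduceIte, Nat.cast_add, Nat.cast_one, mul_eq_zero, Complex.ofReal_eq_zero, IsEmpty.forall_iff]
  · have haQ : (a : ℕ) = Q := by omega
    rw [Finset.sum_eq_zero]
    · rw [haQ]; simp
    · intro c _
      have : ¬ ((c : ℕ) = (a : ℕ) + 1) := by omega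
      simp only [Nat.cast_nonneg, Real.sqrt_mul, Complex.ofReal_mul, Matrix.of_apply, this, ↓reduceIte, zero_mul]

/-- row action of `J_-` -/
theorem sum_Jm {Q : ℕ} (a : Fin (Q + 1)) (F : ℕ → ℝ) :
    ∑ c : Fin (Q + 1), Jm Q a c * ((F c : ℝ) : ℂ)
      = ((Real.sqrt (((a : ℕ) : ℝ) * ((Q : ℝ) - ((a : ℕ) : ℝ) + 1)) * F ((a : ℕ) - 1) : ℝ) : ℂ) := by
  unfold Jm Jp
  by_cases ha : (a : ℕ) = 0
  · rw [Finset.sum_eq_zero]
    · rw [ha]; simp
    · intro c _
      have : ¬ ((a : ℕ) = (c : ℕ) + 1) := by omega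
      simp only [Nat.cast_nonneg, Real.sqrt_mul, Complex.ofReal_mul, Matrix.conjTranspose_apply, Matrix.of_apply, this, ↓reduceIte, star_zero, zero_mul]
  · have ha' : (a : ℕ) - 1 < Q + 1 := by omega
    rw [Finset.sum_eq_single (⟨(a : ℕ) - 1, ha'⟩ : Fin (Q + 1))]
    · have h1 : (a : ℕ) = (a : ℕ) - 1 + 1 := by omega
      simp only [Matrix.conjTranspose_apply, Matrix.of_apply]
      rw [if_pos h1]
      push_cast
      simp only [Nat.cast_nonneg, Real.sqrt_mul, Complex.ofReal_mul, star_mul', RCLike.star_def, Complex.conj_ofReal]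
    · intro c _ hc
      have : ¬ ((a : ℕ) = (c : ℕ) + 1) := by
        intro h
        apply hc
        apply Fin.ext
        simp only
        omega
      simp only [Nat.cast_nonneg, Real.sqrt_mul, Complex.ofReal_mul, Matrix.conjTranspose_apply, Matrix.of_apply, this, ↓reduceIte, star_zero, zero_mul]
    · simp only [mem_univ, not_true_eq_false, Nat.cast_nonneg, Real.sqrt_mul, Complex.ofReal_mul, Matrix.conjTranspose_apply, Matrix.of_apply, RCLike.star_def, mul_eq_zero, map_eq_zero, ite_eq_right_iff, Complex.ofReal_eq_zero, Real.sqrt_eq_zero, Nat.cast_eq_zero, Fin.val_eq_zero_iff, IsEmpty.forall_iff]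

/-- `sqrt ((a + 1) (Q - a)) sqrt (C(Q, a + 1)) = (Q - a) sqrt (C(Q, a))` -/
theorem sqrt_up {Q a : ℕ} (ha : a ≤ Q) :
    Real.sqrt (((a : ℝ) + 1) * ((Q : ℝ) - (a : ℝ))) * Real.sqrt (Nat.choose Q (a + 1) : ℝ)
      = ((Q : ℝ) - (a : ℝ)) * Real.sqrt (Nat.choose Q a : ℝ) := by
  have hQa : (0 : ℝ) ≤ (Q : ℝ) - (a : ℝ) := by
    have : (a : ℝ) ≤ Q := by exact_mod_cast ha
    linarith only [this]
  rw [← Real.sqrt_mul (by positivity)]
  have h : ((Q : ℝ) - (a : ℝ)) = Real.sqrt (((Q : ℝ) - (a : ℝ)) ^ 2) := by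
    rw [Real.sqrt_sq hQa]
  conv_rhs => rw [h]
  rw [← Real.sqrt_mul (by positivity)]
  congr 1
  have h2 : ((Nat.choose Q (a + 1) : ℕ) : ℝ) * ((a : ℝ) + 1)
      = (Nat.choose Q a : ℝ) * ((Q : ℝ) - (a : ℝ)) := by
    have := Nat.choose_succ_right_eq Q a
    have h3 : ((Nat.choose Q (a + 1) * (a + 1) : ℕ) : ℝ)
        = ((Nat.choose Q a * (Q - a) : ℕ) : ℝ) := by rw [this]
    push_cast [Nat.cast_sub ha] at h3
    exact h3
  linear_combination ((Q : ℝ) - (a : ℝ)) * h2

/-- `sqrt (a (Q - a + 1)) sqrt (C(Q, a - 1)) = a sqrt (C(Q, a))` -/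
theorem sqrt_down {Q a : ℕ} (ha : a ≤ Q) :
    Real.sqrt ((a : ℝ) * ((Q : ℝ) - (a : ℝ) + 1)) * Real.sqrt (Nat.choose Q (a - 1) : ℝ)
      = (a : ℝ) * Real.sqrt (Nat.choose Q a : ℝ) := by
  rcases Nat.eq_zero_or_pos a with h0 | hpos
  · subst h0; simp
  · have hQa : (0 : ℝ) ≤ (Q : ℝ) - (a : ℝ) + 1 := by
      have : (a : ℝ) ≤ Q := by exact_mod_cast ha
      linarith only [this]
    rw [← Real.sqrt_mul (by positivity)]
    have h : (a : ℝ) = Real.sqrt ((a : ℝ) ^ 2) := by
      rw [Real.sqrt_sq (by positivity)]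
    conv_rhs => rw [h]
    rw [← Real.sqrt_mul (by positivity)]
    congr 1
    obtain ⟨c, rfl⟩ : ∃ c, a = c + 1 := ⟨a - 1, by omega⟩
    have hcQ : c ≤ Q := by omega
    have h2 : ((Nat.choose Q (c + 1) : ℕ) : ℝ) * ((c : ℝ) + 1)
        = (Nat.choose Q c : ℝ) * ((Q : ℝ) - (c : ℝ)) := by
      have := Nat.choose_succ_right_eq Q c
      have h3 : ((Nat.choose Q (c + 1) * (c + 1) : ℕ) : ℝ)
          = ((Nat.choose Q c * (Q - c) : ℕ) : ℝ) := by rw [this]
      push_cast [Nat.cast_sub hcQ] at h3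
      exact h3
    simp only [Nat.add_sub_cancel]
    push_cast
    linear_combination (-((c : ℝ) + 1)) * h2

theorem total_Jz_wVec (Q n : ℕ) :
    (total (Jz Q)).mulVec (wVec Q n) = ((Q : ℂ) - (n : ℂ)) • wVec Q n := by
  funext p
  obtain ⟨a, b⟩ := p
  rw [total_mulVec, sum_Jz a (fun c => wVec Q n (c, b)), sum_Jz b (fun c => wVec Q n (a, c))]
  simp only [Pi.smul_apply, smul_eq_mul, wVec, wAmp]
  by_cases h : (a : ℕ) + (b : ℕ) = n
  · rw [if_pos h]
    have : (n : ℂ) = ((a : ℕ) : ℂ) + ((b : ℕ) : ℂ) := by rw [← h]; push_cast; ring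
    rw [this]; ring
  · rw [if_neg h]; simp

theorem total_Jp_wVec (Q n : ℕ) :
    (total (Jp Q)).mulVec (wVec Q (n + 1)) = (2 * (Q : ℂ) - (n : ℂ) - 1) • wVec Q n := by
  funext p
  obtain ⟨a, b⟩ := p
  rw [total_mulVec]
  have h1 := sum_Jp a (fun c => wAmp Q (n + 1) c b)
  have h2 := sum_Jp b (fun c => wAmp Q (n + 1) a c)
  simp only [wVec] at *
  rw [h1, h2]
  simp only [Pi.smul_apply, smul_eq_mul]
  have haQ : (a : ℕ) ≤ Q := by omega
  have hbQ : (b : ℕ) ≤ Q := by omega
  have hsa := sqrt_up haQ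
  have hsb := sqrt_up hbQ
  have key : Real.sqrt ((((a : ℕ) : ℝ) + 1) * ((Q : ℝ) - ((a : ℕ) : ℝ)))
        * wAmp Q (n + 1) ((a : ℕ) + 1) b
      + Real.sqrt ((((b : ℕ) : ℝ) + 1) * ((Q : ℝ) - ((b : ℕ) : ℝ)))
        * wAmp Q (n + 1) a ((b : ℕ) + 1)
      = (2 * (Q : ℝ) - (n : ℝ) - 1) * wAmp Q n a b := by
    unfold wAmp
    by_cases h : (a : ℕ) + (b : ℕ) = n
    · rw [if_pos h, if_pos (by omega), if_pos (by omega)]
      have hn : (n : ℝ) = ((a : ℕ) : ℝ) + ((b : ℕ) : ℝ) := by rw [← h]; push_cast; ring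
      rw [hn]
      push_cast
      linear_combination (((b : ℕ) : ℝ) - ((a : ℕ) + 1 : ℝ)) * Real.sqrt (Nat.choose Q b : ℝ) * hsa
        + (((b : ℕ) + 1 : ℝ) - ((a : ℕ) : ℝ)) * Real.sqrt (Nat.choose Q a : ℝ) * hsb
    · rw [if_neg h, if_neg (by omega), if_neg (by omega)]; simp only [mul_zero, add_zero]
  have key2 := congrArg (fun x : ℝ => (x : ℂ)) key
  push_cast at key2 ⊢
  exact key2

theorem total_Jm_wVec (Q n : ℕ) :
    (total (Jm Q)).mulVec (wVec Q n) = (n : ℂ) • wVec Q (n + 1) := by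
  funext p
  obtain ⟨a, b⟩ := p
  rw [total_mulVec]
  have h1 := sum_Jm a (fun c => wAmp Q n c b)
  have h2 := sum_Jm b (fun c => wAmp Q n a c)
  simp only [wVec] at *
  rw [h1, h2]
  simp only [Pi.smul_apply, smul_eq_mul]
  have haQ : (a : ℕ) ≤ Q := by omega
  have hbQ : (b : ℕ) ≤ Q := by omega
  have hsa := sqrt_down haQ
  have hsb := sqrt_down hbQ
  have key : Real.sqrt ((((a : ℕ) : ℝ)) * ((Q : ℝ) - ((a : ℕ) : ℝ) + 1))
        * wAmp Q n ((a : ℕ) - 1) b
      + Real.sqrt ((((b : ℕ) : ℝ)) * ((Q : ℝ) - ((b : ℕ) : ℝ) + 1))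
        * wAmp Q n a ((b : ℕ) - 1)
      = (n : ℝ) * wAmp Q (n + 1) a b := by
    have e1 : Real.sqrt ((((a : ℕ) : ℝ)) * ((Q : ℝ) - ((a : ℕ) : ℝ) + 1))
        * wAmp Q n ((a : ℕ) - 1) b = (if (a : ℕ) + (b : ℕ) = n + 1 then
          (((b : ℕ) : ℝ) - ((a : ℕ) : ℝ) + 1) * (((a : ℕ) : ℝ) * Real.sqrt (Nat.choose Q a : ℝ))
            * Real.sqrt (Nat.choose Q b : ℝ) else 0) := by
      rcases Nat.eq_zero_or_pos (a : ℕ) with h0 | hpos
      · rw [h0]; simp only [CharP.cast_eq_zero, sub_zero, zero_mul, Real.sqrt_zero, zero_tsub, zero_add, Nat.choose_zero_right, Nat.cast_one, Real.sqrt_one, mul_one, mul_zero, ite_self]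
      · unfold wAmp
        by_cases h : (a : ℕ) + (b : ℕ) = n + 1
        · rw [if_pos h, if_pos (by omega)]
          have hc : (((a : ℕ) - 1 : ℕ) : ℝ) = ((a : ℕ) : ℝ) - 1 := by
            rw [Nat.cast_sub hpos]; simp
          rw [hc, ← hsa]; ring
        · rw [if_neg h, if_neg (by omega)]; simp only [Nat.cast_nonneg, Real.sqrt_mul, mul_zero]
    have e2 : Real.sqrt ((((b : ℕ) : ℝ)) * ((Q : ℝ) - ((b : ℕ) : ℝ) + 1))
        * wAmp Q n a ((b : ℕ) - 1) = (if (a : ℕ) + (b : ℕ) = n + 1 then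
          (((b : ℕ) : ℝ) - ((a : ℕ) : ℝ) - 1) * (((b : ℕ) : ℝ) * Real.sqrt (Nat.choose Q b : ℝ))
            * Real.sqrt (Nat.choose Q a : ℝ) else 0) := by
      rcases Nat.eq_zero_or_pos (b : ℕ) with h0 | hpos
      · rw [h0]; simp only [CharP.cast_eq_zero, sub_zero, zero_mul, Real.sqrt_zero, zero_tsub, add_zero, zero_sub, Nat.choose_zero_right, Nat.cast_one, Real.sqrt_one, mul_one, mul_zero, ite_self]
      · unfold wAmp
        by_cases h : (a : ℕ) + (b : ℕ) = n + 1
        · rw [if_pos h, if_pos (by omega)]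
          have hc : (((b : ℕ) - 1 : ℕ) : ℝ) = ((b : ℕ) : ℝ) - 1 := by
            rw [Nat.cast_sub hpos]; simp
          rw [hc, ← hsb]; ring
        · rw [if_neg h, if_neg (by omega)]; simp only [Nat.cast_nonneg, Real.sqrt_mul, mul_zero]
    rw [e1, e2]
    unfold wAmp
    by_cases h : (a : ℕ) + (b : ℕ) = n + 1
    · rw [if_pos h, if_pos h, if_pos h]
      have hn : (n : ℝ) = ((a : ℕ) : ℝ) + ((b : ℕ) : ℝ) - 1 := by
        have : ((((a : ℕ) + (b : ℕ) : ℕ)) : ℝ) = ((n + 1 : ℕ) : ℝ) := by rw [h]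
        push_cast at this
        linarith only [this]
      rw [hn]
      ring
    · rw [if_neg h, if_neg h, if_neg h]; simp
  have key2 := congrArg (fun x : ℝ => (x : ℂ)) key
  push_cast at key2 ⊢
  exact key2

/-- the pair vectors are eigenvectors of the total spin squared, with eigenvalue `Q (Q - 1)` -/
theorem spinSq_wVec (Q n : ℕ) :
    (spinSq Q).mulVec (wVec Q (n + 1)) = ((Q : ℂ) * ((Q : ℂ) - 1)) • wVec Q (n + 1) := by
  unfold spinSq
  rw [Matrix.add_mulVec, ← Matrix.mulVec_mulVec, total_Jz_wVec, Matrix.mulVec_smul, total_Jz_wVec,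
    Matrix.smul_mulVec, Matrix.add_mulVec, ← Matrix.mulVec_mulVec, ← Matrix.mulVec_mulVec,
    total_Jm_wVec, total_Jp_wVec, Matrix.mulVec_smul, Matrix.mulVec_smul, total_Jm_wVec,
    total_Jp_wVec]
  simp only [smul_smul, ← add_smul]
  congr 1
  push_cast
  ring

/-! ### Norms -/

/-- sums over a square restricted to an antidiagonal -/
theorem sum_square_eq_antidiagonal (Q n : ℕ) (F : ℕ → ℕ → ℝ)
    (h1 : ∀ a b, Q < a → F a b = 0) (h2 : ∀ a b, Q < b → F a b = 0) :
    ∑ p : Fin (Q + 1) × Fin (Q + 1), (if (p.1 : ℕ) + (p.2 : ℕ) = n then F p.1 p.2 else 0)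
      = ∑ p ∈ antidiagonal n, F p.1 p.2 := by
  have e1 : ∑ p : Fin (Q + 1) × Fin (Q + 1),
        (if (p.1 : ℕ) + (p.2 : ℕ) = n then F p.1 p.2 else 0)
      = ∑ p ∈ range (Q + 1) ×ˢ range (Q + 1), (if p.1 + p.2 = n then F p.1 p.2 else 0) := by
    rw [Fintype.sum_prod_type, Finset.sum_product]
    rw [Finset.sum_range (fun a => ∑ b ∈ range (Q + 1), if a + b = n then F a b else 0)]
    refine Finset.sum_congr rfl fun a _ => ?_
    rw [Finset.sum_range (fun b => if (a : ℕ) + b = n then F a b else 0)]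
  rw [e1, ← Finset.sum_filter]
  apply Finset.sum_subset
  · intro p hp
    rw [Finset.mem_filter] at hp
    exact Finset.HasAntidiagonal.mem_antidiagonal.2 hp.2
  · intro p hp hnp
    rw [Finset.HasAntidiagonal.mem_antidiagonal] at hp
    rw [Finset.mem_filter, Finset.mem_product, Finset.mem_range, Finset.mem_range] at hnp
    by_cases ha : Q < p.1
    · exact h1 _ _ ha
    · by_cases hb : Q < p.2
      · exact h2 _ _ hb
      · exfalso
        apply hnp
        exact ⟨⟨by omega, by omega⟩, hp⟩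

/-- `∑_{a + b = n + 2} a b C(q+1, a) C(q+1, b) = (q + 1)^2 C(2 q, n)` -/
theorem sum_ab_choose (q n : ℕ) :
    ∑ p ∈ antidiagonal (n + 2), (p.1 * Nat.choose (q + 1) p.1) * (p.2 * Nat.choose (q + 1) p.2)
      = (q + 1) ^ 2 * Nat.choose (q + q) n := by
  rw [Finset.Nat.sum_antidiagonal_succ]
  simp only [zero_mul, zero_add]
  rw [Finset.Nat.sum_antidiagonal_succ']
  simp only [zero_mul, mul_zero, zero_add]
  rw [Nat.add_choose_eq, Finset.mul_sum]
  refine Finset.sum_congr rfl fun p _ => ?_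
  have h1 : ∀ k : ℕ, (k + 1) * Nat.choose (q + 1) (k + 1) = (q + 1) * Nat.choose q k := by
    intro k
    have := Nat.add_one_mul_choose_eq q k
    linarith
  rw [h1, h1]
  ring

theorem choose_identity (q m : ℕ) :
    (m + 2) ^ 2 * Nat.choose ((q + 1) + (q + 1)) (m + 2)
      = 4 * ((q + 1) ^ 2 * Nat.choose (q + q) m) + 2 * (q + 1) * Nat.choose (2 * q) (m + 1) := by
  have e1 : (m + 2) * Nat.choose (2 * q + 2) (m + 2) = (2 * q + 2) * Nat.choose (2 * q + 1) (m + 1) := by
    have := Nat.add_one_mul_choose_eq (2 * q + 1) (m + 1)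
    linarith
  have e2 : (m + 1) * Nat.choose (2 * q + 1) (m + 1) = (2 * q + 1) * Nat.choose (2 * q) m := by
    have := Nat.add_one_mul_choose_eq (2 * q) m
    linarith only [this]
  have e3 : Nat.choose (2 * q + 1) (m + 1) = Nat.choose (2 * q) m + Nat.choose (2 * q) (m + 1) :=
    Nat.choose_succ_succ _ _
  have e4 : (q + 1) + (q + 1) = 2 * q + 2 := by ring
  have e5 : q + q = 2 * q := by ring
  rw [e4, e5]
  have e6 : (m + 2) * ((m + 2) * Nat.choose (2 * q + 2) (m + 2))
      = (m + 2) * ((2 * q + 2) * Nat.choose (2 * q + 1) (m + 1)) := by rw [e1]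
  have e7 : (m + 2) * Nat.choose (2 * q + 1) (m + 1)
      = (2 * q + 2) * Nat.choose (2 * q) m + Nat.choose (2 * q) (m + 1) := by
    have : (m + 2) * Nat.choose (2 * q + 1) (m + 1)
        = (m + 1) * Nat.choose (2 * q + 1) (m + 1) + Nat.choose (2 * q + 1) (m + 1) := by ring
    rw [this, e2]
    nth_rewrite 1 [e3]
    ring
  calc (m + 2) ^ 2 * Nat.choose (2 * q + 2) (m + 2)
      = (m + 2) * ((m + 2) * Nat.choose (2 * q + 2) (m + 2)) := by ring
    _ = (2 * q + 2) * ((m + 2) * Nat.choose (2 * q + 1) (m + 1)) := by rw [e6]; ring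
    _ = (2 * q + 2) * ((2 * q + 2) * Nat.choose (2 * q) m + Nat.choose (2 * q) (m + 1)) := by
        rw [e7]
    _ = _ := by ring

/-- `∑_{a + b = n + 1} (b - a)^2 C(q+1, a) C(q+1, b) = 2 (q + 1) C(2 q, n)` -/
theorem sum_sq_choose (q n : ℕ) :
    ∑ p ∈ antidiagonal (n + 1), ((p.2 : ℝ) - (p.1 : ℝ)) ^ 2
        * ((Nat.choose (q + 1) p.1 : ℝ) * (Nat.choose (q + 1) p.2 : ℝ))
      = 2 * ((q : ℝ) + 1) * (Nat.choose (2 * q) n : ℝ) := by
  rcases n with _ | m
  · simp only [zero_add, Nat.antidiagonal_succ, HasAntidiagonal.antidiagonal_zero, map_singleton, Function.Embedding.coe_prodMap, Function.Embedding.coeFn_mk, Prod.map_apply, Nat.succ_eq_add_one, Function.Embedding.refl_apply, cons_eq_insert, mem_singleton, Prod.mk.injEq, zero_ne_one, one_ne_zero, and_self, not_false_eq_true, sum_insert, Nat.cast_one, CharP.cast_eq_zero, sub_zero, one_pow, Nat.choose_zero_right, Nat.choose_one_right, Nat.cast_add, one_mul, sum_singleton, zero_sub, even_two, Even.neg_pow, mul_one]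
    ring
  · have h1 : ∑ p ∈ antidiagonal (m + 1 + 1), ((p.2 : ℝ) - (p.1 : ℝ)) ^ 2
        * ((Nat.choose (q + 1) p.1 : ℝ) * (Nat.choose (q + 1) p.2 : ℝ))
        = ∑ p ∈ antidiagonal (m + 1 + 1), (((m : ℝ) + 2) ^ 2
          * ((Nat.choose (q + 1) p.1 : ℝ) * (Nat.choose (q + 1) p.2 : ℝ))
          - 4 * (((p.1 : ℝ) * (Nat.choose (q + 1) p.1 : ℝ))
            * ((p.2 : ℝ) * (Nat.choose (q + 1) p.2 : ℝ)))) := by
      refine Finset.sum_congr rfl fun p hp => ?_
      have hp' : p.1 + p.2 = m + 1 + 1 := Finset.HasAntidiagonal.mem_antidiagonal.1 hp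
      have : (m : ℝ) + 2 = (p.1 : ℝ) + (p.2 : ℝ) := by
        have h : ((p.1 + p.2 : ℕ) : ℝ) = ((m + 1 + 1 : ℕ) : ℝ) := by rw [hp']
        push_cast at h
        linarith only [h]
      rw [this]; ring
    rw [h1, Finset.sum_sub_distrib, ← Finset.mul_sum, ← Finset.mul_sum]
    have h2 : ∑ p ∈ antidiagonal (m + 1 + 1), ((Nat.choose (q + 1) p.1 : ℝ)
        * (Nat.choose (q + 1) p.2 : ℝ)) = (Nat.choose ((q + 1) + (q + 1)) (m + 2) : ℝ) := by
      rw [Nat.add_choose_eq]
      push_cast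
      rfl
    have h3 : ∑ p ∈ antidiagonal (m + 1 + 1), ((p.1 : ℝ) * (Nat.choose (q + 1) p.1 : ℝ))
            * ((p.2 : ℝ) * (Nat.choose (q + 1) p.2 : ℝ))
          = ((q : ℝ) + 1) ^ 2 * (Nat.choose (q + q) m : ℝ) := by
      have := sum_ab_choose q m
      have h := congrArg (fun x : ℕ => (x : ℝ)) this
      push_cast at h
      exact h
    rw [h2, h3]
    have h4 := congrArg (fun x : ℕ => (x : ℝ)) (choose_identity q m)
    push_cast at h4
    linarith only [h4]

theorem sum_wAmp_sq (Q s : ℕ) (hQ : 1 ≤ Q) :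
    ∑ p : Fin (Q + 1) × Fin (Q + 1), (wAmp Q (s + 1) p.1 p.2) ^ 2
      = 2 * (Q : ℝ) * (Nat.choose (2 * Q - 2) s : ℝ) := by
  obtain ⟨q, rfl⟩ : ∃ q, Q = q + 1 := ⟨Q - 1, by omega⟩
  have h1 : ∀ p : Fin (q + 1 + 1) × Fin (q + 1 + 1), (wAmp (q + 1) (s + 1) p.1 p.2) ^ 2
      = if (p.1 : ℕ) + (p.2 : ℕ) = s + 1 then
          (fun a b : ℕ => ((b : ℝ) - (a : ℝ)) ^ 2
            * ((Nat.choose (q + 1) a : ℝ) * (Nat.choose (q + 1) b : ℝ))) p.1 p.2 else 0 := by
    intro p
    unfold wAmp
    split_ifs with h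
    · rw [mul_pow, mul_pow, Real.sq_sqrt (by positivity), Real.sq_sqrt (by positivity)]
    · simp
  rw [Finset.sum_congr rfl fun p _ => h1 p,
    sum_square_eq_antidiagonal (q + 1) (s + 1) (fun a b : ℕ => ((b : ℝ) - (a : ℝ)) ^ 2
            * ((Nat.choose (q + 1) a : ℝ) * (Nat.choose (q + 1) b : ℝ)))]
  · rw [sum_sq_choose]
    have : 2 * (q + 1) - 2 = 2 * q := by omega
    rw [this]
    push_cast
    ring
  · intro a b hab
    simp [Nat.choose_eq_zero_of_lt hab]
  · intro a b hab
    simp [Nat.choose_eq_zero_of_lt hab]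

/-! ### The normalized pair vectors -/

/-- normalized pair vector -/
noncomputable def betaVec (Q s : ℕ) : EuclideanSpace ℂ (Fin (Q + 1) × Fin (Q + 1)) :=
  WithLp.toLp 2 fun p =>
    if (p.1 : ℕ) + p.2 = s + 1 then ((beta Q p.1 p.2 / Real.sqrt 2 : ℝ) : ℂ) else 0

theorem betaVec_apply (Q s : ℕ) (p : Fin (Q + 1) × Fin (Q + 1)) :
    betaVec Q s p
      = ((wAmp Q (s + 1) p.1 p.2 / Real.sqrt (2 * (Q : ℝ) * (Nat.choose (2 * Q - 2) s : ℝ)) : ℝ)
        : ℂ) := by
  unfold betaVec wAmp beta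
  simp only
  split_ifs with h
  · congr 1
    have h1 : (p.1 : ℕ) + (p.2 : ℕ) - 1 = s := by omega
    rw [h1, Real.sqrt_div (by (clear * -; positivity)), Real.sqrt_mul (by positivity)]
    have h2 : Real.sqrt (2 * (Q : ℝ) * (Nat.choose (2 * Q - 2) s : ℝ))
        = Real.sqrt ((Q : ℝ) * (Nat.choose (2 * Q - 2) s : ℝ)) * Real.sqrt 2 := by
      rw [← Real.sqrt_mul (by positivity)]
      congr 1
      ring
    rw [h2]
    rw [mul_div_assoc, mul_div_assoc, mul_div_assoc, div_div]
    ring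
  · simp only [Nat.ofNat_pos, mul_nonneg_iff_of_pos_left, Nat.cast_nonneg, Real.sqrt_mul, Nat.ofNat_nonneg, zero_div, Complex.ofReal_zero]

theorem betaVec_eq_smul (Q s : ℕ) :
    betaVec Q s
      = (((Real.sqrt (2 * (Q : ℝ) * (Nat.choose (2 * Q - 2) s : ℝ)))⁻¹ : ℝ) : ℂ)
        • (WithLp.toLp 2 (wVec Q (s + 1)) : EuclideanSpace ℂ (Fin (Q + 1) × Fin (Q + 1))) := by
  ext p
  rw [betaVec_apply]
  simp only [PiLp.smul_apply, smul_eq_mul, wVec]
  push_cast
  ring

theorem betaVec_mem (Q s : ℕ) : betaVec Q s ∈ spinComponent Q ((Q : ℂ) - 1) := by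
  rw [betaVec_eq_smul]
  apply Submodule.smul_mem
  unfold spinComponent
  rw [LinearMap.mem_ker]
  have h : (spinSq Q - (((Q : ℂ) - 1) * (((Q : ℂ) - 1) + 1)) • (1 : Matrix _ _ ℂ)).mulVec
      (wVec Q (s + 1)) = 0 := by
    rw [Matrix.sub_mulVec, spinSq_wVec, Matrix.smul_mulVec, Matrix.one_mulVec, ← sub_smul]
    have : (Q : ℂ) * ((Q : ℂ) - 1) - ((Q : ℂ) - 1) * (((Q : ℂ) - 1) + 1) = 0 := by ring
    rw [this, zero_smul]
  rw [Matrix.toLpLin_toLp, Matrix.toLin'_apply, h]
  rfl

theorem inner_betaVec (Q s t : ℕ) :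
    inner ℂ (betaVec Q s) (betaVec Q t)
      = ((∑ p : Fin (Q + 1) × Fin (Q + 1),
          (wAmp Q (s + 1) p.1 p.2 / Real.sqrt (2 * (Q : ℝ) * (Nat.choose (2 * Q - 2) s : ℝ)))
          * (wAmp Q (t + 1) p.1 p.2
            / Real.sqrt (2 * (Q : ℝ) * (Nat.choose (2 * Q - 2) t : ℝ))) : ℝ) : ℂ) := by
  rw [PiLp.inner_apply]
  push_cast
  refine Finset.sum_congr rfl fun p _ => ?_
  rw [betaVec_apply, betaVec_apply]
  simp only [RCLike.inner_apply, Complex.conj_ofReal]
  push_cast
  ring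

theorem betaVec_orthonormal (Q : ℕ) (hQ : 1 ≤ Q) :
    Orthonormal ℂ (fun s : Fin (2 * Q - 1) => betaVec Q s) := by
  rw [orthonormal_iff_ite]
  intro s t
  rw [inner_betaVec]
  split_ifs with h
  · subst h
    have h1 : (0 : ℝ) < 2 * (Q : ℝ) * (Nat.choose (2 * Q - 2) s : ℝ) := by
      have : 0 < Nat.choose (2 * Q - 2) (s : ℕ) := Nat.choose_pos (by omega)
      positivity
    have h2 : ∀ p : Fin (Q + 1) × Fin (Q + 1),
        (wAmp Q (s + 1) p.1 p.2 / Real.sqrt (2 * (Q : ℝ) * (Nat.choose (2 * Q - 2) s : ℝ)))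
          * (wAmp Q (s + 1) p.1 p.2
            / Real.sqrt (2 * (Q : ℝ) * (Nat.choose (2 * Q - 2) s : ℝ)))
        = (wAmp Q (s + 1) p.1 p.2) ^ 2 / (2 * (Q : ℝ) * (Nat.choose (2 * Q - 2) s : ℝ)) := by
      intro p
      rw [div_mul_div_comm, Real.mul_self_sqrt h1.le, pow_two]
    rw [Finset.sum_congr rfl fun p _ => h2 p, ← Finset.sum_div, sum_wAmp_sq Q s hQ,
      div_self h1.ne']
    simp
  · have : ∀ p : Fin (Q + 1) × Fin (Q + 1),
        (wAmp Q (s + 1) p.1 p.2 / Real.sqrt (2 * (Q : ℝ) * (Nat.choose (2 * Q - 2) s : ℝ)))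
          * (wAmp Q (t + 1) p.1 p.2
            / Real.sqrt (2 * (Q : ℝ) * (Nat.choose (2 * Q - 2) t : ℝ))) = 0 := by
      intro p
      unfold wAmp
      by_cases h1 : (p.1 : ℕ) + (p.2 : ℕ) = s + 1
      · have h2 : ¬ ((p.1 : ℕ) + (p.2 : ℕ) = t + 1) := by
          intro h2
          apply h
          apply Fin.ext
          omega
        rw [if_neg h2]
        simp only [Nat.ofNat_pos, mul_nonneg_iff_of_pos_left, Nat.cast_nonneg, Real.sqrt_mul, Nat.ofNat_nonneg, zero_div, mul_zero]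
      · rw [if_neg h1]
        simp only [Nat.ofNat_pos, mul_nonneg_iff_of_pos_left, Nat.cast_nonneg, Real.sqrt_mul, Nat.ofNat_nonneg, zero_div, zero_mul]
    rw [Finset.sum_congr rfl fun p _ => this p]
    simp

/-- the pair vectors see only the pair projection -/
theorem inner_betaVec_pairProj (Q s : ℕ) (ψ : EuclideanSpace ℂ (Fin (Q + 1) × Fin (Q + 1))) :
    inner ℂ (betaVec Q s) (pairProj Q ψ) = inner ℂ (betaVec Q s) ψ := by
  have h : pairProj Q (betaVec Q s) = betaVec Q s := by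
    unfold pairProj
    exact (Submodule.starProjection_eq_self_iff).2 (betaVec_mem Q s)
  conv_rhs => rw [← h]
  unfold pairProj
  rw [Submodule.inner_starProjection_left_eq_right]

/-- Bessel: the normalized pair annihilation amplitudes are bounded by the pair projection -/
theorem pairProj_ge (Q : ℕ) (hQ : 1 ≤ Q)
    (ψ : EuclideanSpace ℂ (Fin (Q + 1) × Fin (Q + 1))) :
    ∑ s ∈ range (2 * Q - 1), ‖inner ℂ (betaVec Q s) ψ‖ ^ 2 ≤ ‖pairProj Q ψ‖ ^ 2 := by
  have h := (betaVec_orthonormal Q hQ).sum_inner_products_le (pairProj Q ψ)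
    (s := (Finset.univ : Finset (Fin (2 * Q - 1))))
  calc ∑ s ∈ range (2 * Q - 1), ‖inner ℂ (betaVec Q s) ψ‖ ^ 2
      = ∑ s : Fin (2 * Q - 1), ‖inner ℂ (betaVec Q s) ψ‖ ^ 2 :=
        Finset.sum_range (fun s => ‖inner ℂ (betaVec Q s) ψ‖ ^ 2)
    _ = ∑ s : Fin (2 * Q - 1), ‖inner ℂ (betaVec Q s) (pairProj Q ψ)‖ ^ 2 := by
        refine Finset.sum_congr rfl fun s _ => ?_
        rw [inner_betaVec_pairProj]
    _ ≤ ‖pairProj Q ψ‖ ^ 2 := h

end Vale.Agent.P359
end
end

section

section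

/-!
Interface between the finite-flux part and the planar part of the proof for P359.

`g3 (s, a) (s', b)` is the planar limit of
`omega ((C_a B_s)^* C_b B_{s'}) / omega (B_0^* B_0)`, the monomial `(s, a)` standing for `X^s x^a`,
`g4 (s, a, b) (s', a', b')` is the planar limit of
`omega ((C_b C_a B_s)^* C_{b'} C_{a'} B_{s'}) / omega (B_0^* B_0)`,
the monomial `(s, a, b)` standing for `X^s x^a y^b`.
-/

namespace Vale.Agent.P359

open Finset

/-- coefficient of `x^a y^b` in `(x - y) * ((x + y) / 2)^s` when `a + b = s + 1` -/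
noncomputable def pairCoef (s a b : ℕ) : ℝ :=
  (s.factorial : ℝ) / 2 ^ s * (((a : ℝ) - (b : ℝ)) / ((a.factorial : ℝ) * (b.factorial : ℝ)))

/-- `Gamma4 ((x - y) Y^s X^t, q)`, with `Y = (x + y) / 2` -/
noncomputable def pairRow (g4 : ℕ × ℕ × ℕ → ℕ × ℕ × ℕ → ℝ) (s t : ℕ) (q : ℕ × ℕ × ℕ) : ℝ :=
  ∑ ab ∈ antidiagonal (s + 1), pairCoef s ab.1 ab.2 * g4 (t, ab.1, ab.2) q

/-- `Gamma4 ((x - y) Y^s, (x - y) Y^s)` -/
noncomputable def pairSq (g4 : ℕ × ℕ × ℕ → ℕ × ℕ × ℕ → ℝ) (s : ℕ) : ℝ :=
  ∑ ab ∈ antidiagonal (s + 1), pairCoef s ab.1 ab.2 * pairRow g4 s 0 (0, ab.1, ab.2)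

/-- The planar limit state with energy parameter `lam`. -/
structure PlanarState (lam : ℝ) where
  g3 : ℕ × ℕ → ℕ × ℕ → ℝ
  g4 : ℕ × ℕ × ℕ → ℕ × ℕ × ℕ → ℝ
  symm3 : ∀ p q, g3 p q = g3 q p
  symm4 : ∀ p q, g4 p q = g4 q p
  deg3 : ∀ p q, p.1 + p.2 ≠ q.1 + q.2 → g3 p q = 0
  deg4 : ∀ p q, p.1 + p.2.1 + p.2.2 ≠ q.1 + q.2.1 + q.2.2 → g4 p q = 0
  pos3 : ∀ (F : Finset (ℕ × ℕ)) (u : ℕ × ℕ → ℝ), 0 ≤ ∑ p ∈ F, ∑ q ∈ F, u p * u q * g3 p q
  pos4 : ∀ (F : Finset (ℕ × ℕ × ℕ)) (u : ℕ × ℕ × ℕ → ℝ),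
    0 ≤ ∑ p ∈ F, ∑ q ∈ F, u p * u q * g4 p q
  /-- translation invariance: `Gamma3 ((d_X + d_x) p, q) = Gamma3 (p, (2 X + x) q)` -/
  trans3 : ∀ s a s' b : ℕ,
    (s : ℝ) * g3 (s - 1, a) (s', b) + (a : ℝ) * g3 (s, a - 1) (s', b)
      = 2 * g3 (s, a) (s' + 1, b) + g3 (s, a) (s', b + 1)
  trans4 : ∀ s a b s' a' b' : ℕ,
    (s : ℝ) * g4 (s - 1, a, b) (s', a', b') + (a : ℝ) * g4 (s, a - 1, b) (s', a', b')
      + (b : ℝ) * g4 (s, a, b - 1) (s', a', b')
      = 2 * g4 (s, a, b) (s' + 1, a', b') + g4 (s, a, b) (s', a' + 1, b')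
        + g4 (s, a, b) (s', a', b' + 1)
  anti4 : ∀ (s a b : ℕ) (q : ℕ × ℕ × ℕ), g4 (s, a, b) q = - g4 (s, b, a) q
  null3_0 : ∀ q, g3 (0, 0) q = 0
  null3_1 : ∀ q, g3 (1, 0) q = 0
  null3_1' : ∀ q, g3 (0, 1) q = 0
  null3_3 : ∀ q, g3 (3, 0) q - 3 * g3 (2, 1) q + 3 * g3 (1, 2) q - g3 (0, 3) q = 0
  null4 : ∀ (s t : ℕ) (q : ℕ × ℕ × ℕ), pairRow g4 s t q = pairRow g4 t s q
  bound3 : ∀ s a : ℕ, g3 (s, a) (s, a) ≤ (s.factorial : ℝ) * (a.factorial : ℝ) / 2 ^ s
  /-- `Gamma4 (y^b t, y^b t) ≤ b! Gamma3 (t, t)` -/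
  bound4 : ∀ (F : Finset (ℕ × ℕ)) (u : ℕ × ℕ → ℝ) (b : ℕ),
    ∑ p ∈ F, ∑ q ∈ F, u p * u q * g4 (p.1, p.2, b) (q.1, q.2, b)
      ≤ (b.factorial : ℝ) * ∑ p ∈ F, ∑ q ∈ F, u p * u q * g3 p q
  /-- positivity of `‖ al B_D + ∑_a (1 / a!) C_a^* t_a ‖^2`, `t_a = ∑_{p ∈ F} y a p • monomial p` -/
  posV : ∀ (D : ℕ) (al : ℝ) (A : Finset ℕ) (F : Finset (ℕ × ℕ)) (y : ℕ → ℕ × ℕ → ℝ),
    0 ≤ al ^ 2 * ((D.factorial : ℝ) / 2 ^ D)
      + 2 * al * ∑ a ∈ A, (∑ p ∈ F, y a p * g3 (D, a) p) / (a.factorial : ℝ)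
      + ∑ a ∈ A, (∑ p ∈ F, ∑ q ∈ F, y a p * y a q * g3 p q) / (a.factorial : ℝ)
      - ∑ a ∈ A, ∑ a' ∈ A, (∑ p ∈ F, ∑ q ∈ F,
          y a p * y a' q * g4 (p.1, p.2, a') (q.1, q.2, a))
            / ((a.factorial : ℝ) * (a'.factorial : ℝ))
  /-- the energy inequality, truncated at `S = 80` -/
  energy :
    1 - ∑ s ∈ Icc (1 : ℕ) 80, g3 (0, s + 1) (s, 1) / (s.factorial : ℝ)
      + ∑ s ∈ Icc (2 : ℕ) 80, ((s : ℝ) - 1) / (s.factorial : ℝ) * g3 (0, s) (s, 0)
      + ∑ s ∈ Icc (0 : ℕ) 80, (2 : ℝ) ^ s / (s.factorial : ℝ) * (1 / 4) * pairSq g4 s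
      - 1 / 1000 ≤ lam

end Vale.Agent.P359
end
end

section

section

/-!
Bilinear forms on polynomial rings attached to a planar state.
-/

namespace Vale.Agent.P359

open Finset MvPolynomial

noncomputable section

abbrev P3 := MvPolynomial (Fin 2) ℝ
abbrev P4 := MvPolynomial (Fin 3) ℝ

/-- exponent of `X^s x^a` -/
def e3 (q : ℕ × ℕ) : Fin 2 →₀ ℕ := Finsupp.single 0 q.1 + Finsupp.single 1 q.2
/-- exponent of `X^s x^a y^b` -/
def e4 (q : ℕ × ℕ × ℕ) : Fin 3 →₀ ℕ :=
  Finsupp.single 0 q.1 + Finsupp.single 1 q.2.1 + Finsupp.single 2 q.2.2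

def d3 (m : Fin 2 →₀ ℕ) : ℕ × ℕ := (m 0, m 1)
def d4 (m : Fin 3 →₀ ℕ) : ℕ × ℕ × ℕ := (m 0, m 1, m 2)

@[simp] lemma d3_e3 (q : ℕ × ℕ) : d3 (e3 q) = q := by
  ext <;> simp only [d3, e3, Fin.isValue, Finsupp.coe_add, Pi.add_apply, Finsupp.single_eq_same, ne_eq, zero_ne_one, not_false_eq_true, Finsupp.single_eq_of_ne, add_zero, one_ne_zero, zero_add, Prod.mk.eta]
@[simp] lemma d4_e4 (q : ℕ × ℕ × ℕ) : d4 (e4 q) = q := by
  ext <;> simp only [d4, e4, Fin.isValue, Finsupp.coe_add, Pi.add_apply, Finsupp.single_eq_same, ne_eq, zero_ne_one, not_false_eq_true, Finsupp.single_eq_of_ne, add_zero, Fin.reduceEq, one_ne_zero, zero_add, Prod.mk.eta]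
@[simp] lemma e3_d3 (m : Fin 2 →₀ ℕ) : e3 (d3 m) = m := by
  ext i; fin_cases i <;> simp [d3, e3]
@[simp] lemma e4_d4 (m : Fin 3 →₀ ℕ) : e4 (d4 m) = m := by
  ext i; fin_cases i <;> simp [d4, e4]

/-- the monomial `X^s x^a` -/
def m3 (q : ℕ × ℕ) : P3 := monomial (e3 q) 1
/-- the monomial `X^s x^a y^b` -/
def m4 (q : ℕ × ℕ × ℕ) : P4 := monomial (e4 q) 1

lemma m3_eq (q : ℕ × ℕ) : m3 q = X 0 ^ q.1 * X 1 ^ q.2 := by
  simp only [m3, e3, Fin.isValue, X_pow_eq_monomial, monomial_mul, mul_one]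
lemma m4_eq (q : ℕ × ℕ × ℕ) : m4 q = X 0 ^ q.1 * X 1 ^ q.2.1 * X 2 ^ q.2.2 := by
  simp only [m4, e4, Fin.isValue, X_pow_eq_monomial, monomial_mul, mul_one]

variable {lam : ℝ} (st : PlanarState lam)

/-- `Gamma3` -/
def B3 : P3 →ₗ[ℝ] P3 →ₗ[ℝ] ℝ :=
  (basisMonomials (Fin 2) ℝ).constr ℝ fun m =>
    (basisMonomials (Fin 2) ℝ).constr ℝ fun n => st.g3 (d3 m) (d3 n)

/-- `Gamma4` -/
def B4 : P4 →ₗ[ℝ] P4 →ₗ[ℝ] ℝ :=
  (basisMonomials (Fin 3) ℝ).constr ℝ fun m =>
    (basisMonomials (Fin 3) ℝ).constr ℝ fun n => st.g4 (d4 m) (d4 n)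

lemma B3_monomial (m n : Fin 2 →₀ ℕ) :
    B3 st (monomial m 1) (monomial n 1) = st.g3 (d3 m) (d3 n) := by
  have h1 : (monomial m (1 : ℝ) : P3) = basisMonomials (Fin 2) ℝ m := by simp only [coe_basisMonomials]
  have h2 : (monomial n (1 : ℝ) : P3) = basisMonomials (Fin 2) ℝ n := by simp only [coe_basisMonomials]
  rw [h1, h2, B3, Module.Basis.constr_basis, Module.Basis.constr_basis]

lemma B4_monomial (m n : Fin 3 →₀ ℕ) :
    B4 st (monomial m 1) (monomial n 1) = st.g4 (d4 m) (d4 n) := by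
  have h1 : (monomial m (1 : ℝ) : P4) = basisMonomials (Fin 3) ℝ m := by simp only [coe_basisMonomials]
  have h2 : (monomial n (1 : ℝ) : P4) = basisMonomials (Fin 3) ℝ n := by simp only [coe_basisMonomials]
  rw [h1, h2, B4, Module.Basis.constr_basis, Module.Basis.constr_basis]

@[simp] lemma B3_m3 (p q : ℕ × ℕ) : B3 st (m3 p) (m3 q) = st.g3 p q := by
  simp only [m3, B3_monomial, d3_e3]
@[simp] lemma B4_m4 (p q : ℕ × ℕ × ℕ) : B4 st (m4 p) (m4 q) = st.g4 p q := by
  simp only [m4, B4_monomial, d4_e4]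

lemma lin_ext3 {M : Type*} [AddCommMonoid M] [Module ℝ M] {f g : P3 →ₗ[ℝ] M}
    (h : ∀ q, f (m3 q) = g (m3 q)) : f = g := by
  apply (basisMonomials (Fin 2) ℝ).ext
  intro m
  simpa only [coe_basisMonomials, m3, e3_d3] using h (d3 m)

lemma lin_ext4 {M : Type*} [AddCommMonoid M] [Module ℝ M] {f g : P4 →ₗ[ℝ] M}
    (h : ∀ q, f (m4 q) = g (m4 q)) : f = g := by
  apply (basisMonomials (Fin 3) ℝ).ext
  intro m
  simpa only [coe_basisMonomials, m4, e4_d4] using h (d4 m)

lemma B3_symm (p q : P3) : B3 st p q = B3 st q p := by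
  have : B3 st = (B3 st).flip := by
    apply lin_ext3; intro a; apply lin_ext3; intro b
    simp [st.symm3 a b]
  conv_lhs => rw [this]
  rfl

lemma B4_symm (p q : P4) : B4 st p q = B4 st q p := by
  have : B4 st = (B4 st).flip := by
    apply lin_ext4; intro a; apply lin_ext4; intro b
    simp [st.symm4 a b]
  conv_lhs => rw [this]
  rfl

/-- expansion of a polynomial in monomials indexed by pairs -/
lemma expand3 (p : P3) : p = ∑ q ∈ p.support.image d3, p.coeff (e3 q) • m3 q := by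
  rw [sum_image (fun a _ b _ h => by
    have := congrArg e3 h; simpa using this)]
  conv_lhs => rw [p.as_sum]
  apply sum_congr rfl
  intro m _
  simp only [e3_d3, m3, smul_monomial, smul_eq_mul, mul_one]

lemma expand4 (p : P4) : p = ∑ q ∈ p.support.image d4, p.coeff (e4 q) • m4 q := by
  rw [sum_image (fun a _ b _ h => by
    have := congrArg e4 h; simpa using this)]
  conv_lhs => rw [p.as_sum]
  apply sum_congr rfl
  intro m _
  simp only [e4_d4, m4, smul_monomial, smul_eq_mul, mul_one]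

lemma B3_sum (F G : Finset (ℕ × ℕ)) (u v : ℕ × ℕ → ℝ) :
    B3 st (∑ p ∈ F, u p • m3 p) (∑ q ∈ G, v q • m3 q)
      = ∑ p ∈ F, ∑ q ∈ G, u p * v q * st.g3 p q := by
  simp only [map_sum, LinearMap.sum_apply, map_smul, LinearMap.smul_apply, smul_eq_mul, B3_m3,
    mul_sum, mul_assoc]
  rw [sum_comm]
  apply sum_congr rfl; intro p _; apply sum_congr rfl; intro q _; ring

lemma B4_sum (F G : Finset (ℕ × ℕ × ℕ)) (u v : ℕ × ℕ × ℕ → ℝ) :
    B4 st (∑ p ∈ F, u p • m4 p) (∑ q ∈ G, v q • m4 q)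
      = ∑ p ∈ F, ∑ q ∈ G, u p * v q * st.g4 p q := by
  simp only [map_sum, LinearMap.sum_apply, map_smul, LinearMap.smul_apply, smul_eq_mul, B4_m4,
    mul_sum, mul_assoc]
  rw [sum_comm]
  apply sum_congr rfl; intro p _; apply sum_congr rfl; intro q _; ring

lemma B3_nonneg (p : P3) : 0 ≤ B3 st p p := by
  rw [expand3 p, B3_sum]
  exact st.pos3 _ _

lemma B4_nonneg (p : P4) : 0 ≤ B4 st p p := by
  rw [expand4 p, B4_sum]
  exact st.pos4 _ _

end

end Vale.Agent.P359
end
end

section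

section

/-!
The table of level lists (generated file).
-/

namespace Vale.Agent.P359

/-- the level lists `K_{m m'}`, `m ≤ m'` -/
def kTab : List (List (List ℤ)) := [
  [[],
  [],
  [],
  [],
  [],
  [],
  [],
  [],
  [],
  [],
  [],
  []],
  [[],
  [],
  [],
  [],
  [],
  [],
  [],
  [],
  [],
  [],
  [],
  []],
  [[],
  [],
  [0, 0, 9683332962395086783248174592032768, 443831731801240761226802103421239296,
  1618550686914117359357904819566149632, 110865960744719678201421348672110592,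
  12195492675186175170367273854591565824, 12490083929582518004437813127333019648,
  47338463636701705965476061115494432768, 67047090770221123063413749530685865984,
  89282687263372105302965913071596339200, 111719205728144996629899561340879503360,
  154901467390184389822966173574908346368, 135109826635139514446260968101297258496,
  141387927045543258710854613461691793408, 111600269578839137100572559799977246720,
  105477848627189055513101107484323479552, 72203909958238884142910705729940750336,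
  57866767144613883719108774063492825088, 42996771952693102416105669041540038656,
  13006330414656137797811433385708486656, 1217398203833449850427113213446324224],
  [],
  [0, 0, 0, 0, 7292785305245039207339220730380288, 109078900123712658854429365377171456,
  64392728356348809527396625379491840, -738921719935113869662898062840823808,
  324235077531872100110749325825409024, -4091380146115065202734232973258784768,
  379611735797336005008600622417575936, -1041041922541848434074424042525294592,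
  7360135153709045128374944283538489344, 1375866360790512284856876750990213120,
  4211635557388151480722732324409573376, 1866181356511912500348157787331624960,
  378842872466209766664750052373692416, -543162967646362666407796401323900928,
  90086275645573152136109746783518720, 227229286970888058356778429440851968,
  15086570992642692187028522532864000, -5481077737272078122543061670035456],
  [0, 0, 0, 0, 0, 14707788394309885910707244623724544, 119829972780214918068266336105005056,
  -166156609770296425078896661723348992, -221618714499948792153746108238004224,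
  834988819744812620852223969419329536, -1247412240320917176582426559455952896,
  1270296735096648647790558377838379008, -1025067013452483466860313583837773824,
  428830535974726374276695181496418304, -365711014882985519151814582349070336,
  115971919872181180874538044929081344, -169282762760169888387666696053194752,
  311682110962137486962237278431215616, 72326990636905904803303290669367296,
  -20021930794813777426861258300194816, 7681673161267595781581348102209536,
  -248531782491777481523497820749824],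
  [0, 0, 0, 0, 0, 0, 5090308095711956416397746026577920, 8543952932242506939611919710945280,
  -91514179797647348261979999235473408, 259366782605082534827523477256273920,
  -422311550460863051406999917156106240, 570694434496482981793357063073562624,
  -634048873694601251704524984513724416, 332319353615923900077261885007724544,
  -222345863037042658958814540529139712, -80365279182868844932059712312049664,
  -263568704550345023451223255632838656, 57964248556036254013457469083222016,
  95409332390777989124510256759570432, 20140961767418211514839019340955648,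
  -7460977567319799013496256769032192, 1032461742380437922726497675640832],
  [0, 0, 0, 0, 0, 0, 0, 763319242596051968392492398673920, 6309358432978720269042409361375232,
  -1446691899401298893537800932556800, -26730584101119842691931947436867584,
  54460767909829937741118561218199552, -67529685287370153881668243691667456,
  51235395317034318175305366937534464, -36477609645050729547270123241340928,
  55645556621774853493205815516987392, 2239199943634886020811277666877440,
  41905329905141539895853179404812288, 17765333652432377473711853398917120,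
  -2240950750737680199117444797693952, -1752579294692922808013828332191744,
  -480983610112192548352152355995648],
  [0, 0, 0, 0, 0, 0, 0, 0, 365791513183587914721378472820736, 192981777679243503511814855983104,
  -2247072962512168226909705969074176, 9470805449182875323222944370393088,
  -29044821132530673912203010147090432, 31951280883499785913976466343723008,
  -27597121523829305077096229866831872, 24498623357154103711778151340179456,
  -20728376963807964451572129177010176, 21717901402453914353320394294820864,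
  1868682474773510343738216255848448, 2828133529466959628520873252618240,
  -880457928981449016616144097771520, 76604905007170543606233412141056],
  [0, 0, 0, 0, 0, 0, 0, 0, 0, 51927899407483510767969135230976, 389111031532730435147530852368384,
  48152978746701473915406246739968, -1347624340009154583889441122680832,
  1442895758319202502448944718544896, -1652780022916287708686865521442816,
  2235082355460735722499540491698176, -1683734908975695850200865236320256,
  421076629846980862857352631549952, 177945793185021195839938819522560,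
  -201847206846081457660285862019072, 36008378941937567306652397338624,
  61650546976803497940029156622336],
  [0, 0, 0, 0, 0, 0, 0, 0, 0, 0, 15118792747655043397721033539584, 7115616946291882692370105368576,
  -28495088446505270334510166179840, 201074491798346958835818122182656,
  -447622106368641709564691107282944, 1089052026858413434009138564694016,
  -815337282008451560901145100550144, 588718863152803064395159031513088,
  -396744170362478239347835001634816, 217437644341281823845278319378432,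
  -30262419234727427780644039557120, 3740599501950681718387919290368],
  [0, 0, 0, 0, 0, 0, 0, 0, 0, 0, 0, 2176491548025749809121187594240,
  8809164196983211793030024527872, -1235711972778395517347690446848,
  -13877670903980692683355607531520, 20388062356246328819990107521024,
  43171505213257684301095026819072, -33972150744605894400684016533504,
  -4633779888744878160325065572352, -4297821583931778311986436112384,
  -895927068900406206252787433472, 1624577940597333959638385688576]],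
  [[],
  [],
  [],
  [],
  [],
  [],
  [],
  [],
  [],
  [],
  [],
  []],
  [[],
  [],
  [],
  [],
  [0, 0, 0, 0, 16302834224203674781020258828288, 1883135226192936304880082229395456,
  38435942110830485715156844696043520, 210402723755791770934413763956178944,
  276128988555887041164195020949946368, 203200154804673203722682032573120512,
  1239256883571896402870872134572310528, 3903519648656440721779040793403588608,
  3850623151927122695616245600769540096, 2981232158483202322205637518706081792,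
  4746086198406740202040429283584770048, 2886091056415595886816738998621306880,
  3643414854499389448937506764975243264, 1835606771367887919529814184979070976,
  1632722299968213828539153464273403904, 1457747590515912120069838797224804352,
  965629447812954410387071597868482560, 176285703011496890393424967696908288],
  [0, 0, 0, 0, 0, 28509741961982073654668546801664, 1558790192512100249870920178466816,
  18070719084854156685139399642447872, 36915451937124800303918222300676096,
  -103616800559700349208694043610972160, 29636790019508419492246542687928320,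
  317737067795740528051295341089128448, -645242009289796267219547556025466880,
  626866212518806142497435801463291904, -581284111907801063002000875891720192,
  385401753178648003997468912479371264, -217103338823260193914723872704299008,
  115981184573093237289997286158368768, 29602642656030046887011081175171072,
  -14883434709414423175790200067457024, -15952058483638902795563767531831296,
  6351710813827124703780656520364032],
  [0, 0, 0, 0, 0, 0, 13313569342632737590451550289920, 373851258120490249209939083919360,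
  1964815570681775191920445961011200, -1069979193352958305391977275850752,
  -4449355090684732696005823923486720, -12118125269780029503265038189723648,
  -105160114857977072257902757413912576, 97939897087411826083141204316258304,
  -111883557354770000692944569880281088, 21380023813812636080209802123280384,
  -37625279988936186833796157189128192, 25015787222936650216448074167877632,
  61088217058694658059026676569866240, 24127536339036124090813956369678336,
  9730102185653758536760699763294208, 1045582985555469653117489796612096],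
  [0, 0, 0, 0, 0, 0, 0, 5840693789322061768909620510720, 166521705993410229326786624225280,
  1126654546771731015990558238703616, 435810961433188983362076996009984,
  -8225852266258221118633655918395392, 720349392697276890345868288327680,
  11346232482342914187749964443025408, -21241508257209871468620048293167104,
  39476681610887228201396534545219584, -16692252714338395130623082492854272,
  14584684268355900894759014998474752, -1790818618484790879225920838696960,
  2021493313314978336963856397500416, -4342427546244467560375084457656320,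
  -871726513486299225436844193742848],
  [0, 0, 0, 0, 0, 0, 0, 0, 3299005639606790434842728202240, 59135153386706842508560284254208,
  295606168675917110382930721505280, 728400221318618877423537006575616,
  1930570919811728605196023492509696, 1867234335752796568287133455876096,
  1577820345776899625191068955312128, 6953467647767494165545269329920000,
  -5297156658223042606854887945797632, 13900647587127582290874214108889088,
  -2766182227778673240972662767878144, 1032275929568591068156690597675008,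
  -109097133817236862899613411049472, -1107973210456355822133481744367616],
  [0, 0, 0, 0, 0, 0, 0, 0, 0, 960111815789242895237728174080, 20496096394595365359460867375104,
  121249646587228040959759919087616, 178633004136255166627402274045952,
  -75511441078394217064109602504704, 279339188789240096980527891873792,
  5704283342694008082366398988288, -1110660117977237448337089827438592,
  1382869505807579364244923516715008, -474095979812801970346704683139072,
  714304648626487372375144808841216, -208838413891819360849277170483200,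
  -91511023172923502028353137803264],
  [0, 0, 0, 0, 0, 0, 0, 0, 0, 0, 222258572616077508192478691328, 3497230365095071937449470984192,
  21478391724559707528287301402624, 70692396215894846770367957041152,
  82993470560908092882779356790784, -109149345974943618608293428068352,
  -74900255225966828414547039092736, 178366984194300255509108106461184,
  -249646950936114378245384523743232, 211316736936368093014119891861504,
  128142332866596452879277641170944, -72088447682676625378819304325120],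
  [0, 0, 0, 0, 0, 0, 0, 0, 0, 0, 0, 51396553327812112894792826880, 828602892198079103049148661760,
  4053976539701827615837158113280, 6367930903608599047251714637824,
  2341162740583744010453847638016, 8004909504907500880208534175744,
  6710769148377541461992464711680, -16132692408538900762482507251712,
  1803160356069739110337886552064, 5143701189124484919377799413760,
  213310651340417032436280459264]],
  [[],
  [],
  [],
  [],
  [],
  [0, 0, 0, 0, 0, 1676701120021906447359604162560, 229928857384307620519197278208000,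
  5659570374839479263881015360225280, 36095407760418838273269544727347200,
  18832095071206686956039476000849920, -155261321934879144154365182865309696,
  155708281404743120515307825396711424, 76200261046356193550605323004280832,
  -281942999931344814234603960995414016, 352357783443481647621760915718799360,
  -263549990554082416215977368957747200, 187508715664229479730256311715102720,
  -72312389872451073251723184747577344, 40958316712084252886740702511235072,
  -8161377521636688831164444036825088, 7074293959219885159321196480692224,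
  4503416481093243309096589911392256],
  [0, 0, 0, 0, 0, 0, 3298115486127113530997326479360, 200033600535684237278643329433600,
  2636330733223382421409388833013760, 6727075054948448881635079288258560,
  -18829955135242412547300636783280128, -12354458253888543333966074320257024,
  76026416571243773553299486750539776, -134414450047605185807508608347275264,
  148962832855076230557993588234387456, -90117798842653803804499185154129920,
  57248426667717305599414296643633152, -9383097487428949335409609823748096,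
  18846166082763448663131324162244608, 1656321111509642646447230904434688,
  1582210386169185650720330961911808, 859698707242520139245101416185856],
  [0, 0, 0, 0, 0, 0, 0, 671168364058206578846434590720, 34943601772740233277501037608960,
  499940075227654060659752294154240, 2295218953306720785170837387870208,
  1050296039580689574561637258493952, -8622494671063315708733543279493120,
  1909865040645181376200877392527360, 9286629141037547942251722140811264,
  -19389227666715278992800019755565056, 19397202476724114204421735166509056,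
  -12732581782112129303520751424372736, 5194573637646481735829256086224896,
  -2142891612608807447105024921960448, 229829008314730619631762319343616,
  -52549292519612371222747857027072],
  [0, 0, 0, 0, 0, 0, 0, 0, 1220078098355610392192121569280, 34718530132675928060795383971840,
  242031585207486862133783389274112, 226443513011470474426384706961408,
  -1032949549808005740844624499441664, 930747460932872886731923796262912,
  1598984861030096017976892283944960, -5299891230580431066315909658312704,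
  5625784173785010955372281590710272, -5749121941174788045813014820028416,
  4894943133378857872764185962610688, -3286810668849267760488012450889728,
  1271731470866310653385765763940352, -171589198432308327208672699613184],
  [0, 0, 0, 0, 0, 0, 0, 0, 0, 60139077691533959415610736640, 3070777693344221307843158999040,
  40223041531933879607220397670400, 165688188161534139648571720335360,
  70323930292806666320006306856960, -432263249940703618586452697284608,
  326424971427226782278181332189184, 401631096926308396320017910595584,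
  -1154006092475792993102293735833600, 1020331804849217771938643322077184,
  -710122185364634044302954841767936, 175692713582397396758715068055552,
  29562997030999799416469380399104],
  [0, 0, 0, 0, 0, 0, 0, 0, 0, 0, 141010654837658568204327321600, 2539064375758899562947343810560,
  11197265526204463116892829122560, 1513048695802826560584296693760,
  -26943905128037869114353097113600, 75764857802911641481363624820736,
  48120627652559892230907214430208, -113124546796648571114136753143808,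
  129249955302018745643921118855168, -120089039218287398532186831323136,
  70384251632195392796421034868736, -21182325551481600907700745535488],
  [0, 0, 0, 0, 0, 0, 0, 0, 0, 0, 0, 17036971047096407424982056960, 337991089629857252638803886080,
  2057474149584433533721006571520, 3920003149543297881184791429120,
  -889276552049922130997541863424, -2193976049363016563785394552832,
  10365546854151360663062304522240, -1685194159365884173366515990528,
  -9577539370490283240039496286208, 8167277078412826463755818762240,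
  -1758493814760399069518877425664]],
  [[],
  [],
  [],
  [],
  [],
  [],
  [0, 0, 0, 0, 0, 0, 72500684470100825474617835520, 11796964664077608176684158156800,
  363315299881857998351044265902080, 3293834450854074174267795009699840,
  7166403866059552003414109894737920, -10997291010086501744267930741243904,
  -6886918989544252372051961724272640, 46022542535932458960369238224666624,
  -48755826077799200896149644994674688, 44472883466150760812935421022437376,
  -16218264434655429875461837792739328, 19067737786104282964261502126653440,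
  9585347702279785175564114901073920, 9196703282645881637308256577650688,
  7101347589960126235244453928370176, 1273918344728815941784264450768896],
  [0, 0, 0, 0, 0, 0, 0, -1159153817043357664070860800, -113060452172563173542209781760,
  -2965018577427215307727039365120, -28937482307860700762991702835200,
  -101980618038282110187010271477760, 4590658199503769255041900216320,
  625180876249839641467060456783872, 622921582708317187987677049257984,
  -714591519775254307535633346723840, -718285536888220378613431891132416,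
  -276966655713565244618278132776960, -564712381792789735068609533706240,
  -57447872105007693499368587919360, -778825467547829061338203491926016,
  -119667024152679090159023730720768],
  [0, 0, 0, 0, 0, 0, 0, 0, 84609300359787585570204549120, 4392655371168840162593136967680,
  62678394125726961341644501155840, 285600747523540729358698823024640,
  99538548815116223156216188108800, -1280350720268564159400822737731584,
  -193333576466324959036865224114176, 1126351762295738147998573308936192,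
  -2277136691933344217512136014823424, 1806650843619311797707336547565568,
  -1410538281673258154024782534803456, 351038814804234314800674625290240,
  -150766550204720186979667025068032, -30133835428933165138136317034496],
  [0, 0, 0, 0, 0, 0, 0, 0, 0, -16414045914146431529920757760, -641019714658339017062979993600,
  -7428777493731364160974167736320, -30343045308715588543663508029440,
  -29434636669692610672203462082560, 19550681953122756808602311196672,
  -80996469604331433209070543175680, -54858235972655071676474018758656,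
  160727651091331841892450645835776, -159727570333258864860460310593536,
  -15156250797085262650706176770048, -66906458892673540543201960525824,
  27938921588992195532290208563200],
  [0, 0, 0, 0, 0, 0, 0, 0, 0, 0, 19286954945838225283916759040, 604010677236628310560792903680,
  5805702120816201489774186332160, 19456723182234750585044478197760,
  8268768362157248192818414878720, -43048767645824812086616746098688,
  -3040865024472396765395863732224, 29807706865051266580725148680192,
  -39059510442548074539927692378112, 43012078660947926538310272417792,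
  -19120434254877509610918748618752, -2889366890947933890479652864000],
  [0, 0, 0, 0, 0, 0, 0, 0, 0, 0, 0, 655564051903757086894325760, 16833241771434215425085276160,
  133068153379993740816081223680, 330545332902650719554345369600, -262345325340398800145838243840,
  -1841354974353393313829697355776, -1576916585885498653314882994176,
  -426263621393005365326939947008, -71592963135761532222890311680,
  1497351578910050479308678365184, 262492700810248168006836289536]],
  [[],
  [],
  [],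
  [],
  [],
  [],
  [],
  [0, 0, 0, 0, 0, 0, 0, 85725709058991184548986880, 19588860148066257774701445120,
  931456296318109418200970035200, 15610635338948288841907678740480,
  106923819438661013078436772577280, 275549833453906635432601011093504,
  57886945958400045871285137309696, -359109585755840255152117461811200,
  589508206161836911503760177496064, 646854656516449708194179667984384,
  -704212591024074396130184955691008, 395582672013444701640900873289728,
  563245085910777914727705083904, 114087279812316332259913110650880,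
  113267202113876849110476103090176],
  [0, 0, 0, 0, 0, 0, 0, 0, -26759325103222302336614400, -2496813626269145512531722240,
  -58123519217662963282807357440, -401997318000309670140067184640, 244110833261694400780314869760,
  9396987047163805564519978106880, 16316434715619637627993548914688,
  -20079499479841610249062991265792, 13208811351981217056877600309248,
  164006989715750281273222285492224, 45375492375213661725225174171648,
  -77309910528561839475510447439872, 66944760451846299628204260851712,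
  19780354486134690376494096580608],
  [0, 0, 0, 0, 0, 0, 0, 0, 0, 163646324597105194885447680, 12429963803638048881723310080,
  291454321990462706908271738880, 2825571895701752938033871585280,
  11717293507271419821379886776320, 14640778903699930214612141604864,
  -21230271987956864432453122523136, -37403471842431773368764717858816,
  34797469394771752110292469809152, 18075780010789586996527777185792,
  -35423665999609987834806055993344, 18425394955515860238249454731264,
  -6631976387257535910704427565056],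
  [0, 0, 0, 0, 0, 0, 0, 0, 0, 0, -14178433799232314765475840, -677187768594973321655746560,
  -10550447385212661391121448960, -74451883584003021928503705600, -314409461675778459321803735040,
  -1187654022672995673674247831552, -3940411190404538189761172471808,
  -7663201459929693807846151421952, -6326764327173151744283035828224,
  -459716418132223201366895493120, 1913626296045400698788398497792,
  1255241477145728497116203974656],
  [0, 0, 0, 0, 0, 0, 0, 0, 0, 0, 0, 29967844636581347878502400, 1340903119146043397237637120,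
  20495405910756770889691299840, 137107537578197228633236439040, 392612247399729564156596060160,
  203147886351086615255045898240, -1076215744473730510506292150272,
  -1505211843308432388835617275904, 235964308465709223353417465856,
  587436554475387276679094206464, -303336414306745863926062252032]],
  [[],
  [],
  [],
  [],
  [],
  [],
  [],
  [],
  [0, 0, 0, 0, 0, 0, 0, 0, 9228337158708918768107520, 2121472329933513411683942400,
  101371537212158288724177715200, 1707843834420358381425477550080,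
  11856575210670299061708851773440, 32884667882016845940404703461376,
  26436591357966844872476873195520, 23919769937989593861852065955840,
  121356290870541974583232948076544, 23902883805468229826609531584512,
  -73721870529006152611124037550080, 125661664828628980362291921813504,
  -42397732260120431783133069705216, 38848165972032133751822950072320],
  [0, 0, 0, 0, 0, 0, 0, 0, 0, -4506734550855417908428800, -487982807898717277032284160,
  -14029808539095385897791651840, -143641503123635578058393518080,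
  -411935653232307179118762393600, 1502017967114217083670154444800,
  9478987708169555883433553559552, 10726107729448865761989972983808,
  -7800172294172516434740095483904, -7685695767941052016018562482176,
  5709291268454003186248502476800, -2440412317612429805197587382272,
  3720248309066613662289758257152],
  [0, 0, 0, 0, 0, 0, 0, 0, 0, 0, 11460425955930790145556480, 859574488625339011348561920,
  19815962493100356202754211840, 187219653665514652612857692160, 738437105199251413194611097600,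
  744765075488016533855963971584, -1821696440276396601458665979904,
  -2595019844255755474077071966208, 1822105929345459206514353897472,
  -1092651777206190956344321769472, -3835498454365330344174868758528,
  2129714647923492315013111087104],
  [0, 0, 0, 0, 0, 0, 0, 0, 0, 0, 0, 704806878726646765977600, 43506948238197872866099200,
  912684351887983668552007680, 8724209484936154823849410560, 41505104622193782984875704320,
  95219686563652992025000673280, 74654427796752654934380380160, -63216871915379507619522674688,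
  -122053723209580268669041115136, -46750252909288452684169347072, -8675952213308334100489175040]],
  [[],
  [],
  [],
  [],
  [],
  [],
  [],
  [],
  [],
  [0, 0, 0, 0, 0, 0, 0, 0, 0, 68226947412710066749440, 18580340246049141471313920,
  1089842746156461407034408960, 23792587430324651580394045440, 234515361224159628264839577600,
  1106381308272600608516050255872, 2349843584303171652023280992256,
  1502214816611608644024992268288, -645850286900171707310835499008,
  399826612255539728667188920320, 354383640833595925419880611840, 255590324348539214824023785472,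
  2563747804802844992909076332544],
  [0, 0, 0, 0, 0, 0, 0, 0, 0, 0, -57601207844176763289600, -7560955069441272446976000,
  -279969016333173821905305600, -4196446313493417643789516800, -28074672430283783377885593600,
  -73513293644530095486507417600, 24984727253311659249909104640, 410049770292486479907882270720,
  391681123686578971331851714560, -337162595414721464369739202560,
  -278192292165773233916580200448, 217581889353122673839598206976],
  [0, 0, 0, 0, 0, 0, 0, 0, 0, 0, 0, 38051181766136718950400, 3543277048748084035584000,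
  107232054808549474802073600, 1461441530614668829088808960, 10111609913769702289739612160,
  36518834734049496587776819200, 63932551541410603107719577600, 34222417336789087318368583680,
  -30656884989632461756365275136, -24213714595925537167031402496, 8354039054262504509430300672]],
  [[],
  [],
  [],
  [],
  [],
  [],
  [],
  [],
  [],
  [],
  [0, 0, 0, 0, 0, 0, 0, 0, 0, 0, 1025740224276662845440, 320464300717574046351360,
  22042968462503848307589120, 581793328331525383897743360, 7254787056643808003736207360,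
  46684159237613993599206162432, 157369791674431154514252791808, 259214803832053788329436512256,
  162724621028978412269693042688, 52244586447691256923976368128, 204105374440791470410655858688,
  195079374381772732181677867008],
  [0, 0, 0, 0, 0, 0, 0, 0, 0, 0, 0, 165586043980165939200, 27907526963072965017600,
  1404516564524667292876800, 31248640153041467395276800, 362739922744385588995031040,
  2388578252835230559428935680, 9280410265332363763258490880, 21404716945565942168357437440,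
  28418282670415851989646704640, 19783591937986232581405802496, 5508837078427565532358115328]],
  [[],
  [],
  [],
  [],
  [],
  [],
  [],
  [],
  [],
  [],
  [],
  [0, 0, 0, 0, 0, 0, 0, 0, 0, 0, 0, 1728537935059353600, 622273656621367296000,
  50404166186330750976000, 1612933317962584031232000, 25403699757910698491904000,
  219487965908348434970050560, 1097439829541742174850252800, 3225129294979813738335436800,
  5442405685278435683441049600, 4837693942469720607503155200, 1741569819289099418701135872]]]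

/-- table lookup -/
def kT (m m' : ℕ) : List ℤ := (kTab.getD m []).getD m' []

end Vale.Agent.P359
end
end

section

section

set_option linter.unusedSectionVars false

namespace Vale.Agent.P359

open Finset

variable {R : Type*} [Ring R] [StarRing R] [Algebra ℝ R] [StarModule ℝ R]
variable {Q : ℕ} {C : ℕ → R}

theorem C_sq (h : ScaledCAR Q C) (a : ℕ) : C a * C a = 0 := by
  have h1 := h.anti a a
  have h2 : (2 : ℝ) • (C a * C a) = 0 := by
    rw [two_smul]; nth_rewrite 1 [h1]; simp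
  have h3 := congrArg (fun x => (2 : ℝ)⁻¹ • x) h2
  simpa only [smul_smul, ne_eq, OfNat.ofNat_ne_zero, not_false_eq_true, inv_mul_cancel₀, one_smul,     smul_zero] using h3

theorem C_quad_comm (h : ScaledCAR Q C) (a b c : ℕ) :
    (C a * C b) * C c = C c * (C a * C b) := by
  rw [mul_assoc, h.anti b c, mul_neg, ← mul_assoc, h.anti a c, neg_mul, neg_neg, mul_assoc]

theorem pair_C_comm (h : ScaledCAR Q C) (s c : ℕ) :
    pairOp Q C s * C c = C c * pairOp Q C s := by
  unfold pairOp
  rw [sum_mul, mul_sum]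
  refine sum_congr rfl fun ab _ => ?_
  rw [smul_mul_assoc, mul_smul_comm, C_quad_comm h]

theorem pair_pair_comm (h : ScaledCAR Q C) (s t : ℕ) :
    pairOp Q C s * pairOp Q C t = pairOp Q C t * pairOp Q C s := by
  have key : ∀ x : R, (∀ c, x * C c = C c * x) → x * pairOp Q C t = pairOp Q C t * x := by
    intro x hx
    unfold pairOp
    rw [sum_mul, mul_sum]
    refine sum_congr rfl fun ab _ => ?_
    rw [smul_mul_assoc, mul_smul_comm, ← mul_assoc, hx, mul_assoc, hx, mul_assoc]
  exact key _ (pair_C_comm h s)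

theorem pairOp_zero (h : ScaledCAR Q C) (hQ : 1 ≤ Q) : pairOp Q C 0 = C 0 * C 1 := by
  have hQ' : (Q : ℝ) ≠ 0 := by positivity
  unfold pairOp
  rw [Finset.Nat.sum_antidiagonal_succ]
  simp only [Finset.HasAntidiagonal.antidiagonal_zero, sum_singleton, zero_add]
  have e1 : bcoef Q 0 0 1 = 1 / 2 := by
    unfold bcoef; simp only [Nat.cast_one, CharP.cast_eq_zero, sub_zero, Nat.choose_zero_right, mul_one, Nat.choose_one_right, one_mul, one_div]; field_simp
  have e2 : bcoef Q 0 1 0 = -(1 / 2) := by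
    rw [bcoef_antisymm, e1]
  rw [e1, e2, h.anti 1 0, smul_neg, neg_smul, neg_neg, ← add_smul]
  norm_num

theorem ad_mul_left (x y z : R) : ad (x * y) z = x * ad y z + ad x z * y := by
  unfold ad; noncomm_ring

theorem ad_C_starstar (h : ScaledCAR Q C) (i a b : ℕ) :
    ad (C i) (star (C b) * star (C a))
      = (if i = b then nu Q i else 0) • star (C a) - (if i = a then nu Q i else 0) • star (C b) := by
  have h1 := h.cross i b
  have h2 := h.cross i a
  unfold ad
  rw [← mul_assoc, h1, sub_mul, smul_mul_assoc, one_mul, mul_assoc, h2, mul_sub, mul_smul_comm,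
    mul_one, mul_assoc]
  abel

theorem ad_pair0_star (h : ScaledCAR Q C) (hQ : 1 ≤ Q) (s : ℕ) :
    ad (pairOp Q C 0) (star (pairOp Q C s))
      = (2 * bcoef Q s s 1) • (C 0 * star (C s))
        + (2 * bcoef Q s (s + 1) 0) • (star (C (s + 1)) * C 1) := by
  have e0 : star (pairOp Q C s)
      = ∑ ab ∈ antidiagonal (s + 1), bcoef Q s ab.1 ab.2 • (star (C ab.2) * star (C ab.1)) := by
    unfold pairOp
    rw [star_sum]
    refine sum_congr rfl fun ab _ => ?_
    rw [star_smul, star_mul]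
    simp only [star_trivial]
  have key : ∀ ab : ℕ × ℕ, ad (pairOp Q C 0) (bcoef Q s ab.1 ab.2 • (star (C ab.2) * star (C ab.1)))
      = (bcoef Q s ab.1 ab.2 * (if 1 = ab.2 then 1 else 0)) • (C 0 * star (C ab.1))
        - (bcoef Q s ab.1 ab.2 * (if 1 = ab.1 then 1 else 0)) • (C 0 * star (C ab.2))
        + (bcoef Q s ab.1 ab.2 * (if 0 = ab.2 then 1 else 0)) • (star (C ab.1) * C 1)
        - (bcoef Q s ab.1 ab.2 * (if 0 = ab.1 then 1 else 0)) • (star (C ab.2) * C 1) := by
    intro ab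
    rw [ad_smul, pairOp_zero h hQ, ad_mul_left, ad_C_starstar h, ad_C_starstar h, nu_zero,
      nu_one Q hQ, mul_sub, sub_mul, mul_smul_comm, mul_smul_comm, smul_mul_assoc, smul_mul_assoc,
      smul_add, smul_sub, smul_sub, smul_smul, smul_smul, smul_smul, smul_smul]
    abel
  have hs1 : ∀ f : ℕ → R, ∑ ab ∈ antidiagonal (s + 1),
      (bcoef Q s ab.1 ab.2 * (if 1 = ab.2 then 1 else 0)) • f ab.1 = bcoef Q s s 1 • f s := by
    intro f
    rw [sum_eq_single (s, 1)]
    · simp
    · intro b hb hb'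
      have := mem_antidiagonal.mp hb
      have h2 : ¬ (1 = b.2) := by
        intro h3; apply hb'; ext <;> simp <;> omega
      simp [h2]
    · intro hn; exact (hn (by simp)).elim
  have hs2 : ∀ f : ℕ → R, ∑ ab ∈ antidiagonal (s + 1),
      (bcoef Q s ab.1 ab.2 * (if 1 = ab.1 then 1 else 0)) • f ab.2 = -(bcoef Q s s 1 • f s) := by
    intro f
    rw [sum_eq_single (1, s)]
    · rw [bcoef_antisymm]; simp
    · intro b hb hb'
      have := mem_antidiagonal.mp hb
      have h2 : ¬ (1 = b.1) := by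
        intro h3; apply hb'; ext <;> simp <;> omega
      simp [h2]
    · intro hn; exact (hn (by simp [add_comm])).elim
  have hs3 : ∀ f : ℕ → R, ∑ ab ∈ antidiagonal (s + 1),
      (bcoef Q s ab.1 ab.2 * (if 0 = ab.2 then 1 else 0)) • f ab.1
        = bcoef Q s (s + 1) 0 • f (s + 1) := by
    intro f
    rw [sum_eq_single (s + 1, 0)]
    · simp
    · intro b hb hb'
      have := mem_antidiagonal.mp hb
      have h2 : ¬ (0 = b.2) := by
        intro h3; apply hb'; ext <;> simp <;> omega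
      simp only [h2, ↓reduceIte, mul_zero, zero_smul]
    · intro hn; exact (hn (by simp)).elim
  have hs4 : ∀ f : ℕ → R, ∑ ab ∈ antidiagonal (s + 1),
      (bcoef Q s ab.1 ab.2 * (if 0 = ab.1 then 1 else 0)) • f ab.2
        = -(bcoef Q s (s + 1) 0 • f (s + 1)) := by
    intro f
    rw [sum_eq_single (0, s + 1)]
    · rw [bcoef_antisymm]; simp
    · intro b hb hb'
      have := mem_antidiagonal.mp hb
      have h2 : ¬ (0 = b.1) := by
        intro h3; apply hb'; ext <;> simp <;> omega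
      simp only [h2, ↓reduceIte, mul_zero, zero_smul]
    · intro hn; exact (hn (by simp [add_comm])).elim
  rw [e0, ad_sum, sum_congr rfl (fun ab _ => key ab), sum_sub_distrib, sum_add_distrib,
    sum_sub_distrib]
  rw [hs1 (fun a => C 0 * star (C a)), hs2 (fun a => C 0 * star (C a)),
    hs3 (fun a => star (C a) * C 1), hs4 (fun a => star (C a) * C 1)]
  rw [two_mul, two_mul, add_smul, add_smul]
  abel

theorem coef1 (Q s : ℕ) (hQ : 1 ≤ Q) (hs : s ≤ 2 * Q - 2) :
    (rsq Q s)⁻¹ * (2 * bcoef Q s s 1) = (1 - (s : ℝ)) / nu Q s := by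
  have hQ' : (Q : ℝ) ≠ 0 := by positivity
  have h1 : ((2 * Q - 2).choose s : ℝ) ≠ 0 := by
    exact_mod_cast (Nat.choose_pos hs).ne'
  unfold rsq bcoef nu
  rw [Nat.choose_one_right, Nat.cast_one, inv_div, div_div_eq_mul_div]
  field_simp

theorem coef2 (Q s : ℕ) (hQ : 1 ≤ Q) (hs : s ≤ 2 * Q - 2) :
    (rsq Q s)⁻¹ * (2 * bcoef Q s (s + 1) 0) = -(((s : ℝ) + 1) / nu Q (s + 1)) := by
  have hQ' : (Q : ℝ) ≠ 0 := by positivity
  have h1 : ((2 * Q - 2).choose s : ℝ) ≠ 0 := by
    exact_mod_cast (Nat.choose_pos hs).ne'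
  unfold rsq bcoef nu
  rw [Nat.choose_zero_right, Nat.cast_zero, inv_div, div_div_eq_mul_div]
  push_cast
  field_simp
  ring

theorem pair0_ham (h : ScaledCAR Q C) (hQ : 1 ≤ Q) :
    pairOp Q C 0 * ham Q C = ham Q C * pairOp Q C 0
      + ∑ s ∈ range (2 * Q - 1), (((1 - (s : ℝ)) / nu Q s) • (C 0 * star (C s) * pairOp Q C s)
        - (((s : ℝ) + 1) / nu Q (s + 1)) • (star (C (s + 1)) * C 1 * pairOp Q C s)) := by
  have h0 : pairOp Q C 0 * ham Q C = ham Q C * pairOp Q C 0 + ad (pairOp Q C 0) (ham Q C) := by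
    unfold ad; abel
  rw [h0]
  congr 1
  unfold ham
  rw [ad_sum]
  refine sum_congr rfl fun s hs => ?_
  have hs' : s ≤ 2 * Q - 2 := by have := mem_range.mp hs; omega
  have hz : ad (pairOp Q C 0) (pairOp Q C s) = 0 := by
    unfold ad; rw [pair_pair_comm h 0 s, sub_self]
  rw [ad_smul, ad_mul, hz, mul_zero, add_zero, ad_pair0_star h hQ, add_mul, smul_mul_assoc,
    smul_mul_assoc, smul_add, smul_smul, smul_smul, coef1 Q s hQ hs', coef2 Q s hQ hs', neg_smul,
    ← sub_eq_add_neg]

theorem C0_pair0 (h : ScaledCAR Q C) (hQ : 1 ≤ Q) : C 0 * pairOp Q C 0 = 0 := by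
  rw [pairOp_zero h hQ, ← mul_assoc, C_sq h, zero_mul]

theorem C1_pair0 (h : ScaledCAR Q C) (hQ : 1 ≤ Q) : C 1 * pairOp Q C 0 = 0 := by
  rw [pairOp_zero h hQ, ← mul_assoc, h.anti 1 0, neg_mul, mul_assoc, C_sq h]
  simp

end Vale.Agent.P359
end
end

section

section

set_option linter.unusedSectionVars false

namespace Vale.Agent.P359

open Finset

variable {R : Type*} [Ring R] [StarRing R] [Algebra ℝ R] [StarModule ℝ R]

/-- a normalised rotation invariant functional carried by an eigenspace of the Hamiltonian -/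
structure OmegaState (Q : ℕ) (C : ℕ → R) (om : R →ₗ[ℝ] ℝ) (lam : ℝ) : Prop where
  hQ : 1 ≤ Q
  car : ScaledCAR Q C
  om_star : ∀ x, om (star x) = om x
  om_pos : ∀ x, 0 ≤ om (star x * x)
  om_ladder : ∀ x, om (ladder Q C * x) = om (x * ladder Q C)
  om_level : ∀ x, om (levelOp Q C * x) = om (x * levelOp Q C)
  om_eig : ∀ x, om (x * ham Q C) = lam * om x
  om_norm : om (star (pairOp Q C 0) * pairOp Q C 0) = 1

/-- the moment form -/
def br (om : R →ₗ[ℝ] ℝ) (x y : R) : ℝ := om (star x * y)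

section form

variable (om : R →ₗ[ℝ] ℝ)

theorem br_add_left (x y z : R) : br om (x + y) z = br om x z + br om y z := by
  unfold br; rw [star_add, add_mul, map_add]

theorem br_add_right (x y z : R) : br om x (y + z) = br om x y + br om x z := by
  unfold br; rw [mul_add, map_add]

theorem br_neg_left (x z : R) : br om (-x) z = - br om x z := by
  unfold br; rw [star_neg, neg_mul, map_neg]

theorem br_neg_right (x z : R) : br om x (-z) = - br om x z := by
  unfold br; rw [mul_neg, map_neg]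

theorem br_sub_left (x y z : R) : br om (x - y) z = br om x z - br om y z := by
  rw [sub_eq_add_neg, br_add_left, br_neg_left, sub_eq_add_neg]

theorem br_sub_right (x y z : R) : br om x (y - z) = br om x y - br om x z := by
  rw [sub_eq_add_neg, br_add_right, br_neg_right, sub_eq_add_neg]

theorem br_smul_left (r : ℝ) (x z : R) : br om (r • x) z = r * br om x z := by
  unfold br; rw [star_smul, star_trivial, smul_mul_assoc, map_smul, smul_eq_mul]

theorem br_smul_right (r : ℝ) (x z : R) : br om x (r • z) = r * br om x z := by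
  unfold br; rw [mul_smul_comm, map_smul, smul_eq_mul]

theorem br_zero_left (z : R) : br om 0 z = 0 := by
  unfold br; simp

theorem br_sum_left {ι : Type*} (s : Finset ι) (f : ι → R) (z : R) :
    br om (∑ i ∈ s, f i) z = ∑ i ∈ s, br om (f i) z := by
  unfold br; rw [star_sum, sum_mul, map_sum]

theorem br_sum_right {ι : Type*} (s : Finset ι) (f : ι → R) (z : R) :
    br om z (∑ i ∈ s, f i) = ∑ i ∈ s, br om z (f i) := by
  unfold br; rw [mul_sum, map_sum]

end form

variable {Q : ℕ} {C : ℕ → R} {om : R →ₗ[ℝ] ℝ} {lam : ℝ}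

namespace OmegaState

theorem br_symm (h : OmegaState Q C om lam) (x y : R) : br om x y = br om y x := by
  unfold br
  rw [← h.om_star (star x * y), star_mul, star_star]

theorem br_self_nonneg (h : OmegaState Q C om lam) (x : R) : 0 ≤ br om x x := h.om_pos x

theorem om_star_ladder (h : OmegaState Q C om lam) (x : R) :
    om (star (ladder Q C) * x) = om (x * star (ladder Q C)) := by
  rw [← h.om_star, star_mul, star_star, ← h.om_ladder, ← h.om_star, star_mul, star_star]

theorem br_of_comm (D : R) (hD : ∀ x, om (D * x) = om (x * D)) (x y : R) :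
    br om (ad (star D) x) y = br om x (ad D y) := by
  have h1 : om (ad D (star x * y)) = 0 := by
    unfold ad
    rw [map_sub, hD, sub_self]
  rw [ad_mul, ad_star_pair, map_add, neg_mul, map_neg] at h1
  unfold br
  linarith only [h1]

theorem br_ladder (h : OmegaState Q C om lam) (x y : R) :
    br om (ad (ladder Q C) x) y = br om x (ad (star (ladder Q C)) y) := by
  have := br_of_comm (om := om) (star (ladder Q C)) h.om_star_ladder x y
  rwa [star_star] at this

theorem star_level (Q : ℕ) (C : ℕ → R) : star (levelOp Q C) = levelOp Q C := by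
  unfold levelOp
  rw [star_sum]
  refine sum_congr rfl fun s _ => ?_
  rw [star_smul, star_mul, star_star]
  simp only [star_trivial]

theorem br_level (h : OmegaState Q C om lam) (x y : R) :
    br om (ad (levelOp Q C) x) y = br om x (ad (levelOp Q C) y) := by
  have := br_of_comm (om := om) (levelOp Q C) h.om_level x y
  rwa [star_level] at this

theorem br_C_le (h : OmegaState Q C om lam) (a : ℕ) (x : R) :
    br om (C a * x) (C a * x) ≤ nu Q a * br om x x := by
  have h1 := h.car.cross a a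
  rw [if_pos rfl] at h1
  have h2 : star (C a) * C a = nu Q a • (1 : R) - C a * star (C a) := by rw [h1]; abel
  have h3 := h.br_self_nonneg (star (C a) * x)
  unfold br at *
  have h4 : star (C a * x) * (C a * x) = star x * (star (C a) * C a) * x := by
    rw [star_mul]; noncomm_ring
  have h5 : star (star (C a) * x) * (star (C a) * x) = star x * (C a * star (C a)) * x := by
    rw [star_mul, star_star]; noncomm_ring
  rw [h4, h2, mul_sub, sub_mul, mul_smul_comm, mul_one, smul_mul_assoc, map_sub, map_smul,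
    smul_eq_mul]
  rw [h5] at h3
  linarith only [h3]

theorem br_pair_pair (h : OmegaState Q C om lam) (s : ℕ) (hs : s ≤ 2 * Q - 2) :
    br om (pairOp Q C s) (pairOp Q C s) = rsq Q s := by
  induction s with
  | zero => rw [rsq_zero]; exact h.om_norm
  | succ s ih =>
    have h1 := ih (by omega)
    have h2 := h.br_ladder (pairOp Q C (s + 1)) (pairOp Q C s)
    rw [ad_ladder_pair h.car h.hQ s hs, ad_star_ladder_pair h.car h.hQ s (by omega), br_neg_left,
      br_neg_right, br_smul_left, br_smul_right, h1] at h2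
    have h3 := rsq_ratio Q s h.hQ (by omega)
    have h4 : rsq Q s ≠ 0 := (rsq_pos Q s h.hQ (by omega)).ne'
    have h5 : rsq Q (s + 1) ≠ 0 := (rsq_pos Q (s + 1) h.hQ hs).ne'
    have hQ' : (Q : ℝ) ≠ 0 := by
      have := h.hQ
      (clear * - this; positivity)
    have h6 : (2 * (Q : ℝ) - 2 - s) ≠ 0 := by
      have : ((s : ℕ) : ℝ) < ((2 * Q - 2 : ℕ) : ℝ) := by exact_mod_cast hs
      rw [cast_two_Q Q h.hQ] at this
      linarith only [this]
    have h7 : ((s : ℝ) + 1) * rsq Q s = (2 * (Q : ℝ) - 2 - s) / Q * rsq Q (s + 1) := by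
      field_simp at h3 ⊢
      linarith only [h3]
    have h8 : (2 * (Q : ℝ) - 2 - s) / Q ≠ 0 := div_ne_zero h6 hQ'
    have h9 : (2 * (Q : ℝ) - 2 - s) / Q * br om (pairOp Q C (s + 1)) (pairOp Q C (s + 1))
        = (2 * (Q : ℝ) - 2 - s) / Q * rsq Q (s + 1) := by linarith only [h2, h7]
    exact mul_left_cancel₀ h8 h9

/-- three-body words -/
noncomputable def w3 (Q : ℕ) (C : ℕ → R) (p : ℕ × ℕ) : R := C p.2 * pairOp Q C p.1

end OmegaState

end Vale.Agent.P359
end
end

section

section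

set_option linter.unusedSectionVars false

namespace Vale.Agent.P359

open Finset

/-- `Gamma4 (2 B_s B_t, q)` at finite flux -/
noncomputable def pairRowQ (Q : ℕ) (g4 : ℕ × ℕ × ℕ → ℕ × ℕ × ℕ → ℝ) (s t : ℕ)
    (q : ℕ × ℕ × ℕ) : ℝ :=
  ∑ ab ∈ antidiagonal (s + 1), (2 * bcoef Q s ab.2 ab.1) * g4 (t, ab.1, ab.2) q

noncomputable def pairSqQ (Q : ℕ) (g4 : ℕ × ℕ × ℕ → ℕ × ℕ × ℕ → ℝ) (s : ℕ) : ℝ :=
  ∑ ab ∈ antidiagonal (s + 1), (2 * bcoef Q s ab.2 ab.1) * pairRowQ Q g4 s 0 (0, ab.1, ab.2)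

/-- exact relations between the local moments at flux `Q` -/
structure FinState (Q : ℕ) (lam : ℝ) where
  g3 : ℕ × ℕ → ℕ × ℕ → ℝ
  g4 : ℕ × ℕ × ℕ → ℕ × ℕ × ℕ → ℝ
  symm3 : ∀ p q, g3 p q = g3 q p
  symm4 : ∀ p q, g4 p q = g4 q p
  deg3 : ∀ p q, p.1 + p.2 ≠ q.1 + q.2 → g3 p q = 0
  deg4 : ∀ p q, p.1 + p.2.1 + p.2.2 ≠ q.1 + q.2.1 + q.2.2 → g4 p q = 0
  pos3 : ∀ (F : Finset (ℕ × ℕ)) (u : ℕ × ℕ → ℝ), 0 ≤ ∑ p ∈ F, ∑ q ∈ F, u p * u q * g3 p q
  pos4 : ∀ (F : Finset (ℕ × ℕ × ℕ)) (u : ℕ × ℕ × ℕ → ℝ),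
    0 ≤ ∑ p ∈ F, ∑ q ∈ F, u p * u q * g4 p q
  trans3 : ∀ s a s' b : ℕ, s ≤ 2 * Q - 2 → s' ≤ 2 * Q - 2 → a ≤ Q → b ≤ Q →
    (s : ℝ) * g3 (s - 1, a) (s', b) + (a : ℝ) * g3 (s, a - 1) (s', b)
      = ((2 * (Q : ℝ) - 2 - s') / Q) * g3 (s, a) (s' + 1, b)
        + (((Q : ℝ) - b) / Q) * g3 (s, a) (s', b + 1)
  trans4 : ∀ s a b s' a' b' : ℕ, s ≤ 2 * Q - 2 → s' ≤ 2 * Q - 2 → a ≤ Q → b ≤ Q →
    a' ≤ Q → b' ≤ Q →
    (s : ℝ) * g4 (s - 1, a, b) (s', a', b') + (a : ℝ) * g4 (s, a - 1, b) (s', a', b')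
      + (b : ℝ) * g4 (s, a, b - 1) (s', a', b')
      = ((2 * (Q : ℝ) - 2 - s') / Q) * g4 (s, a, b) (s' + 1, a', b')
        + (((Q : ℝ) - a') / Q) * g4 (s, a, b) (s', a' + 1, b')
        + (((Q : ℝ) - b') / Q) * g4 (s, a, b) (s', a', b' + 1)
  anti4 : ∀ (s a b : ℕ) (q : ℕ × ℕ × ℕ), g4 (s, a, b) q = - g4 (s, b, a) q
  null3_0 : ∀ q, g3 (0, 0) q = 0
  null3_1 : ∀ q, g3 (1, 0) q = 0
  null3_1' : ∀ q, g3 (0, 1) q = 0
  null3_30 : ∀ q, g3 (3, 0) q = (2 * bcoef Q 3 1 3) * g3 (0, 3) q
  null3_21 : ∀ q, g3 (2, 1) q = -((2 * bcoef Q 2 0 3) * g3 (0, 3) q)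
  null3_12 : ∀ q, g3 (1, 2) q = 0
  null4 : ∀ (s t : ℕ) (q : ℕ × ℕ × ℕ), pairRowQ Q g4 s t q = pairRowQ Q g4 t s q
  bound3 : ∀ s a : ℕ, s ≤ 2 * Q - 2 → g3 (s, a) (s, a) ≤ nu Q a * rsq Q s
  bound4 : ∀ (F : Finset (ℕ × ℕ)) (u : ℕ × ℕ → ℝ) (b : ℕ),
    ∑ p ∈ F, ∑ q ∈ F, u p * u q * g4 (p.1, p.2, b) (q.1, q.2, b)
      ≤ nu Q b * ∑ p ∈ F, ∑ q ∈ F, u p * u q * g3 p q
  posV : ∀ (D : ℕ) (al : ℝ) (A : Finset ℕ) (F : Finset (ℕ × ℕ)) (y : ℕ → ℕ × ℕ → ℝ),
    D ≤ 2 * Q - 2 → (∀ a ∈ A, a ≤ Q) →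
    0 ≤ al ^ 2 * rsq Q D
      + 2 * al * ∑ a ∈ A, (∑ p ∈ F, y a p * g3 (D, a) p) / nu Q a
      + ∑ a ∈ A, (∑ p ∈ F, ∑ q ∈ F, y a p * y a q * g3 p q) / nu Q a
      - ∑ a ∈ A, ∑ a' ∈ A, (∑ p ∈ F, ∑ q ∈ F,
          y a p * y a' q * g4 (p.1, p.2, a') (q.1, q.2, a)) / (nu Q a * nu Q a')
  energy :
    lam = 1 + ∑ s ∈ range (2 * Q - 1), ((((s : ℝ) - 1) / nu Q s) * g3 (0, s) (s, 0)
        - (((s : ℝ) + 1) / nu Q (s + 1)) * g3 (0, s + 1) (s, 1))
      + ∑ s ∈ range (2 * Q - 1), (rsq Q s)⁻¹ * (1 / 4) * pairSqQ Q g4 s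

variable {R : Type*} [Ring R] [StarRing R] [Algebra ℝ R] [StarModule ℝ R]
variable {Q : ℕ} {C : ℕ → R} {om : R →ₗ[ℝ] ℝ} {lam : ℝ}

/-- four-body words -/
noncomputable def w4op (Q : ℕ) (C : ℕ → R) (p : ℕ × ℕ × ℕ) : R :=
  C p.2.2 * (C p.2.1 * pairOp Q C p.1)

namespace OmegaState

theorem ad_ladder_pair' (h : OmegaState Q C om lam) (s : ℕ) (hs : s ≤ 2 * Q - 2) :
    ad (ladder Q C) (pairOp Q C s) = -((s : ℝ) • pairOp Q C (s - 1)) := by
  rcases s with _ | s
  · rw [ad_ladder_pair_zero h.car h.hQ]; simp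
  · rw [ad_ladder_pair h.car h.hQ s hs]; simp only [Nat.cast_add, Nat.cast_one, add_tsub_cancel_right]

theorem ad_ladder_w3 (h : OmegaState Q C om lam) (s a : ℕ) (hs : s ≤ 2 * Q - 2) (ha : a ≤ Q) :
    ad (ladder Q C) (w3 Q C (s, a))
      = -((a : ℝ) • w3 Q C (s, a - 1)) - (s : ℝ) • w3 Q C (s - 1, a) := by
  unfold w3
  rw [ad_mul, ad_ladder h.car h.hQ a ha, h.ad_ladder_pair' s hs]
  simp only [neg_mul, mul_neg, smul_mul_assoc, mul_smul_comm]
  abel

theorem ad_star_ladder_w3 (h : OmegaState Q C om lam) (s a : ℕ) (hs : s ≤ 2 * Q - 2)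
    (ha : a ≤ Q) :
    ad (star (ladder Q C)) (w3 Q C (s, a))
      = -((((Q : ℝ) - a) / Q) • w3 Q C (s, a + 1))
        - ((2 * (Q : ℝ) - 2 - s) / Q) • w3 Q C (s + 1, a) := by
  unfold w3
  rw [ad_mul, ad_star_ladder h.car h.hQ a ha, ad_star_ladder_pair h.car h.hQ s hs]
  simp only [neg_mul, mul_neg, smul_mul_assoc, mul_smul_comm]
  abel

theorem ad_ladder_w4 (h : OmegaState Q C om lam) (s a b : ℕ) (hs : s ≤ 2 * Q - 2) (ha : a ≤ Q)
    (hb : b ≤ Q) :
    ad (ladder Q C) (w4op Q C (s, a, b))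
      = -((b : ℝ) • w4op Q C (s, a, b - 1)) - (a : ℝ) • w4op Q C (s, a - 1, b)
        - (s : ℝ) • w4op Q C (s - 1, a, b) := by
  have h1 := h.ad_ladder_w3 s a hs ha
  unfold w3 at h1
  unfold w4op
  rw [ad_mul, ad_ladder h.car h.hQ b hb, h1]
  simp only [neg_mul, mul_neg, smul_mul_assoc, mul_smul_comm, mul_sub]
  abel

theorem ad_star_ladder_w4 (h : OmegaState Q C om lam) (s a b : ℕ) (hs : s ≤ 2 * Q - 2)
    (ha : a ≤ Q) (hb : b ≤ Q) :
    ad (star (ladder Q C)) (w4op Q C (s, a, b))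
      = -((((Q : ℝ) - b) / Q) • w4op Q C (s, a, b + 1))
        - (((Q : ℝ) - a) / Q) • w4op Q C (s, a + 1, b)
        - ((2 * (Q : ℝ) - 2 - s) / Q) • w4op Q C (s + 1, a, b) := by
  have h1 := h.ad_star_ladder_w3 s a hs ha
  unfold w3 at h1
  unfold w4op
  rw [ad_mul, ad_star_ladder h.car h.hQ b hb, h1]
  simp only [neg_mul, mul_neg, smul_mul_assoc, mul_smul_comm, mul_sub]
  abel

theorem ad_level_w3 (h : OmegaState Q C om lam) (p : ℕ × ℕ) :
    ad (levelOp Q C) (w3 Q C p) = -(((p.2 : ℝ) + (p.1 + 1)) • w3 Q C p) := by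
  unfold w3
  rw [ad_mul, ad_levelOp h.car h.hQ, ad_levelOp_pair h.car h.hQ]
  simp only [neg_mul, mul_neg, smul_mul_assoc, mul_smul_comm]
  module

theorem ad_level_w4 (h : OmegaState Q C om lam) (p : ℕ × ℕ × ℕ) :
    ad (levelOp Q C) (w4op Q C p)
      = -(((p.2.2 : ℝ) + (p.2.1 + (p.1 + 1))) • w4op Q C p) := by
  have h1 := h.ad_level_w3 (p.1, p.2.1)
  unfold w3 at h1
  unfold w4op
  rw [ad_mul, ad_levelOp h.car h.hQ, h1]
  simp only [neg_mul, mul_neg, smul_mul_assoc, mul_smul_comm]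
  module

theorem fin_deg3 (h : OmegaState Q C om lam) (p q : ℕ × ℕ) (hpq : p.1 + p.2 ≠ q.1 + q.2) :
    br om (w3 Q C p) (w3 Q C q) = 0 := by
  have h1 := h.br_level (w3 Q C p) (w3 Q C q)
  rw [h.ad_level_w3, h.ad_level_w3, br_neg_left, br_neg_right, br_smul_left, br_smul_right] at h1
  have h2 : (((p.2 : ℝ) + (p.1 + 1)) - ((q.2 : ℝ) + (q.1 + 1))) * br om (w3 Q C p) (w3 Q C q)
      = 0 := by linarith only [h1]
  rcases mul_eq_zero.mp h2 with h3 | h3
  · exfalso
    apply hpq
    have : (p.1 : ℝ) + p.2 = q.1 + q.2 := by linarith only [h3]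
    exact_mod_cast this
  · exact h3

theorem fin_deg4 (h : OmegaState Q C om lam) (p q : ℕ × ℕ × ℕ)
    (hpq : p.1 + p.2.1 + p.2.2 ≠ q.1 + q.2.1 + q.2.2) :
    br om (w4op Q C p) (w4op Q C q) = 0 := by
  have h1 := h.br_level (w4op Q C p) (w4op Q C q)
  rw [h.ad_level_w4, h.ad_level_w4, br_neg_left, br_neg_right, br_smul_left, br_smul_right] at h1
  have h2 : (((p.2.2 : ℝ) + (p.2.1 + (p.1 + 1))) - ((q.2.2 : ℝ) + (q.2.1 + (q.1 + 1))))
      * br om (w4op Q C p) (w4op Q C q) = 0 := by linarith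
  rcases mul_eq_zero.mp h2 with h3 | h3
  · exfalso
    apply hpq
    have : (p.1 : ℝ) + p.2.1 + p.2.2 = q.1 + q.2.1 + q.2.2 := by linarith only [h3]
    exact_mod_cast this
  · exact h3

theorem fin_trans3 (h : OmegaState Q C om lam) (s a s' b : ℕ) (hs : s ≤ 2 * Q - 2)
    (hs' : s' ≤ 2 * Q - 2) (ha : a ≤ Q) (hb : b ≤ Q) :
    (s : ℝ) * br om (w3 Q C (s - 1, a)) (w3 Q C (s', b))
      + (a : ℝ) * br om (w3 Q C (s, a - 1)) (w3 Q C (s', b))
      = ((2 * (Q : ℝ) - 2 - s') / Q) * br om (w3 Q C (s, a)) (w3 Q C (s' + 1, b))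
        + (((Q : ℝ) - b) / Q) * br om (w3 Q C (s, a)) (w3 Q C (s', b + 1)) := by
  have h1 := h.br_ladder (w3 Q C (s, a)) (w3 Q C (s', b))
  rw [h.ad_ladder_w3 s a hs ha, h.ad_star_ladder_w3 s' b hs' hb, br_sub_left, br_sub_right,
    br_neg_left, br_neg_right, br_smul_left, br_smul_left, br_smul_right, br_smul_right] at h1
  linarith only [h1]

theorem fin_trans4 (h : OmegaState Q C om lam) (s a b s' a' b' : ℕ) (hs : s ≤ 2 * Q - 2)
    (hs' : s' ≤ 2 * Q - 2) (ha : a ≤ Q) (hb : b ≤ Q) (ha' : a' ≤ Q) (hb' : b' ≤ Q) :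
    (s : ℝ) * br om (w4op Q C (s - 1, a, b)) (w4op Q C (s', a', b'))
      + (a : ℝ) * br om (w4op Q C (s, a - 1, b)) (w4op Q C (s', a', b'))
      + (b : ℝ) * br om (w4op Q C (s, a, b - 1)) (w4op Q C (s', a', b'))
      = ((2 * (Q : ℝ) - 2 - s') / Q) * br om (w4op Q C (s, a, b)) (w4op Q C (s' + 1, a', b'))
        + (((Q : ℝ) - a') / Q) * br om (w4op Q C (s, a, b)) (w4op Q C (s', a' + 1, b'))
        + (((Q : ℝ) - b') / Q) * br om (w4op Q C (s, a, b)) (w4op Q C (s', a', b' + 1)) := by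
  have h1 := h.br_ladder (w4op Q C (s, a, b)) (w4op Q C (s', a', b'))
  rw [h.ad_ladder_w4 s a b hs ha hb, h.ad_star_ladder_w4 s' a' b' hs' ha' hb'] at h1
  simp only [br_sub_left, br_sub_right, br_neg_left, br_neg_right, br_smul_left,
    br_smul_right] at h1
  linarith only [h1]

theorem quad_form (om : R →ₗ[ℝ] ℝ) {ι : Type*} (F : Finset ι) (u : ι → ℝ) (w : ι → R) :
    ∑ p ∈ F, ∑ q ∈ F, u p * u q * br om (w p) (w q)
      = br om (∑ p ∈ F, u p • w p) (∑ p ∈ F, u p • w p) := by
  rw [br_sum_left]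
  refine sum_congr rfl fun p _ => ?_
  rw [br_smul_left, br_sum_right, mul_sum]
  refine sum_congr rfl fun q _ => ?_
  rw [br_smul_right]
  ring

theorem bilin_form (om : R →ₗ[ℝ] ℝ) {ι : Type*} (F : Finset ι) (u v : ι → ℝ) (w w' : ι → R) :
    ∑ p ∈ F, ∑ q ∈ F, u p * v q * br om (w p) (w' q)
      = br om (∑ p ∈ F, u p • w p) (∑ p ∈ F, v p • w' p) := by
  rw [br_sum_left]
  refine sum_congr rfl fun p _ => ?_
  rw [br_smul_left, br_sum_right, mul_sum]
  refine sum_congr rfl fun q _ => ?_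
  rw [br_smul_right]
  ring

theorem w4_anti (h : OmegaState Q C om lam) (s a b : ℕ) :
    w4op Q C (s, a, b) = - w4op Q C (s, b, a) := by
  unfold w4op
  simp only
  rw [← mul_assoc, h.car.anti b a, neg_mul, mul_assoc]

theorem w3_null_00 (h : OmegaState Q C om lam) : w3 Q C (0, 0) = 0 := C0_pair0 h.car h.hQ

theorem w3_null_01 (h : OmegaState Q C om lam) : w3 Q C (0, 1) = 0 := C1_pair0 h.car h.hQ

theorem pair_one (h : OmegaState Q C om lam) :
    pairOp Q C 1 = (2 * bcoef Q 1 0 2) • (C 0 * C 2) := by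
  unfold pairOp
  rw [Finset.Nat.sum_antidiagonal_succ, Finset.Nat.sum_antidiagonal_succ]
  simp only [Finset.HasAntidiagonal.antidiagonal_zero, sum_singleton, zero_add]
  rw [C_sq h.car, h.car.anti (1 + 1) 0, bcoef_antisymm Q 1 (1 + 1) 0]
  norm_num
  module

theorem pair_two (h : OmegaState Q C om lam) :
    pairOp Q C 2 = (2 * bcoef Q 2 0 3) • (C 0 * C 3) + (2 * bcoef Q 2 1 2) • (C 1 * C 2) := by
  unfold pairOp
  rw [Finset.Nat.sum_antidiagonal_succ, Finset.Nat.sum_antidiagonal_succ,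
    Finset.Nat.sum_antidiagonal_succ]
  simp only [Finset.HasAntidiagonal.antidiagonal_zero, sum_singleton, zero_add]
  norm_num
  rw [h.car.anti 3 0, bcoef_antisymm Q 2 3 0, h.car.anti 2 1, bcoef_antisymm Q 2 2 1]
  module

theorem pair_three (h : OmegaState Q C om lam) :
    pairOp Q C 3 = (2 * bcoef Q 3 0 4) • (C 0 * C 4) + (2 * bcoef Q 3 1 3) • (C 1 * C 3) := by
  unfold pairOp
  rw [Finset.Nat.sum_antidiagonal_succ, Finset.Nat.sum_antidiagonal_succ,
    Finset.Nat.sum_antidiagonal_succ, Finset.Nat.sum_antidiagonal_succ]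
  simp only [Finset.HasAntidiagonal.antidiagonal_zero, sum_singleton, zero_add]
  norm_num
  rw [h.car.anti 4 0, bcoef_antisymm Q 3 4 0, h.car.anti 3 1, bcoef_antisymm Q 3 3 1, C_sq h.car]
  module

theorem w3_null_10 (h : OmegaState Q C om lam) : w3 Q C (1, 0) = 0 := by
  unfold w3
  simp only
  rw [h.pair_one, mul_smul_comm, ← mul_assoc, C_sq h.car]
  simp

theorem w3_null_12 (h : OmegaState Q C om lam) : w3 Q C (1, 2) = 0 := by
  unfold w3
  simp only
  rw [h.pair_one, mul_smul_comm, ← mul_assoc, h.car.anti 2 0, neg_mul, mul_assoc, C_sq h.car]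
  simp

theorem w3_03 (h : OmegaState Q C om lam) : w3 Q C (0, 3) = C 0 * (C 1 * C 3) := by
  unfold w3
  simp only
  rw [pairOp_zero h.car h.hQ, ← C_quad_comm h.car, mul_assoc]

theorem w3_21 (h : OmegaState Q C om lam) :
    w3 Q C (2, 1) = -((2 * bcoef Q 2 0 3) • w3 Q C (0, 3)) := by
  rw [h.w3_03]
  unfold w3
  simp only
  rw [h.pair_two, mul_add, mul_smul_comm, mul_smul_comm, ← mul_assoc (C 1) (C 1), C_sq h.car,
    ← mul_assoc (C 1) (C 0), h.car.anti 1 0, neg_mul, mul_assoc]
  simp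

theorem w3_30 (h : OmegaState Q C om lam) :
    w3 Q C (3, 0) = (2 * bcoef Q 3 1 3) • w3 Q C (0, 3) := by
  rw [h.w3_03]
  unfold w3
  simp only
  rw [h.pair_three, mul_add, mul_smul_comm, mul_smul_comm, ← mul_assoc (C 0) (C 0), C_sq h.car]
  simp

theorem pair_eq_swap (_h : OmegaState Q C om lam) (s : ℕ) :
    ∑ ab ∈ antidiagonal (s + 1), (2 * bcoef Q s ab.2 ab.1) • (C ab.2 * C ab.1)
      = (2 : ℝ) • pairOp Q C s := by
  unfold pairOp
  rw [smul_sum, ← Finset.Nat.sum_antidiagonal_swap]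
  refine sum_congr rfl fun ab _ => ?_
  simp only [Prod.fst_swap, Prod.snd_swap, smul_smul]

theorem pairRow_eq (h : OmegaState Q C om lam) (s t : ℕ) (q : ℕ × ℕ × ℕ) :
    pairRowQ Q (fun p q => br om (w4op Q C p) (w4op Q C q)) s t q
      = 2 * br om (pairOp Q C s * pairOp Q C t) (w4op Q C q) := by
  unfold pairRowQ
  rw [← br_smul_left, ← smul_mul_assoc, ← h.pair_eq_swap, sum_mul, br_sum_left]
  refine sum_congr rfl fun ab _ => ?_
  rw [smul_mul_assoc, br_smul_left]
  unfold w4op
  simp only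
  rw [mul_assoc (C ab.2)]

theorem pairSq_eq (h : OmegaState Q C om lam) (s : ℕ) :
    pairSqQ Q (fun p q => br om (w4op Q C p) (w4op Q C q)) s
      = 4 * br om (pairOp Q C s * pairOp Q C 0) (pairOp Q C s * pairOp Q C 0) := by
  unfold pairSqQ
  have e : ∀ ab ∈ antidiagonal (s + 1), (2 * bcoef Q s ab.2 ab.1)
      * pairRowQ Q (fun p q => br om (w4op Q C p) (w4op Q C q)) s 0 (0, ab.1, ab.2)
      = 2 * br om (pairOp Q C s * pairOp Q C 0)
        ((2 * bcoef Q s ab.2 ab.1) • (C ab.2 * C ab.1 * pairOp Q C 0)) := by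
    intro ab _
    rw [h.pairRow_eq, br_smul_right]
    unfold w4op
    simp only
    rw [mul_assoc (C ab.2)]
    ring
  rw [sum_congr rfl e, ← mul_sum, ← br_sum_right]
  have e2 : ∑ ab ∈ antidiagonal (s + 1), (2 * bcoef Q s ab.2 ab.1) • (C ab.2 * C ab.1 * pairOp Q C 0)
      = (2 : ℝ) • (pairOp Q C s * pairOp Q C 0) := by
    rw [← smul_mul_assoc, ← h.pair_eq_swap, sum_mul]
    refine sum_congr rfl fun ab _ => ?_
    rw [smul_mul_assoc]
  rw [e2, br_smul_right]
  ring

theorem fin_energy (h : OmegaState Q C om lam) :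
    lam = 1 + ∑ s ∈ range (2 * Q - 1),
        ((((s : ℝ) - 1) / nu Q s) * br om (w3 Q C (0, s)) (w3 Q C (s, 0))
        - (((s : ℝ) + 1) / nu Q (s + 1)) * br om (w3 Q C (0, s + 1)) (w3 Q C (s, 1)))
      + ∑ s ∈ range (2 * Q - 1), (rsq Q s)⁻¹ * (1 / 4)
        * pairSqQ Q (fun p q => br om (w4op Q C p) (w4op Q C q)) s := by
  have h1 : br om (pairOp Q C 0) (pairOp Q C 0 * ham Q C) = lam := by
    unfold br
    rw [← mul_assoc, h.om_eig, h.om_norm, mul_one]
  have hterm : ∀ s ∈ range (2 * Q - 1),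
      br om (pairOp Q C 0) (((1 - (s : ℝ)) / nu Q s) • (C 0 * star (C s) * pairOp Q C s)
        - (((s : ℝ) + 1) / nu Q (s + 1)) • (star (C (s + 1)) * C 1 * pairOp Q C s))
      = (if s = 0 then 1 else 0)
        + ((((s : ℝ) - 1) / nu Q s) * br om (w3 Q C (0, s)) (w3 Q C (s, 0))
        - (((s : ℝ) + 1) / nu Q (s + 1)) * br om (w3 Q C (0, s + 1)) (w3 Q C (s, 1))) := by
    intro s _
    have e2 : br om (pairOp Q C 0) (star (C (s + 1)) * C 1 * pairOp Q C s)
        = br om (w3 Q C (0, s + 1)) (w3 Q C (s, 1)) := by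
      unfold br w3
      simp only
      rw [star_mul]
      simp only [mul_assoc]
    rw [br_sub_right, br_smul_right, br_smul_right, e2]
    rcases Nat.eq_zero_or_pos s with h0 | h0
    · subst h0
      have e3 : C 0 * star (C 0) * pairOp Q C 0 = pairOp Q C 0 := by
        rw [h.car.cross 0 0, if_pos rfl, nu_zero, one_smul, sub_mul, one_mul, mul_assoc,
          C0_pair0 h.car h.hQ, mul_zero, sub_zero]
      rw [e3]
      have e4 : br om (pairOp Q C 0) (pairOp Q C 0) = 1 := h.om_norm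
      rw [e4, h.w3_null_00, br_zero_left, nu_zero]
      simp only [CharP.cast_eq_zero, sub_zero, ne_eq, one_ne_zero, not_false_eq_true, div_self, mul_one, zero_add, one_div, ↓reduceIte, zero_sub, div_one, mul_zero]
      ring
    · have e3 : C 0 * star (C s) * pairOp Q C s = -(star (C s) * (C 0 * pairOp Q C s)) := by
        rw [h.car.cross 0 s, if_neg (by omega), zero_smul, zero_sub, neg_mul, mul_assoc]
      have e4 : br om (pairOp Q C 0) (star (C s) * (C 0 * pairOp Q C s))
          = br om (w3 Q C (0, s)) (w3 Q C (s, 0)) := by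
        unfold br w3
        simp only
        rw [star_mul]
        simp only [mul_assoc]
      rw [e3, br_neg_right, e4, if_neg (by omega)]
      ring
  have h2 : br om (pairOp Q C 0) (ham Q C * pairOp Q C 0)
      = ∑ s ∈ range (2 * Q - 1), (rsq Q s)⁻¹ * (1 / 4)
        * pairSqQ Q (fun p q => br om (w4op Q C p) (w4op Q C q)) s := by
    unfold ham
    rw [sum_mul, br_sum_right]
    refine sum_congr rfl fun s _ => ?_
    rw [h.pairSq_eq, smul_mul_assoc, br_smul_right]
    have e5 : br om (pairOp Q C 0) (star (pairOp Q C s) * pairOp Q C s * pairOp Q C 0)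
        = br om (pairOp Q C s * pairOp Q C 0) (pairOp Q C s * pairOp Q C 0) := by
      unfold br
      rw [star_mul]
      simp only [mul_assoc]
    rw [e5]
    ring
  rw [pair0_ham h.car h.hQ, br_add_right, h2, br_sum_right, sum_congr rfl hterm,
    sum_add_distrib, sum_ite_eq' (range (2 * Q - 1)) 0, if_pos
      (mem_range.mpr (by have := h.hQ; omega))] at h1
  linarith only [h1]

theorem fin_posV (h : OmegaState Q C om lam) (D : ℕ) (al : ℝ) (A : Finset ℕ)
    (F : Finset (ℕ × ℕ)) (y : ℕ → ℕ × ℕ → ℝ) (hD : D ≤ 2 * Q - 2) (hA : ∀ a ∈ A, a ≤ Q) :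
    0 ≤ al ^ 2 * rsq Q D
      + 2 * al * ∑ a ∈ A, (∑ p ∈ F, y a p * br om (w3 Q C (D, a)) (w3 Q C p)) / nu Q a
      + ∑ a ∈ A, (∑ p ∈ F, ∑ q ∈ F, y a p * y a q * br om (w3 Q C p) (w3 Q C q)) / nu Q a
      - ∑ a ∈ A, ∑ a' ∈ A, (∑ p ∈ F, ∑ q ∈ F,
          y a p * y a' q * br om (w4op Q C (p.1, p.2, a')) (w4op Q C (q.1, q.2, a)))
            / (nu Q a * nu Q a') := by
  set t : ℕ → R := fun a => ∑ p ∈ F, y a p • w3 Q C p with ht
  have hnu : ∀ a ∈ A, nu Q a ≠ 0 := fun a ha => (nu_pos Q a h.hQ (hA a ha)).ne'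
  have h0 := h.br_self_nonneg (al • pairOp Q C D + ∑ a ∈ A, (nu Q a)⁻¹ • (star (C a) * t a))
  have e1 : ∀ a, br om (pairOp Q C D) (star (C a) * t a)
      = ∑ p ∈ F, y a p * br om (w3 Q C (D, a)) (w3 Q C p) := by
    intro a
    have : br om (pairOp Q C D) (star (C a) * t a) = br om (w3 Q C (D, a)) (t a) := by
      unfold br w3
      simp only
      rw [star_mul]
      simp only [mul_assoc]
    rw [this, ht]
    simp only
    rw [br_sum_right]
    refine sum_congr rfl fun p _ => ?_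
    rw [br_smul_right]
  have e2 : ∀ a a', br om (star (C a) * t a) (star (C a') * t a')
      = (if a = a' then nu Q a else 0) * br om (t a) (t a') - br om (C a' * t a) (C a * t a') := by
    intro a a'
    unfold br
    have : star (star (C a) * t a) * (star (C a') * t a')
        = star (t a) * (C a * star (C a')) * t a' := by
      rw [star_mul, star_star]; noncomm_ring
    rw [this, h.car.cross a a', mul_sub, sub_mul, mul_smul_comm, mul_one, smul_mul_assoc, map_sub,
      map_smul, smul_eq_mul]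
    congr 2
    rw [star_mul]
    noncomm_ring
  have e3 : ∀ a a', br om (C a' * t a) (C a * t a')
      = ∑ p ∈ F, ∑ q ∈ F,
          y a p * y a' q * br om (w4op Q C (p.1, p.2, a')) (w4op Q C (q.1, q.2, a)) := by
    intro a a'
    rw [bilin_form om F (fun p => y a p) (fun q => y a' q) (fun p => w4op Q C (p.1, p.2, a'))
      (fun q => w4op Q C (q.1, q.2, a))]
    rw [ht]
    simp only
    rw [mul_sum, mul_sum]
    congr 1
    · refine sum_congr rfl fun p _ => ?_
      rw [mul_smul_comm]; rfl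
    · refine sum_congr rfl fun p _ => ?_
      rw [mul_smul_comm]; rfl
  have e4 : ∀ a, br om (t a) (t a)
      = ∑ p ∈ F, ∑ q ∈ F, y a p * y a q * br om (w3 Q C p) (w3 Q C q) := by
    intro a
    rw [quad_form om F (fun p => y a p) (fun p => w3 Q C p)]
  rw [br_add_left, br_add_right, br_add_right, br_smul_left, br_smul_right, br_smul_left,
    br_smul_right, h.br_symm (∑ a ∈ A, (nu Q a)⁻¹ • (star (C a) * t a)) (pairOp Q C D),
    br_sum_right, h.br_pair_pair D hD, br_sum_left] at h0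
  have e5 : ∑ a ∈ A, br om (pairOp Q C D) ((nu Q a)⁻¹ • (star (C a) * t a))
      = ∑ a ∈ A, (∑ p ∈ F, y a p * br om (w3 Q C (D, a)) (w3 Q C p)) / nu Q a := by
    refine sum_congr rfl fun a _ => ?_
    rw [br_smul_right, e1, div_eq_inv_mul]
  have e6 : ∑ a ∈ A, br om ((nu Q a)⁻¹ • (star (C a) * t a))
        (∑ a' ∈ A, (nu Q a')⁻¹ • (star (C a') * t a'))
      = ∑ a ∈ A, (∑ p ∈ F, ∑ q ∈ F, y a p * y a q * br om (w3 Q C p) (w3 Q C q)) / nu Q a
      - ∑ a ∈ A, ∑ a' ∈ A, (∑ p ∈ F, ∑ q ∈ F,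
          y a p * y a' q * br om (w4op Q C (p.1, p.2, a')) (w4op Q C (q.1, q.2, a)))
            / (nu Q a * nu Q a') := by
    rw [← sum_sub_distrib]
    refine sum_congr rfl fun a ha => ?_
    rw [br_sum_right]
    have e7 : ∀ a' ∈ A, br om ((nu Q a)⁻¹ • (star (C a) * t a)) ((nu Q a')⁻¹ • (star (C a') * t a'))
        = (if a = a' then br om (t a) (t a) / nu Q a else 0)
          - (∑ p ∈ F, ∑ q ∈ F,
          y a p * y a' q * br om (w4op Q C (p.1, p.2, a')) (w4op Q C (q.1, q.2, a)))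
            / (nu Q a * nu Q a') := by
      intro a' ha'
      rw [br_smul_left, br_smul_right, e2, e3]
      have n1 := hnu a ha
      have n2 := hnu a' ha'
      by_cases haa : a = a'
      · subst haa
        rw [if_pos rfl, if_pos rfl]
        (clear * - n2; field_simp)
      · rw [if_neg haa, if_neg haa]
        field_simp
        ring
    rw [sum_congr rfl e7, sum_sub_distrib, sum_ite_eq A a, if_pos ha, e4]
  rw [e5, e6] at h0
  nlinarith only [h0]

/-- the moments of an `OmegaState` -/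
noncomputable def toFin (h : OmegaState Q C om lam) : FinState Q lam where
  g3 p q := br om (w3 Q C p) (w3 Q C q)
  g4 p q := br om (w4op Q C p) (w4op Q C q)
  symm3 p q := h.br_symm _ _
  symm4 p q := h.br_symm _ _
  deg3 := h.fin_deg3
  deg4 := h.fin_deg4
  pos3 F u := by
    rw [quad_form om F u (w3 Q C)]
    exact h.br_self_nonneg _
  pos4 F u := by
    rw [quad_form om F u (w4op Q C)]
    exact h.br_self_nonneg _
  trans3 := h.fin_trans3
  trans4 := h.fin_trans4
  anti4 s a b q := by rw [h.w4_anti, br_neg_left]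
  null3_0 q := by rw [h.w3_null_00, br_zero_left]
  null3_1 q := by rw [h.w3_null_10, br_zero_left]
  null3_1' q := by rw [h.w3_null_01, br_zero_left]
  null3_30 q := by rw [h.w3_30, br_smul_left]
  null3_21 q := by rw [h.w3_21, br_neg_left, br_smul_left]
  null3_12 q := by rw [h.w3_null_12, br_zero_left]
  null4 s t q := by rw [h.pairRow_eq, h.pairRow_eq, pair_pair_comm h.car]
  bound3 s a hs := by
    have := h.br_C_le a (pairOp Q C s)
    rwa [h.br_pair_pair s hs] at this
  bound4 F u b := by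
    have h1 := h.br_C_le b (∑ p ∈ F, u p • w3 Q C p)
    rw [quad_form om F u (w3 Q C), quad_form om F u (fun p => w4op Q C (p.1, p.2, b))]
    have e : C b * ∑ p ∈ F, u p • w3 Q C p = ∑ p ∈ F, u p • w4op Q C (p.1, p.2, b) := by
      rw [mul_sum]
      refine sum_congr rfl fun p _ => ?_
      rw [mul_smul_comm]; rfl
    rw [e] at h1
    exact h1
  posV := h.fin_posV
  energy := h.fin_energy

end OmegaState

end Vale.Agent.P359
end
end

section

section

/-!
Canonical anticommutation relations for the occupation-number Fock space, number grading, and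
the passage from an eigenvalue bound to an energy gap estimate.
-/

namespace Vale.Agent.P359

open Finset

/-- the sign `(-1)^{#{b ∈ S | b < a}}` -/
noncomputable def sgn {n : ℕ} (a : Fin n) (S : Finset (Fin n)) : ℝ :=
  (-1 : ℝ) ^ (S.filter (· < a)).card

theorem sgn_mul_self {n : ℕ} (a : Fin n) (S : Finset (Fin n)) : sgn a S * sgn a S = 1 := by
  unfold sgn
  rw [← mul_pow]
  norm_num

theorem sgn_insert {n : ℕ} {a b : Fin n} {S : Finset (Fin n)} (hb : b ∉ S) :
    sgn a (insert b S) = if b < a then - sgn a S else sgn a S := by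
  unfold sgn
  rw [filter_insert]
  split_ifs with h
  · rw [card_insert_of_notMem (by simp [hb]), pow_succ]
    ring
  · rfl

theorem sgn_erase {n : ℕ} {a b : Fin n} {S : Finset (Fin n)} (hb : b ∈ S) :
    sgn a (S.erase b) = if b < a then - sgn a S else sgn a S := by
  have h := sgn_insert (a := a) (b := b) (S := S.erase b) (by simp)
  rw [insert_erase hb] at h
  rw [h]
  split_ifs <;> ring

theorem ann_apply {n : ℕ} (a : Fin n) (Φ : Fock n) (S : Finset (Fin n)) :
    ann a Φ S = if a ∈ S then 0 else sgn a S * Φ (insert a S) := rfl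

/-- creation operator: the adjoint of `ann a` -/
noncomputable def cre {n : ℕ} (a : Fin n) : Fock n →ₗ[ℝ] Fock n := LinearMap.adjoint (ann a)

/-- explicit creation operator -/
noncomputable def creFun {n : ℕ} (a : Fin n) (Φ : Fock n) : Fock n :=
  WithLp.toLp 2 fun S => if a ∈ S then sgn a S * Φ (S.erase a) else 0

theorem creFun_apply {n : ℕ} (a : Fin n) (Φ : Fock n) (S : Finset (Fin n)) :
    creFun a Φ S = if a ∈ S then sgn a S * Φ (S.erase a) else 0 := rfl

theorem inner_creFun {n : ℕ} (a : Fin n) (Φ Ψ : Fock n) :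
    inner ℝ (creFun a Φ) Ψ = inner ℝ Φ (ann a Ψ) := by
  rw [PiLp.inner_apply, PiLp.inner_apply]
  simp only [creFun_apply, ann_apply, RCLike.inner_apply, conj_trivial]
  rw [← sum_filter_add_sum_filter_not univ (fun S : Finset (Fin n) => a ∈ S),
    ← sum_filter_add_sum_filter_not univ (fun S : Finset (Fin n) => a ∈ S)
      (f := fun S => (if a ∈ S then 0 else sgn a S * Ψ (insert a S)) * Φ S)]
  have h1 : ∑ S ∈ univ.filter (fun S : Finset (Fin n) => ¬ a ∈ S),
      Ψ S * (if a ∈ S then sgn a S * Φ (S.erase a) else 0) = 0 := by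
    apply sum_eq_zero
    intro S hS
    rw [if_neg (mem_filter.mp hS).2, mul_zero]
  have h2 : ∑ S ∈ univ.filter (fun S : Finset (Fin n) => a ∈ S),
      (if a ∈ S then 0 else sgn a S * Ψ (insert a S)) * Φ S = 0 := by
    apply sum_eq_zero
    intro S hS
    rw [if_pos (mem_filter.mp hS).2, zero_mul]
  rw [h1, h2, add_zero, zero_add]
  refine sum_nbij' (fun S => S.erase a) (fun S => insert a S) ?_ ?_ ?_ ?_ ?_
  · intro S hS
    simp
  · intro S hS
    simp
  · intro S hS
    exact insert_erase (mem_filter.mp hS).2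
  · intro S hS
    exact erase_insert (mem_filter.mp hS).2
  · intro S hS
    have ha : a ∈ S := (mem_filter.mp hS).2
    simp only [ha, if_true, mem_erase, ne_eq, not_true_eq_false, false_and, if_false,
      insert_erase ha]
    rw [sgn_erase ha, if_neg (lt_irrefl a)]
    ring

theorem cre_eq {n : ℕ} (a : Fin n) (Φ : Fock n) : cre a Φ = creFun a Φ := by
  refine ext_inner_right ℝ fun Ψ => ?_
  rw [inner_creFun]
  exact LinearMap.adjoint_inner_left (ann a) Ψ Φ

theorem cre_apply {n : ℕ} (a : Fin n) (Φ : Fock n) (S : Finset (Fin n)) :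
    cre a Φ S = if a ∈ S then sgn a S * Φ (S.erase a) else 0 := by
  rw [cre_eq, creFun_apply]

/-- `c_a c_b + c_b c_a = 0` -/
theorem ann_ann {n : ℕ} (a b : Fin n) (Φ : Fock n) :
    ann a (ann b Φ) + ann b (ann a Φ) = 0 := by
  ext S
  rw [PiLp.add_apply, ann_apply, ann_apply, ann_apply, ann_apply, PiLp.zero_apply]
  by_cases hab : a = b
  · subst hab
    simp
  · by_cases ha : a ∈ S
    · simp [ha]
    · by_cases hb : b ∈ S
      · simp [hb]
      · have hba : b ≠ a := fun h => hab h.symm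
        simp only [ha, hb, if_false, mem_insert, hab, hba, or_self]
        rw [sgn_insert ha, sgn_insert hb, Finset.insert_comm a b S]
        rcases lt_trichotomy a b with h | h | h
        · rw [if_pos h, if_neg (not_lt.mpr h.le)]
          ring
        · exact absurd h hab
        · rw [if_neg (not_lt.mpr h.le), if_pos h]
          ring

/-- `c_a c_b^* + c_b^* c_a = δ_{ab}` -/
theorem ann_cre {n : ℕ} (a b : Fin n) (Φ : Fock n) :
    ann a (cre b Φ) + cre b (ann a Φ) = if a = b then Φ else 0 := by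
  ext S
  rw [PiLp.add_apply, ann_apply, cre_apply, cre_apply, ann_apply]
  by_cases hab : a = b
  · subst hab
    rw [if_pos rfl]
    by_cases ha : a ∈ S
    · simp only [ha, if_true, mem_erase, ne_eq, not_true_eq_false, false_and, if_false,
        insert_erase ha, zero_add]
      rw [sgn_erase ha, if_neg (lt_irrefl a), ← mul_assoc, sgn_mul_self, one_mul]
    · simp only [ha, if_false, mem_insert, true_or, if_true, add_zero, erase_insert ha]
      rw [sgn_insert ha, if_neg (lt_irrefl a), ← mul_assoc, sgn_mul_self, one_mul]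
  · rw [if_neg hab, PiLp.zero_apply]
    have hba : b ≠ a := fun h => hab h.symm
    by_cases ha : a ∈ S
    · simp [ha, hab]
    · by_cases hb : b ∈ S
      · simp only [ha, hb, if_false, mem_insert, hba, or_true, if_true, mem_erase, ne_eq, hab,
          not_false_eq_true, and_false]
        rw [sgn_insert ha, sgn_erase hb, erase_insert_of_ne hab]
        rcases lt_trichotomy a b with h | h | h
        · rw [if_pos h, if_neg (not_lt.mpr h.le)]
          ring
        · exact absurd h hab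
        · rw [if_neg (not_lt.mpr h.le), if_pos h]
          ring
      · simp [ha, hb, hba]

/-! ### Number grading -/

/-- projection onto the `N`-particle sector -/
noncomputable def numProj {n : ℕ} (N : ℕ) : Fock n →ₗ[ℝ] Fock n where
  toFun Φ := WithLp.toLp 2 fun S => if S.card = N then Φ S else 0
  map_add' := by
    intro x y; ext S; simp only [PiLp.add_apply]; split_ifs <;> ring
  map_smul' := by
    intro c x; ext S; simp only [PiLp.smul_apply, smul_eq_mul, RingHom.id_apply]; split_ifs <;> ring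

theorem numProj_apply {n : ℕ} (N : ℕ) (Φ : Fock n) (S : Finset (Fin n)) :
    numProj N Φ S = if S.card = N then Φ S else 0 := rfl

theorem numProj_eq_self_iff {n : ℕ} (N : ℕ) (Φ : Fock n) :
    numProj N Φ = Φ ↔ ∀ S : Finset (Fin n), S.card ≠ N → Φ S = 0 := by
  constructor
  · intro h S hS
    rw [← h, numProj_apply, if_neg hS]
  · intro h
    ext S
    rw [numProj_apply]
    split_ifs with hS
    · rfl
    · exact (h S hS).symm

theorem numProj_numProj {n : ℕ} (N : ℕ) (Φ : Fock n) : numProj N (numProj N Φ) = numProj N Φ := by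
  ext S
  rw [numProj_apply, numProj_apply]
  split_ifs <;> rfl

theorem numProj_inner {n : ℕ} (N : ℕ) (Φ Ψ : Fock n) :
    inner ℝ (numProj N Φ) Ψ = inner ℝ Φ (numProj N Ψ) := by
  rw [PiLp.inner_apply, PiLp.inner_apply]
  refine sum_congr rfl fun S _ => ?_
  rw [numProj_apply, numProj_apply]
  split_ifs <;> simp

theorem norm_numProj_le {n : ℕ} (N : ℕ) (Φ : Fock n) : ‖numProj N Φ‖ ≤ ‖Φ‖ := by
  rw [EuclideanSpace.norm_eq, EuclideanSpace.norm_eq]
  apply Real.sqrt_le_sqrt
  refine sum_le_sum fun S _ => ?_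
  rw [numProj_apply]
  split_ifs
  · exact le_rfl
  · rw [norm_zero]
    exact pow_le_pow_left₀ le_rfl (norm_nonneg _) 2

theorem ann_numProj_succ {n : ℕ} (a : Fin n) (N : ℕ) (Φ : Fock n) :
    ann a (numProj (N + 1) Φ) = numProj N (ann a Φ) := by
  ext S
  rw [ann_apply, numProj_apply, numProj_apply, ann_apply]
  by_cases ha : a ∈ S
  · simp [ha]
  · rw [if_neg ha, if_neg ha, card_insert_of_notMem ha]
    by_cases hN : S.card = N
    · rw [if_pos hN, if_pos (by omega)]
    · rw [if_neg hN, if_neg (by omega), mul_zero]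

theorem ann_numProj_zero {n : ℕ} (a : Fin n) (Φ : Fock n) :
    ann a (numProj 0 Φ) = 0 := by
  ext S
  rw [ann_apply, numProj_apply, PiLp.zero_apply]
  by_cases ha : a ∈ S
  · simp [ha]
  · rw [if_neg ha, card_insert_of_notMem ha, if_neg (by omega), mul_zero]

/-! ### The Hamiltonian on Fock space -/

/-- `H = ∑_s b_s^* b_s` -/
noncomputable def fockH (Q : ℕ) : Fock (Q + 1) →ₗ[ℝ] Fock (Q + 1) :=
  ∑ s ∈ range (2 * Q - 1), LinearMap.adjoint (pairAnn Q s) ∘ₗ pairAnn Q s

theorem fockH_apply (Q : ℕ) (Φ : Fock (Q + 1)) :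
    fockH Q Φ = ∑ s ∈ range (2 * Q - 1), LinearMap.adjoint (pairAnn Q s) (pairAnn Q s Φ) := by
  simp only [fockH, LinearMap.sum_apply, LinearMap.coe_comp, Function.comp_apply]

theorem inner_fockH (Q : ℕ) (Φ Ψ : Fock (Q + 1)) :
    inner ℝ Φ (fockH Q Ψ) = ∑ s ∈ range (2 * Q - 1), inner ℝ (pairAnn Q s Φ) (pairAnn Q s Ψ) := by
  rw [fockH_apply, inner_sum]
  refine sum_congr rfl fun s _ => ?_
  rw [LinearMap.adjoint_inner_right]

theorem fockEnergy_eq (Q : ℕ) (Φ : Fock (Q + 1)) :
    fockEnergy Q Φ = inner ℝ Φ (fockH Q Φ) := by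
  rw [inner_fockH, fockEnergy]
  refine sum_congr rfl fun s _ => ?_
  rw [real_inner_self_eq_norm_sq]

theorem fockH_isSymmetric (Q : ℕ) : (fockH Q).IsSymmetric := by
  intro x y
  rw [real_inner_comm, inner_fockH, inner_fockH]
  refine sum_congr rfl fun s _ => ?_
  rw [real_inner_comm]

theorem fockH_eq_zero_iff (Q : ℕ) (Φ : Fock (Q + 1)) :
    fockH Q Φ = 0 ↔ ∀ s < 2 * Q - 1, pairAnn Q s Φ = 0 := by
  constructor
  · intro h s hs
    have h1 : fockEnergy Q Φ = 0 := by rw [fockEnergy_eq, h, inner_zero_right]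
    rw [fockEnergy, sum_eq_zero_iff_of_nonneg (fun _ _ => by (clear * -; positivity))] at h1
    have h2 := h1 s (mem_range.mpr hs)
    simpa only [ne_eq, OfNat.ofNat_ne_zero, not_false_eq_true, pow_eq_zero_iff, norm_eq_zero] using h2
  · intro h
    rw [fockH_apply]
    refine sum_eq_zero fun s hs => ?_
    rw [h s (mem_range.mp hs), map_zero]

theorem pairAnn_numProj (Q s N : ℕ) (Φ : Fock (Q + 1)) :
    pairAnn Q s (numProj (N + 2) Φ) = numProj N (pairAnn Q s Φ) := by
  simp only [pairAnn, LinearMap.sum_apply, LinearMap.smul_apply, LinearMap.comp_apply, map_sum,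
    map_smul]
  refine sum_congr rfl fun a _ => sum_congr rfl fun b _ => ?_
  rw [ann_numProj_succ, ann_numProj_succ]

theorem pairAnn_numProj_of_lt (Q s N : ℕ) (hN : N < 2) (Φ : Fock (Q + 1)) :
    pairAnn Q s (numProj N Φ) = 0 := by
  simp only [pairAnn, LinearMap.sum_apply, LinearMap.smul_apply, LinearMap.comp_apply]
  refine sum_eq_zero fun a _ => sum_eq_zero fun b _ => ?_
  interval_cases N
  · rw [ann_numProj_zero, map_zero, smul_zero]
  · rw [ann_numProj_succ, ann_numProj_zero, smul_zero]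

theorem fockH_numProj (Q N : ℕ) (Φ : Fock (Q + 1)) :
    fockH Q (numProj N Φ) = numProj N (fockH Q Φ) := by
  refine ext_inner_left ℝ fun Ψ => ?_
  rw [← numProj_inner, inner_fockH, inner_fockH]
  refine sum_congr rfl fun s _ => ?_
  rcases Nat.lt_or_ge N 2 with hN | hN
  · rw [pairAnn_numProj_of_lt Q s N hN, pairAnn_numProj_of_lt Q s N hN, inner_zero_left,
      inner_zero_right]
  · obtain ⟨M, rfl⟩ := Nat.exists_eq_add_of_le' hN
    rw [pairAnn_numProj, pairAnn_numProj, numProj_inner]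

/-- From a lower bound on the nonzero eigenvalues to an energy estimate. -/
theorem gap_of_eigenvalues (Q : ℕ) {δ : ℝ}
    (hgap : ∀ μ : ℝ, μ ≠ 0 → Module.End.HasEigenvalue (fockH Q) μ → δ ≤ μ)
    (N : ℕ) (Φ : Fock (Q + 1)) (hΦ : ∀ S : Finset (Fin (Q + 1)), S.card ≠ N → Φ S = 0) :
    ∃ Φ₀ : Fock (Q + 1), (∀ S : Finset (Fin (Q + 1)), S.card ≠ N → Φ₀ S = 0) ∧
      (∀ s < 2 * Q - 1, pairAnn Q s Φ₀ = 0) ∧ δ * ‖Φ - Φ₀‖ ^ 2 ≤ fockEnergy Q Φ := by
  classical
  have hsym := fockH_isSymmetric Q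
  set d := Module.finrank ℝ (Fock (Q + 1)) with hd
  set e := hsym.eigenvectorBasis (n := d) rfl with he
  set ev := hsym.eigenvalues (n := d) rfl with hev
  have hHe : ∀ i, fockH Q (e i) = ev i • e i := fun i =>
    hsym.apply_eigenvectorBasis rfl i
  have hcases : ∀ i, ev i = 0 ∨ δ ≤ ev i := by
    intro i
    by_cases h : ev i = 0
    · exact Or.inl h
    · exact Or.inr (hgap _ h (by simpa using hsym.hasEigenvalue_eigenvalues rfl i))
  have hev0 : ∀ i, 0 ≤ ev i := by
    intro i
    have h1 : inner ℝ (e i) (fockH Q (e i)) = ev i := by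
      rw [hHe i, inner_smul_right, real_inner_self_eq_norm_sq, e.orthonormal.1 i]
      ring
    rw [← h1, ← fockEnergy_eq]
    exact sum_nonneg fun _ _ => by (clear * -; positivity)
  set Z : Finset (Fin d) := univ.filter (fun i => ev i = 0) with hZ
  set Ψ₀ : Fock (Q + 1) := ∑ i ∈ Z, inner ℝ (e i) Φ • e i with hΨ₀
  have hHΨ₀ : fockH Q Ψ₀ = 0 := by
    rw [hΨ₀, map_sum]
    refine sum_eq_zero fun i hi => ?_
    rw [map_smul, hHe i, (mem_filter.mp hi).2, zero_smul, smul_zero]
  -- coefficients of `Φ - Ψ₀`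
  have hcoef : ∀ i, inner ℝ (e i) (Φ - Ψ₀) = if ev i = 0 then 0 else inner ℝ (e i) Φ := by
    intro i
    rw [inner_sub_right, hΨ₀, inner_sum]
    have h1 : ∑ k ∈ Z, inner ℝ (e i) (inner ℝ (e k) Φ • e k)
        = if i ∈ Z then inner ℝ (e i) Φ else 0 := by
      rw [← sum_ite_eq Z i (fun k => inner ℝ (e k) Φ)]
      refine sum_congr rfl fun k _ => ?_
      rw [inner_smul_right, orthonormal_iff_ite.mp e.orthonormal i k]
      split_ifs <;> simp
    rw [h1]
    simp only [hZ, mem_filter, mem_univ, true_and]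
    split_ifs <;> simp
  have hnorm : ‖Φ - Ψ₀‖ ^ 2 = ∑ i, (if ev i = 0 then 0 else inner ℝ (e i) Φ) ^ 2 := by
    rw [← e.sum_sq_norm_inner_right (Φ - Ψ₀)]
    refine sum_congr rfl fun i _ => ?_
    rw [hcoef i, Real.norm_eq_abs, sq_abs]
  have henergy : fockEnergy Q Φ = ∑ i, ev i * inner ℝ (e i) Φ ^ 2 := by
    rw [fockEnergy_eq, ← e.sum_inner_mul_inner]
    refine sum_congr rfl fun i _ => ?_
    have h1 : inner ℝ (e i) (fockH Q Φ) = ev i * inner ℝ (e i) Φ := by
      rw [← hsym (e i) Φ, hHe i, inner_smul_left]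
      simp
    rw [h1, real_inner_comm (e i) Φ]
    ring
  have hmain : δ * ‖Φ - Ψ₀‖ ^ 2 ≤ fockEnergy Q Φ := by
    rw [hnorm, henergy, mul_sum]
    refine sum_le_sum fun i _ => ?_
    rcases hcases i with h | h
    · simp [h]
    · by_cases h0 : ev i = 0
      · simp [h0]
      · rw [if_neg h0]
        exact mul_le_mul_of_nonneg_right h (by (clear * -; positivity))
  refine ⟨numProj N Ψ₀, ?_, ?_, ?_⟩
  · exact (numProj_eq_self_iff N _).mp (numProj_numProj N Ψ₀)
  · rw [← fockH_eq_zero_iff, fockH_numProj, hHΨ₀, map_zero]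
  · have hΦ' : numProj N Φ = Φ := (numProj_eq_self_iff N Φ).mpr hΦ
    have h1 : Φ - numProj N Ψ₀ = numProj N (Φ - Ψ₀) := by rw [map_sub, hΦ']
    rcases le_or_gt 0 δ with hδ | hδ
    · refine le_trans ?_ hmain
      apply mul_le_mul_of_nonneg_left _ hδ
      rw [h1]
      exact pow_le_pow_left₀ (norm_nonneg _) (norm_numProj_le N _) 2
    · have h2 : 0 ≤ fockEnergy Q Φ := sum_nonneg fun _ _ => by (clear * -; positivity)
      have h3 : 0 ≤ ‖Φ - numProj N Ψ₀‖ ^ 2 := by (clear * -; positivity)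
      nlinarith only [h2, hδ]

end Vale.Agent.P359
end
end

section

section

namespace Vale.Agent.P359

open MvPolynomial Finset

section poly

variable {N : ℕ}

/-- the substitution `X j := X i` -/
noncomputable def idn (i j : Fin N) : MvPolynomial (Fin N) ℂ →ₐ[ℂ] MvPolynomial (Fin N) ℂ :=
  aeval (fun k => if k = j then X i else X k)

theorem idn_X (i j k : Fin N) : idn i j (X k) = if k = j then X i else X k := by
  simp [idn]

theorem X_sub_X_dvd_iff (i j : Fin N) (p : MvPolynomial (Fin N) ℂ) :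
    (X i - X j : MvPolynomial (Fin N) ℂ) ∣ p ↔ idn i j p = 0 := by
  constructor
  · rintro ⟨q, rfl⟩
    rw [map_mul, map_sub, idn_X, idn_X]
    by_cases h : i = j
    · simp [h]
    · simp [h]
  · intro h
    let I : Ideal (MvPolynomial (Fin N) ℂ) := Ideal.span {X i - X j}
    have h1 : (Ideal.Quotient.mkₐ ℂ I).comp (idn i j) = Ideal.Quotient.mkₐ ℂ I := by
      apply MvPolynomial.algHom_ext
      intro k
      rw [AlgHom.comp_apply, idn_X]
      split_ifs with hk
      · subst hk
        rw [Ideal.Quotient.mkₐ_eq_mk, Ideal.Quotient.eq]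
        exact Ideal.subset_span rfl
      · rfl
    have h2 : Ideal.Quotient.mk I p = 0 := by
      have h3 := congrArg (fun f : MvPolynomial (Fin N) ℂ →ₐ[ℂ] _ => f p) h1
      simp only [AlgHom.comp_apply, h, map_zero] at h3
      exact h3.symm
    rw [Ideal.Quotient.eq_zero_iff_mem, Ideal.mem_span_singleton] at h2
    exact h2

theorem X_sub_X_ne_zero {i j : Fin N} (hij : i ≠ j) : (X i - X j : MvPolynomial (Fin N) ℂ) ≠ 0 := by
  rw [sub_ne_zero]
  intro h
  exact hij (MvPolynomial.X_injective h)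

theorem X_sub_X_prime {i j : Fin N} (hij : i ≠ j) :
    Prime (X i - X j : MvPolynomial (Fin N) ℂ) := by
  refine ⟨X_sub_X_ne_zero hij, ?_, ?_⟩
  · intro hu
    have h1 := (X_sub_X_dvd_iff i j 1).mp hu.dvd
    simp at h1
  · intro a b hab
    rw [X_sub_X_dvd_iff, map_mul] at hab
    rcases mul_eq_zero.mp hab with h | h
    · exact Or.inl ((X_sub_X_dvd_iff i j a).mpr h)
    · exact Or.inr ((X_sub_X_dvd_iff i j b).mpr h)

theorem idn_rename_swap (i j : Fin N) (p : MvPolynomial (Fin N) ℂ) :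
    idn i j (rename (Equiv.swap i j) p) = idn i j p := by
  have h1 : (idn i j).comp (rename (Equiv.swap i j)) = idn i j := by
    apply MvPolynomial.algHom_ext
    intro k
    rw [AlgHom.comp_apply, rename_X, idn_X, idn_X]
    by_cases hki : k = i
    · subst hki
      rw [Equiv.swap_apply_left]
      simp
    · by_cases hkj : k = j
      · subst hkj
        rw [Equiv.swap_apply_right]
        simp
      · rw [Equiv.swap_apply_of_ne_of_ne hki hkj]
  exact congrArg (fun f : MvPolynomial (Fin N) ℂ →ₐ[ℂ] _ => f p) h1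

/-- an antisymmetric polynomial whose antisymmetrized derivative vanishes on the diagonal is
divisible by the cube -/
theorem cube_dvd {i j : Fin N} (hij : i ≠ j) (f : MvPolynomial (Fin N) ℂ)
    (hanti : rename (Equiv.swap i j) f = -f)
    (hder : idn i j (pderiv i f - pderiv j f) = 0) :
    (X i - X j : MvPolynomial (Fin N) ℂ) ^ 3 ∣ f := by
  have hne := X_sub_X_ne_zero hij
  have hsw : rename (Equiv.swap i j) (X i - X j : MvPolynomial (Fin N) ℂ) = -(X i - X j) := by
    rw [map_sub, rename_X, rename_X, Equiv.swap_apply_left, Equiv.swap_apply_right]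
    ring
  have hself : ∀ g : MvPolynomial (Fin N) ℂ, rename (Equiv.swap i j) g = -g → idn i j g = 0 := by
    intro g hg
    have h1 := idn_rename_swap i j g
    rw [hg, map_neg] at h1
    have h2 : (2 : MvPolynomial (Fin N) ℂ) * idn i j g = 0 := by linear_combination -h1
    rcases mul_eq_zero.mp h2 with h | h
    · exact absurd h two_ne_zero
    · exact h
  obtain ⟨h, hh⟩ := (X_sub_X_dvd_iff i j f).mpr (hself f hanti)
  have hsymm : rename (Equiv.swap i j) h = h := by
    have h1 := hanti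
    rw [hh, map_mul, hsw] at h1
    have h2 : (X i - X j) * rename (Equiv.swap i j) h = (X i - X j) * h := by
      linear_combination -h1
    exact mul_left_cancel₀ hne h2
  have hEh : idn i j h = 0 := by
    have h1 : pderiv i f - pderiv j f
        = 2 * h + (X i - X j) * (pderiv i h - pderiv j h) := by
      rw [hh, Derivation.leibniz, Derivation.leibniz, map_sub, map_sub, pderiv_X_self,
        pderiv_X_self, pderiv_X_of_ne hij.symm, pderiv_X_of_ne hij]
      simp only [smul_eq_mul]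
      ring
    rw [h1, map_add, map_mul, map_mul, (X_sub_X_dvd_iff i j (X i - X j)).mp dvd_rfl, zero_mul,
      add_zero, map_ofNat] at hder
    rcases mul_eq_zero.mp hder with h | h
    · exact absurd h two_ne_zero
    · exact h
  obtain ⟨k, hk⟩ := (X_sub_X_dvd_iff i j h).mpr hEh
  have hkanti : rename (Equiv.swap i j) k = -k := by
    have h1 := hsymm
    rw [hk, map_mul, hsw] at h1
    have h2 : (X i - X j) * rename (Equiv.swap i j) k = (X i - X j) * (-k) := by
      linear_combination -h1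
    exact mul_left_cancel₀ hne h2
  obtain ⟨l, hl⟩ := (X_sub_X_dvd_iff i j k).mpr (hself k hkanti)
  exact ⟨l, by rw [hh, hk, hl]; ring⟩

theorem not_dvd {i j k l : Fin N} (hij : i < j) (hkl : k < l) (hne : (i, j) ≠ (k, l)) :
    ¬ (X i - X j : MvPolynomial (Fin N) ℂ) ∣ (X k - X l) := by
  rw [X_sub_X_dvd_iff, map_sub, idn_X, idn_X, sub_eq_zero]
  intro h
  apply hne
  split_ifs at h with h1 h2 h2
  · subst h1; exact absurd (h2 ▸ hkl) (lt_irrefl _)
  · subst h1
    have := MvPolynomial.X_injective h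
    subst this
    exact absurd (hij.trans hkl) (lt_irrefl _)
  · subst h2
    have := MvPolynomial.X_injective h
    rw [this]
  · exact absurd (MvPolynomial.X_injective h) hkl.ne

/-- the product of the cubes -/
noncomputable def vand3 (N : ℕ) : MvPolynomial (Fin N) ℂ :=
  ∏ i : Fin N, ∏ j ∈ Finset.Ioi i, (X i - X j) ^ 3

theorem vand3_eq (N : ℕ) : vand3 N = ∏ p ∈ (univ : Finset (Fin N × Fin N)).filter (fun p => p.1 < p.2),
    (X p.1 - X p.2) ^ 3 := by
  rw [vand3, Finset.prod_filter, ← Finset.univ_product_univ, Finset.prod_product]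
  apply Finset.prod_congr rfl
  intro i _
  rw [← Finset.prod_filter]
  apply Finset.prod_congr _ (fun _ _ => rfl)
  ext j
  simp only [mem_Ioi, mem_filter, mem_univ, true_and]

theorem vand3_dvd (f : MvPolynomial (Fin N) ℂ)
    (h : ∀ i j : Fin N, i < j → (X i - X j : MvPolynomial (Fin N) ℂ) ^ 3 ∣ f) : vand3 N ∣ f := by
  rw [vand3_eq]
  apply Finset.prod_dvd_of_isRelPrime
  · intro p hp q hq hpq
    simp only [Finset.coe_filter, Finset.mem_univ, true_and, Set.mem_ofPred_eq] at hp hq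
    apply IsRelPrime.pow
    rw [(X_sub_X_prime hp.ne).irreducible.isRelPrime_iff_not_dvd]
    exact not_dvd hp hq hpq
  · intro p hp
    simp only [Finset.mem_filter, Finset.mem_univ, true_and] at hp
    exact h p.1 p.2 hp

theorem vand3_ne_zero (N : ℕ) : vand3 N ≠ 0 := by
  rw [vand3_eq, Finset.prod_ne_zero_iff]
  intro p hp
  simp only [Finset.mem_filter, Finset.mem_univ, true_and] at hp
  exact pow_ne_zero _ (X_sub_X_ne_zero hp.ne)

end poly

section deg

variable {N : ℕ}

theorem pairCount (k : Fin N) :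
    ∑ i : Fin N, ∑ j ∈ Finset.Ioi i, ((if i = k then 1 else 0) + (if j = k then 1 else 0)) = N - 1 := by
  simp only [Finset.sum_add_distrib]
  have h1 : ∑ i : Fin N, ∑ _j ∈ Finset.Ioi i, (if i = k then 1 else 0) = (Finset.Ioi k).card := by
    rw [Finset.sum_eq_single k]
    · simp only [↓reduceIte, sum_const, Fin.card_Ioi, smul_eq_mul, mul_one]
    · intro b _ hb; simp only [hb, ↓reduceIte, sum_const_zero]
    · simp only [mem_univ, not_true_eq_false, ↓reduceIte, sum_const, Fin.card_Ioi, smul_eq_mul, mul_one, IsEmpty.forall_iff]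
  have h2 : ∑ i : Fin N, ∑ j ∈ Finset.Ioi i, (if j = k then 1 else 0) = (Finset.Iio k).card := by
    rw [Finset.card_eq_sum_ones, Finset.sum_congr rfl
      (g := fun i => if i < k then 1 else 0) (by intro i _; simp only [sum_ite_eq', mem_Ioi])]
    rw [← Finset.sum_filter]
    apply Finset.sum_congr _ (fun _ _ => rfl)
    ext i; simp only [mem_filter, mem_univ, true_and, mem_Iio]
  rw [h1, h2, Fin.card_Ioi, Fin.card_Iio]
  omega

theorem degreeOf_X_sub_X {i j : Fin N} (hij : i ≠ j) (k : Fin N) :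
    degreeOf k (X i - X j : MvPolynomial (Fin N) ℂ)
      = (if i = k then 1 else 0) + (if j = k then 1 else 0) := by
  apply le_antisymm
  · refine (degreeOf_sub_le k _ _).trans ?_
    rw [degreeOf_X, degreeOf_X]
    by_cases h1 : i = k
    · subst h1
      simp only [↓reduceIte, hij, zero_le, sup_of_le_left, hij.symm, add_zero, Std.le_refl]
    · by_cases h2 : j = k
      · subst h2
        simp only [hij.symm, ↓reduceIte, zero_le, sup_of_le_right, hij, zero_add, Std.le_refl]
      · rw [if_neg h1, if_neg (Ne.symm h1), if_neg h2, if_neg (Ne.symm h2)]; simp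
  · have hc : ∀ m : Fin N, (m = i ∨ m = j) →
        (Finsupp.single m 1 : Fin N →₀ ℕ) ∈ (X i - X j : MvPolynomial (Fin N) ℂ).support := by
      intro m hm
      rw [mem_support_iff, coeff_sub, coeff_X, coeff_X]
      rcases hm with h | h
      · subst h
        rw [if_pos rfl, if_neg]
        · simp
        · intro h
          exact hij (Finsupp.single_left_injective one_ne_zero h).symm
      · subst h
        rw [if_pos rfl, if_neg]
        · simp
        · intro h
          exact hij (Finsupp.single_left_injective one_ne_zero h)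
    by_cases h1 : i = k
    · subst h1
      rw [if_pos rfl, if_neg hij.symm]
      have := monomial_le_degreeOf i (hc i (Or.inl rfl))
      simpa only [add_zero, ge_iff_le, Finsupp.single_eq_same] using this
    · by_cases h2 : j = k
      · subst h2
        rw [if_pos rfl, if_neg h1]
        have := monomial_le_degreeOf j (hc j (Or.inr rfl))
        simpa only [zero_add, ge_iff_le, Finsupp.single_eq_same] using this
      · rw [if_neg h1, if_neg h2]; simp

theorem degreeOf_vand3 (k : Fin N) : degreeOf k (vand3 N) = 3 * (N - 1) := by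
  rw [vand3, degreeOf_prod_eq]
  · rw [← pairCount k, Finset.mul_sum]
    apply Finset.sum_congr rfl
    intro i _
    rw [degreeOf_prod_eq, Finset.mul_sum]
    · apply Finset.sum_congr rfl
      intro j hj
      have hij : i ≠ j := (Finset.mem_Ioi.mp hj).ne
      rw [degreeOf_pow_eq _ _ _ (X_sub_X_ne_zero hij), degreeOf_X_sub_X hij]
    · intro j hj
      have hij : i ≠ j := (Finset.mem_Ioi.mp hj).ne
      exact pow_ne_zero _ (X_sub_X_ne_zero hij)
  · intro i _
    rw [Finset.prod_ne_zero_iff]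
    intro j hj
    have hij : i ≠ j := (Finset.mem_Ioi.mp hj).ne
    exact pow_ne_zero _ (X_sub_X_ne_zero hij)

theorem eq_C_mul_vand3 (f : MvPolynomial (Fin N) ℂ) (hdvd : vand3 N ∣ f)
    (hdeg : ∀ k, degreeOf k f ≤ 3 * (N - 1)) : ∃ c : ℂ, f = C c * vand3 N := by
  obtain ⟨q, hq⟩ := hdvd
  by_cases hq0 : q = 0
  · exact ⟨0, by rw [hq, hq0]; simp⟩
  have h1 : ∀ k, degreeOf k q = 0 := by
    intro k
    have h2 := hdeg k
    rw [hq, degreeOf_mul_eq (vand3_ne_zero N) hq0, degreeOf_vand3] at h2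
    omega
  have h2 : q = C (coeff 0 q) := by
    rw [← totalDegree_eq_zero_iff_eq_C, totalDegree_eq_zero_iff]
    intro m hm k
    have h3 := monomial_le_degreeOf k hm
    rw [h1 k] at h3
    omega
  exact ⟨coeff 0 q, by rw [hq]; conv_lhs => rw [h2]
                       ring⟩

end deg

section gen

variable {N Q : ℕ}

/-- the exponent of `∏ X_i ^ (x i)` -/
noncomputable def expn (x : Fin N → Fin (Q + 1)) : Fin N →₀ ℕ :=
  Finsupp.equivFunOnFinite.symm fun i => (x i : ℕ)

@[simp] theorem expn_apply (x : Fin N → Fin (Q + 1)) (i : Fin N) : expn x i = (x i : ℕ) := rfl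

theorem expn_injective : Function.Injective (expn : (Fin N → Fin (Q + 1)) → (Fin N →₀ ℕ)) := by
  intro x y h
  ext i
  have := DFunLike.congr_fun h i
  simpa using this

/-- the square roots of the binomial coefficients -/
noncomputable def rb (Q : ℕ) (a : ℕ) : ℂ := ((Real.sqrt (Nat.choose Q a) : ℝ) : ℂ)

theorem rb_ne_zero (a : Fin (Q + 1)) : rb Q a ≠ 0 := by
  rw [rb, Complex.ofReal_ne_zero]
  apply ne_of_gt
  apply Real.sqrt_pos.mpr
  exact_mod_cast Nat.choose_pos (Nat.lt_succ_iff.mp a.2)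

/-- the polynomial with coefficients `Φ x * ∏ √binom` -/
noncomputable def genPoly (Φ : Tensors N Q) : MvPolynomial (Fin N) ℂ :=
  ∑ x : Fin N → Fin (Q + 1), monomial (expn x) (Φ x * ∏ i, rb Q (x i))

theorem coeff_genPoly (Φ : Tensors N Q) (x : Fin N → Fin (Q + 1)) :
    coeff (expn x) (genPoly Φ) = Φ x * ∏ i, rb Q (x i) := by
  rw [genPoly, coeff_sum, Finset.sum_eq_single x]
  · rw [coeff_monomial, if_pos rfl]
  · intro y _ hy
    rw [coeff_monomial, if_neg]
    exact fun h => hy (expn_injective h)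
  · intro h; exact absurd (Finset.mem_univ _) h

theorem degreeOf_genPoly (Φ : Tensors N Q) (k : Fin N) : degreeOf k (genPoly Φ) ≤ Q := by
  rw [genPoly]
  refine (degreeOf_sum_le k _ _).trans ?_
  apply Finset.sup_le
  intro x _
  by_cases h : Φ x * ∏ i, rb Q (x i) = 0
  · rw [h]; simp
  · rw [degreeOf_monomial_eq _ _ h]
    exact Nat.lt_succ_iff.mp (x k).2

theorem rename_genPoly {Φ : Tensors N Q} (hΦ : Φ ∈ Fermions N Q) (σ : Equiv.Perm (Fin N)) :
    rename σ (genPoly Φ) = C (((Equiv.Perm.sign σ : ℤ) : ℂ)) * genPoly Φ := by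
  rw [genPoly, map_sum, Finset.mul_sum]
  rw [← (Equiv.arrowCongr σ (Equiv.refl (Fin (Q + 1)))).symm.sum_comp]
  apply Finset.sum_congr rfl
  intro x _
  rw [rename_monomial, C_mul_monomial]
  have hx : ((Equiv.arrowCongr σ (Equiv.refl (Fin (Q + 1)))).symm x) = x ∘ σ := by
    ext i; simp [Equiv.arrowCongr]
  rw [hx]
  have h1 : Finsupp.mapDomain σ (expn (x ∘ σ)) = expn x := by
    ext i
    obtain ⟨j, rfl⟩ := σ.surjective i
    rw [Finsupp.mapDomain_apply σ.injective]
    simp
  have h2 : ∏ i, rb Q ((x ∘ σ) i) = ∏ i, rb Q (x i) := by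
    exact Equiv.prod_comp σ (fun i => rb Q (x i))
  rw [h1, h2, hΦ σ x, mul_assoc]

/-- averaging over two coordinates -/
theorem sum_update {M : Type*} [AddCommMonoid M] {α : Type*} [Fintype α] [DecidableEq α] (i : Fin N)
    (F : (Fin N → α) → M) :
    ∑ x : Fin N → α, ∑ p : α, F (Function.update x i p) = ∑ _p : α, ∑ x : Fin N → α, F x := by
  rw [Finset.sum_comm (s := (univ : Finset α)), ← Finset.sum_product', ← Finset.sum_product']
  refine Finset.sum_bij' (fun xp _ => (Function.update xp.1 i xp.2, xp.1 i))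
    (fun xp _ => (Function.update xp.1 i xp.2, xp.1 i)) ?_ ?_ ?_ ?_ ?_
  · intro a _; simp only [univ_product_univ, mem_univ]
  · intro a _; simp only [univ_product_univ, mem_univ]
  · intro a _; simp
  · intro a _; simp
  · intro a _; simp

theorem beta_eq {a b s : ℕ} (hs : s < 2 * Q - 1) (hab : a + b = s + 1) :
    ((a : ℂ) - b) * (rb Q a * rb Q b)
      = -((Real.sqrt ((Q : ℝ) * (Nat.choose (2 * Q - 2) s : ℝ)) : ℝ) : ℂ) * (beta Q a b : ℂ) := by
  have hQ : (0 : ℝ) < Q := by
    have : 0 < Q := by omega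
    exact_mod_cast this
  have hB : (0 : ℝ) < (Nat.choose (2 * Q - 2) s : ℝ) := by
    have : 0 < Nat.choose (2 * Q - 2) s := Nat.choose_pos (by omega)
    exact_mod_cast this
  have h1 : a + b - 1 = s := by omega
  have h2 : ((a : ℝ) - b) * (Real.sqrt (Nat.choose Q a) * Real.sqrt (Nat.choose Q b))
      = -(Real.sqrt ((Q : ℝ) * (Nat.choose (2 * Q - 2) s : ℝ))) * beta Q a b := by
    rw [beta, h1, Real.sqrt_div' _ (by positivity),
      Real.sqrt_mul (Nat.cast_nonneg (Nat.choose Q a)) (Nat.choose Q b : ℝ)]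
    have h3 : Real.sqrt ((Q : ℝ) * (Nat.choose (2 * Q - 2) s : ℝ)) ≠ 0 :=
      (Real.sqrt_pos.mpr (mul_pos hQ hB)).ne'
    field_simp
    ring
  have h4 := congrArg (fun r : ℝ => (r : ℂ)) h2
  simpa only [rb, Nat.cast_nonneg, Real.sqrt_mul, Complex.ofReal_mul, neg_mul, Complex.ofReal_sub,     Complex.ofReal_natCast, Complex.ofReal_neg] using h4

/-- the two-particle condition: every pair amplitude of relative spin `Q - 1` vanishes -/
def PairNull (Φ : Tensors N Q) : Prop :=
  ∀ i j : Fin N, i < j → ∀ x : Fin N → Fin (Q + 1), ∀ s < 2 * Q - 1,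
    ∑ p : Fin (Q + 1), ∑ q ∈ univ.filter (fun q : Fin (Q + 1) => (p : ℕ) + q = s + 1),
      (beta Q p q : ℂ) * Φ (Function.update (Function.update x i p) j q) = 0

theorem inner_zero {Φ : Tensors N Q} (hΦ : PairNull Φ) {i j : Fin N} (hij : i < j)
    (x : Fin N → Fin (Q + 1)) (m : ℕ) (hm : m < 2 * Q + 1) :
    ∑ p : Fin (Q + 1), ∑ q ∈ univ.filter (fun q : Fin (Q + 1) => (p : ℕ) + q = m),
      (((p : ℕ) : ℂ) - ((q : ℕ) : ℂ)) * (rb Q p * rb Q q)
        * Φ (Function.update (Function.update x i p) j q) = 0 := by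
  rcases Nat.eq_zero_or_pos m with h0 | h0
  · apply Finset.sum_eq_zero
    intro p _
    apply Finset.sum_eq_zero
    intro q hq
    rw [Finset.mem_filter] at hq
    have h1 : (p : ℕ) = 0 := by omega
    have h2 : (q : ℕ) = 0 := by omega
    rw [h1, h2]; simp
  obtain ⟨s, rfl⟩ : ∃ s, m = s + 1 := ⟨m - 1, by omega⟩
  by_cases hs : s < 2 * Q - 1
  · have h1 := hΦ i j hij x s hs
    have h2 := congrArg (fun z : ℂ =>
      -((Real.sqrt ((Q : ℝ) * (Nat.choose (2 * Q - 2) s : ℝ)) : ℝ) : ℂ) * z) h1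
    simp only [mul_zero] at h2
    rw [← h2, Finset.mul_sum]
    apply Finset.sum_congr rfl
    intro p _
    rw [Finset.mul_sum]
    apply Finset.sum_congr rfl
    intro q hq
    rw [Finset.mem_filter] at hq
    rw [beta_eq hs hq.2, mul_assoc]
  · apply Finset.sum_eq_zero
    intro p _
    apply Finset.sum_eq_zero
    intro q hq
    rw [Finset.mem_filter] at hq
    have h1 : (p : ℕ) = Q := by omega
    have h2 : (q : ℕ) = Q := by omega
    rw [h1, h2]; simp

theorem idn_monomial {i j : Fin N} (hij : i ≠ j) (x : Fin N → Fin (Q + 1)) (c : ℂ) :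
    idn i j (monomial (expn x) c)
      = C c * (X i ^ ((x i : ℕ) + (x j : ℕ))
        * ∏ k ∈ (univ.erase i).erase j, X k ^ (x k : ℕ)) := by
  rw [idn, aeval_monomial, algebraMap_eq, Finsupp.prod_fintype _ _ (by intro; simp)]
  congr 1
  rw [← Finset.mul_prod_erase univ _ (Finset.mem_univ i),
    ← Finset.mul_prod_erase (univ.erase i) _ (Finset.mem_erase.mpr ⟨hij.symm, Finset.mem_univ j⟩)]
  rw [if_neg hij, if_pos rfl, expn_apply, expn_apply, pow_add, mul_assoc]
  congr 2
  apply Finset.prod_congr rfl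
  intro k hk
  rw [if_neg (Finset.ne_of_mem_erase hk), expn_apply]

theorem idn_pderiv_genPoly {Φ : Tensors N Q} (hΦ : PairNull Φ) {i j : Fin N} (hij : i < j) :
    idn i j (pderiv i (genPoly Φ) - pderiv j (genPoly Φ)) = 0 := by
  have hne : i ≠ j := hij.ne
  have hX : (X i : MvPolynomial (Fin N) ℂ) ≠ 0 := X_ne_zero i
  apply (mul_eq_zero.mp ?_).resolve_left hX
  let F : (Fin N → Fin (Q + 1)) → MvPolynomial (Fin N) ℂ := fun x =>
    C ((((x i : ℕ) : ℂ) - ((x j : ℕ) : ℂ)) * (Φ x * ∏ k, rb Q (x k)))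
      * (X i ^ ((x i : ℕ) + (x j : ℕ)) * ∏ k ∈ (univ.erase i).erase j, X k ^ (x k : ℕ))
  have h1 : X i * idn i j (pderiv i (genPoly Φ) - pderiv j (genPoly Φ)) = ∑ x, F x := by
    have hi : idn i j (X i) = X i := by rw [idn_X, if_neg hne]
    have hj : idn i j (X j) = X i := by rw [idn_X, if_pos rfl]
    rw [map_sub, mul_sub]
    conv_lhs => 
      congr
      · rw [← hi, ← map_mul]
      · rw [← hj, ← map_mul]
    rw [genPoly, map_sum, map_sum, Finset.mul_sum, Finset.mul_sum, map_sum, map_sum,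
      ← Finset.sum_sub_distrib]
    apply Finset.sum_congr rfl
    intro x _
    rw [X_mul_pderiv_monomial, X_mul_pderiv_monomial, expn_apply, expn_apply, map_nsmul, map_nsmul,
      idn_monomial hne]
    simp only [F, nsmul_eq_mul, C_mul, C_sub]
    have hc : ∀ n : ℕ, (C (n : ℂ) : MvPolynomial (Fin N) ℂ) = (n : MvPolynomial (Fin N) ℂ) := by
      intro n; exact map_natCast C n
    rw [hc, hc]
    ring
  rw [h1]
  have h2 : ∑ x, ∑ p, ∑ q, F (Function.update (Function.update x i p) j q) = 0 := by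
    apply Finset.sum_eq_zero
    intro x _
    have h3 : ∀ p q : Fin (Q + 1), F (Function.update (Function.update x i p) j q)
        = C ((((p : ℕ) : ℂ) - ((q : ℕ) : ℂ)) * (rb Q p * rb Q q)
        * Φ (Function.update (Function.update x i p) j q)) * (X i ^ ((p : ℕ) + (q : ℕ)))
        * (C (∏ k ∈ (univ.erase i).erase j, rb Q (x k))
          * ∏ k ∈ (univ.erase i).erase j, X k ^ (x k : ℕ)) := by
      intro p q
      have hyi : Function.update (Function.update x i p) j q i = p := by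
        rw [Function.update_of_ne hne, Function.update_self]
      have hyj : Function.update (Function.update x i p) j q j = q := Function.update_self _ _ _
      have hyk : ∀ k ∈ (univ.erase i).erase j,
          Function.update (Function.update x i p) j q k = x k := by
        intro k hk
        rw [Finset.mem_erase, Finset.mem_erase] at hk
        rw [Function.update_of_ne hk.1, Function.update_of_ne hk.2.1]
      simp only [F]
      rw [← Finset.mul_prod_erase univ (fun k => rb Q (Function.update (Function.update x i p) j q k))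
          (Finset.mem_univ i),
        ← Finset.mul_prod_erase (univ.erase i) _
          (Finset.mem_erase.mpr ⟨hne.symm, Finset.mem_univ j⟩)]
      rw [hyi, hyj, Finset.prod_congr rfl (fun k hk => by rw [hyk k hk]),
        Finset.prod_congr (s₁ := (univ.erase i).erase j) (f := fun k => X k ^ _)
          rfl (fun k hk => by rw [hyk k hk])]
      simp only [C_mul, C_sub]
      ring
    simp only [h3]
    have h4 : ∀ p : Fin (Q + 1), ∀ G : Fin (Q + 1) → MvPolynomial (Fin N) ℂ,
        ∑ q, G q = ∑ m ∈ range (2 * Q + 1),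
          ∑ q ∈ univ.filter (fun q : Fin (Q + 1) => (p : ℕ) + q = m), G q := by
      intro p G
      refine (Finset.sum_fiberwise_of_maps_to ?_ G).symm
      intro q _
      rw [Finset.mem_range]
      omega
    rw [Finset.sum_congr rfl (fun p _ => h4 p _), Finset.sum_comm]
    apply Finset.sum_eq_zero
    intro m hm
    have h5 := inner_zero hΦ hij x m (Finset.mem_range.mp hm)
    have h6 := congrArg (fun z : ℂ => (C z : MvPolynomial (Fin N) ℂ) * (X i ^ m
        * (C (∏ k ∈ (univ.erase i).erase j, rb Q (x k))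
          * ∏ k ∈ (univ.erase i).erase j, X k ^ (x k : ℕ)))) h5
    simp only [map_zero, zero_mul, map_sum, Finset.sum_mul] at h6
    rw [← h6]
    apply Finset.sum_congr rfl
    intro p _
    apply Finset.sum_congr rfl
    intro q hq
    rw [Finset.mem_filter] at hq
    rw [hq.2]
    ring
  have h7 : ∑ x, ∑ p, ∑ q, F (Function.update (Function.update x i p) j q)
      = ∑ _p : Fin (Q + 1), ∑ _q : Fin (Q + 1), ∑ x, F x := by
    rw [sum_update i (fun x => ∑ q, F (Function.update x j q))]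
    apply Finset.sum_congr rfl
    intro _ _
    exact sum_update j F
  rw [h7, Finset.sum_const, Finset.sum_const, smul_smul, nsmul_eq_mul] at h2
  rcases mul_eq_zero.mp h2 with h | h
  · exfalso
    simp only [Finset.card_univ, Fintype.card_fin] at h
    have : (((Q + 1) * (Q + 1) : ℕ) : MvPolynomial (Fin N) ℂ) ≠ 0 := by
      exact Nat.cast_ne_zero.mpr (by (clear * -; positivity))
    exact this h
  · exact h

end gen

section laugh

variable {N : ℕ}

/-- the substitution `u_i := 1`, `v_i := X i` -/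
noncomputable def dehom (N : ℕ) : MvPolynomial (Fin N × Bool) ℂ →ₐ[ℂ] MvPolynomial (Fin N) ℂ :=
  aeval (fun p => if p.2 then X p.1 else 1)

theorem dehom_laughlinPoly (N : ℕ) : ∃ ε : ℂ, ε * ε = 1 ∧ dehom N (laughlinPoly N) = C ε * vand3 N := by
  refine ⟨∏ i : Fin N, ∏ _j ∈ Finset.Ioi i, (-1), ?_, ?_⟩
  · rw [← Finset.prod_mul_distrib]
    apply Finset.prod_eq_one
    intro i _
    rw [← Finset.prod_mul_distrib]
    apply Finset.prod_eq_one
    intro j _
    norm_num
  · rw [laughlinPoly, vand3, map_prod, map_prod, ← Finset.prod_mul_distrib]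
    apply Finset.prod_congr rfl
    intro i _
    rw [map_prod, map_prod, ← Finset.prod_mul_distrib]
    apply Finset.prod_congr rfl
    intro j _
    simp only [dehom, map_pow, map_sub, map_mul, aeval_X, map_neg, map_one]
    simp
    ring

theorem laughlinPoly_weighted (k : Fin N) :
    IsWeightedHomogeneous (fun p : Fin N × Bool => if p.1 = k then 1 else 0)
      (laughlinPoly N) (3 * (N - 1)) := by
  rw [← pairCount k, laughlinPoly, Finset.mul_sum]
  apply IsWeightedHomogeneous.prod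
  intro i _
  rw [Finset.mul_sum]
  apply IsWeightedHomogeneous.prod
  intro j _
  rw [← smul_eq_mul]
  apply IsWeightedHomogeneous.pow
  apply IsWeightedHomogeneous.sub
  · exact (isWeightedHomogeneous_X ℂ _ (i, false)).mul (isWeightedHomogeneous_X ℂ _ (j, true))
  · rw [add_comm]
    exact (isWeightedHomogeneous_X ℂ _ (j, false)).mul (isWeightedHomogeneous_X ℂ _ (i, true))

theorem expo_degree (k : Fin N) (m : Fin N × Bool →₀ ℕ) (hm : coeff m (laughlinPoly N) ≠ 0) :
    m (k, false) + m (k, true) = 3 * (N - 1) := by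
  have h1 := laughlinPoly_weighted k hm
  rw [Finsupp.weight_apply, Finsupp.sum_fintype _ _ (by intro; simp)] at h1
  rw [← h1, Fintype.sum_prod_type, Finset.sum_eq_single k]
  · simp [add_comm]
  · intro b _ hb; simp [hb]
  · simp only [mem_univ, not_true_eq_false, Fintype.univ_bool, ↓reduceIte, smul_eq_mul, mul_one, mem_singleton, Bool.true_eq_false, not_false_eq_true, sum_insert, sum_singleton, Nat.add_eq_zero_iff, IsEmpty.forall_iff]

theorem coeff_dehom (x : Fin N → Fin (3 * (N - 1) + 1)) :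
    coeff (expn x) (dehom N (laughlinPoly N)) = coeff (expo x) (laughlinPoly N) := by
  have h1 : dehom N (laughlinPoly N) = ∑ m ∈ (laughlinPoly N).support,
      monomial (Finsupp.equivFunOnFinite.symm fun i => m (i, true)) (coeff m (laughlinPoly N)) := by
    conv_lhs => rw [(laughlinPoly N).as_sum]
    rw [map_sum]
    apply Finset.sum_congr rfl
    intro m _
    rw [dehom, aeval_monomial, algebraMap_eq, Finsupp.prod_fintype _ _ (by intro; simp),
      Fintype.prod_prod_type, monomial_eq]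
    congr 1
    rw [Finsupp.prod_fintype _ _ (by intro; simp)]
    apply Finset.prod_congr rfl
    intro i _
    simp
  rw [h1, coeff_sum]
  have hx : ∀ m : Fin N × Bool →₀ ℕ, coeff m (laughlinPoly N) ≠ 0 →
      (Finsupp.equivFunOnFinite.symm fun i => m (i, true)) = expn x → m = expo x := by
    intro m hm h
    ext ⟨i, b⟩
    have h2 : m (i, true) = (x i : ℕ) := by
      have := DFunLike.congr_fun h i
      simpa using this
    have h3 := expo_degree i m hm
    cases b
    · simp only [expo, Finsupp.coe_equivFunOnFinite_symm, Bool.false_eq_true, if_false]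
      omega
    · simp only [expo, Finsupp.coe_equivFunOnFinite_symm, if_true]
      exact h2
  by_cases hc : coeff (expo x) (laughlinPoly N) = 0
  · rw [hc]
    apply Finset.sum_eq_zero
    intro m hm
    rw [mem_support_iff] at hm
    rw [coeff_monomial, if_neg]
    intro h
    have := hx m hm h
    rw [this] at hm
    exact hm hc
  · rw [Finset.sum_eq_single (expo x)]
    · rw [coeff_monomial, if_pos]
      ext i
      simp only [expo, Finsupp.equivFunOnFinite_symm_apply_apply, ↓reduceIte, expn_apply]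
    · intro m hm hne
      rw [coeff_monomial, if_neg]
      intro h
      rw [mem_support_iff] at hm
      exact hne (hx m hm h)
    · intro h
      rw [mem_support_iff, not_not] at h
      rw [h]; simp

/-- **Uniqueness of the Laughlin state**: an antisymmetric tensor at flux `3 (N - 1)` all of whose
pair amplitudes of total spin `Q - 1` vanish is a multiple of the Laughlin vector. -/
theorem eq_smul_laughlin (Φ : Tensors N (3 * (N - 1))) (hF : Φ ∈ Fermions N (3 * (N - 1)))
    (hΦ : PairNull Φ) : ∃ c : ℂ, Φ = c • laughlin N := by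
  have hdvd : vand3 N ∣ genPoly Φ := by
    apply vand3_dvd
    intro i j hij
    apply cube_dvd hij.ne
    · rw [rename_genPoly hF, Equiv.Perm.sign_swap hij.ne]
      simp only [Units.val_neg, Units.val_one, Int.reduceNeg, Int.cast_neg, Int.cast_one, C_neg, C_1, neg_mul, one_mul]
    · exact idn_pderiv_genPoly hΦ hij
  obtain ⟨c, hc⟩ := eq_C_mul_vand3 (genPoly Φ) hdvd (degreeOf_genPoly Φ)
  obtain ⟨ε, hε, hε'⟩ := dehom_laughlinPoly N
  refine ⟨c * ε, ?_⟩
  ext x
  have h1 := coeff_genPoly Φ x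
  have h2 : vand3 N = C ε * dehom N (laughlinPoly N) := by
    rw [hε', ← mul_assoc, ← C_mul, hε, C_1, one_mul]
  rw [hc, h2, ← mul_assoc, ← C_mul, coeff_C_mul, coeff_dehom] at h1
  have hw : ∏ i, rb (3 * (N - 1)) (x i) ≠ 0 := Finset.prod_ne_zero_iff.mpr fun i _ => rb_ne_zero _
  rw [PiLp.smul_apply, smul_eq_mul]
  simp only [laughlin]
  rw [← mul_div_assoc, h1]
  exact (mul_div_cancel_right₀ _ hw).symm

end laugh

end Vale.Agent.P359
end
end

section

section

namespace Vale.Agent.P359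

open Finset

theorem choose_ratio_bound (Q : ℕ) (hQ : 3 ≤ Q) : ∀ s : ℕ, s ≤ 2 * Q - 2 →
    (Q.choose s : ℝ) * 2 ^ s ≤ 2 * ((2 * Q - 2).choose s : ℝ) := by
  have hQ1 : 1 ≤ Q := by omega
  have hQr : (3 : ℝ) ≤ Q := by exact_mod_cast hQ
  intro s
  induction s with
  | zero => intro _; simp only [Nat.choose_zero_right, Nat.cast_one, pow_zero, mul_one, Nat.one_le_ofNat]
  | succ s ih =>
    intro hs
    have h1 := ih (by omega)
    have e1 := choose_succ_real Q s
    have e2 := choose_succ_real (2 * Q - 2) s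
    rw [cast_two_Q Q hQ1] at e2
    rcases Nat.lt_or_ge Q (s + 1) with h5 | h5
    · rw [Nat.choose_eq_zero_of_lt h5]
      simp only [CharP.cast_eq_zero, zero_mul, Nat.ofNat_pos, mul_nonneg_iff_of_pos_left, Nat.cast_nonneg]
    have h6 : (s : ℝ) + 1 ≤ Q := by exact_mod_cast h5
    rcases Nat.lt_or_ge s 2 with h2 | h2
    · interval_cases s
      · simp only [Nat.choose_zero_right, Nat.cast_one, Nat.cast_zero] at e1 e2
        norm_num at e1 e2 ⊢
        have e3 : ((2 * Q - 2 : ℕ) : ℝ) = 2 * Q - 2 := cast_two_Q Q hQ1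
        rw [e3]
        nlinarith only [hQr]
      · simp only [Nat.choose_one_right, Nat.cast_one] at e1 e2
        norm_num at e1 e2 ⊢
        have e3 : ((2 * Q - 2 : ℕ) : ℝ) = 2 * Q - 2 := cast_two_Q Q hQ1
        rw [e3] at e2
        nlinarith only [e1, e2, hQr]
    · have h2' : (2 : ℝ) ≤ s := by exact_mod_cast h2
      have h3 : (0 : ℝ) ≤ (Q.choose s : ℝ) * 2 ^ s := by (clear * -; positivity)
      have h4 : (0 : ℝ) ≤ (Q : ℝ) - s := by linarith only [h6]
      have h7 : ((Q.choose (s + 1) : ℝ) * 2 ^ (s + 1)) * ((s : ℝ) + 1)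
          ≤ (2 * ((2 * Q - 2).choose (s + 1) : ℝ)) * ((s : ℝ) + 1) := by
        have l1 : ((Q.choose (s + 1) : ℝ) * 2 ^ (s + 1)) * ((s : ℝ) + 1)
            = ((Q.choose s : ℝ) * 2 ^ s) * (2 * ((Q : ℝ) - s)) := by
          rw [pow_succ]
          calc (Q.choose (s + 1) : ℝ) * (2 ^ s * 2) * ((s : ℝ) + 1)
              = ((Q.choose (s + 1) : ℝ) * ((s : ℝ) + 1)) * (2 ^ s * 2) := by ring
            _ = _ := by rw [e1]; ring
        have l2 : (2 * ((2 * Q - 2).choose (s + 1) : ℝ)) * ((s : ℝ) + 1)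
            = (2 * ((2 * Q - 2).choose s : ℝ)) * (2 * (Q : ℝ) - 2 - s) := by
          calc (2 * ((2 * Q - 2).choose (s + 1) : ℝ)) * ((s : ℝ) + 1)
              = 2 * (((2 * Q - 2).choose (s + 1) : ℝ) * ((s : ℝ) + 1)) := by ring
            _ = _ := by rw [e2]; ring
        rw [l1, l2]
        have l3 : 2 * ((Q : ℝ) - s) ≤ 2 * (Q : ℝ) - 2 - s := by linarith only [h2']
        have l4 : (0 : ℝ) ≤ 2 * ((2 * Q - 2).choose s : ℝ) := by (clear * -; positivity)
        exact mul_le_mul h1 l3 (by linarith only [h6]) l4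
      have h8 : (0 : ℝ) < (s : ℝ) + 1 := by positivity
      exact le_of_mul_le_mul_right h7 h8

theorem pow_bound_a : ∀ s : ℕ, 81 ≤ s → 2 * ((s : ℝ) - 1) ^ 2 ≤ (9 / 8 : ℝ) ^ s := by
  intro s hs
  induction s, hs using Nat.le_induction with
  | base => norm_num
  | succ s hs ih =>
    have h1 : (81 : ℝ) ≤ s := by exact_mod_cast hs
    have h2 : (9 / 8 : ℝ) ^ (s + 1) = (9 / 8 : ℝ) ^ s * (9 / 8) := pow_succ _ _
    rw [h2]
    push_cast
    nlinarith only [ih, h1]

theorem pow_bound_b : ∀ s : ℕ, 81 ≤ s → 2 * ((s : ℝ) + 1) ≤ (9 / 8 : ℝ) ^ s := by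
  intro s hs
  have h1 := pow_bound_a s hs
  have h2 : (81 : ℝ) ≤ s := by exact_mod_cast hs
  nlinarith only [h1, h2]

namespace FinState

variable {Q : ℕ} {lam : ℝ}

theorem cs3 (st : FinState Q lam) (p q : ℕ × ℕ) : st.g3 p q ^ 2 ≤ st.g3 p p * st.g3 q q := by
  by_cases hpq : p = q
  · subst hpq; exact le_of_eq (by ring)
  · have h1 : ∀ t : ℝ, 0 ≤ st.g3 q q * (t * t) + 2 * st.g3 p q * t + st.g3 p p := by
      intro t
      have h2 := st.pos3 {p, q} (fun x => if x = p then 1 else t)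
      rw [sum_pair hpq, sum_pair hpq, sum_pair hpq] at h2
      simp only [if_true, if_neg (Ne.symm hpq)] at h2
      rw [st.symm3 q p] at h2
      linarith
    have h3 := discrim_le_zero h1
    unfold discrim at h3
    linarith

theorem cs4 (st : FinState Q lam) (p q : ℕ × ℕ × ℕ) :
    st.g4 p q ^ 2 ≤ st.g4 p p * st.g4 q q := by
  by_cases hpq : p = q
  · subst hpq; exact le_of_eq (by ring)
  · have h1 : ∀ t : ℝ, 0 ≤ st.g4 q q * (t * t) + 2 * st.g4 p q * t + st.g4 p p := by
      intro t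
      have h2 := st.pos4 {p, q} (fun x => if x = p then 1 else t)
      rw [sum_pair hpq, sum_pair hpq, sum_pair hpq] at h2
      simp only [if_true, if_neg (Ne.symm hpq)] at h2
      rw [st.symm4 q p] at h2
      linarith
    have h3 := discrim_le_zero h1
    unfold discrim at h3
    linarith

theorem diag3_nonneg (st : FinState Q lam) (p : ℕ × ℕ) : 0 ≤ st.g3 p p := by
  have := st.pos3 {p} (fun _ => 1)
  simpa only [ge_iff_le, mul_one, one_mul, sum_singleton] using this

theorem diag4_nonneg (st : FinState Q lam) (p : ℕ × ℕ × ℕ) : 0 ≤ st.g4 p p := by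
  have := st.pos4 {p} (fun _ => 1)
  simpa only [ge_iff_le, mul_one, one_mul, sum_singleton] using this

theorem diag4_le (st : FinState Q lam) (s a b : ℕ) (hs : s ≤ 2 * Q - 2) :
    st.g4 (s, a, b) (s, a, b) ≤ nu Q b * (nu Q a * rsq Q s) := by
  have h1 := st.bound4 {(s, a)} (fun _ => 1) b
  simp only [sum_singleton, one_mul] at h1
  exact h1.trans (mul_le_mul_of_nonneg_left (st.bound3 s a hs) (nu_nonneg Q b))

theorem tail_a (st : FinState Q lam) (hQ : 3 ≤ Q) (s : ℕ) (hs : 81 ≤ s) (hs2 : s ≤ 2 * Q - 2) :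
    |(((s : ℝ) - 1) / nu Q s) * st.g3 (0, s) (s, 0)| ≤ (3 / 4 : ℝ) ^ s := by
  rcases Nat.lt_or_ge Q s with h0 | h0
  · rw [nu_gt Q s h0]; simp only [div_zero, zero_mul, abs_zero]; positivity
  · have hnu := nu_pos Q s (by omega) h0
    have h1 := st.cs3 (0, s) (s, 0)
    have h2 := st.bound3 0 s (by omega)
    have h3 := st.bound3 s 0 hs2
    rw [rsq_zero, mul_one] at h2
    rw [nu_zero, one_mul] at h3
    have h4 : st.g3 (0, s) (s, 0) ^ 2 ≤ nu Q s * rsq Q s :=
      h1.trans (mul_le_mul h2 h3 (st.diag3_nonneg _) hnu.le)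
    have h5 : rsq Q s ≤ nu Q s * (2 / 2 ^ s) := by
      have h6 := choose_ratio_bound Q hQ s hs2
      have c1 : (0 : ℝ) < (Q.choose s : ℝ) := by exact_mod_cast Nat.choose_pos h0
      have c2 : (0 : ℝ) < ((2 * Q - 2).choose s : ℝ) := by exact_mod_cast Nat.choose_pos hs2
      unfold rsq nu
      rw [div_mul_div_comm, div_le_div_iff₀ c2 (by positivity)]
      have h7 : (0 : ℝ) ≤ (Q : ℝ) ^ s := by positivity
      nlinarith only [h6, h7]
    have h8 := pow_bound_a s hs
    have hs1 : (81 : ℝ) ≤ s := by exact_mod_cast hs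
    apply abs_le_of_sq_le_sq _ (by positivity)
    have h9 : ((((s : ℝ) - 1) / nu Q s) * st.g3 (0, s) (s, 0)) ^ 2
        ≤ (((s : ℝ) - 1) / nu Q s) ^ 2 * (nu Q s * (nu Q s * (2 / 2 ^ s))) := by
      rw [mul_pow]
      apply mul_le_mul_of_nonneg_left _ (by (clear * -; positivity))
      exact h4.trans (mul_le_mul_of_nonneg_left h5 hnu.le)
    have h10 : (((s : ℝ) - 1) / nu Q s) ^ 2 * (nu Q s * (nu Q s * (2 / 2 ^ s)))
        = 2 * ((s : ℝ) - 1) ^ 2 / 2 ^ s := by
      field_simp
    have h11 : ((3 / 4 : ℝ) ^ s) ^ 2 = (9 / 8 : ℝ) ^ s / 2 ^ s := by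
      rw [← pow_mul, mul_comm s 2, pow_mul, ← div_pow]
      norm_num
    rw [h11]
    rw [h10] at h9
    exact h9.trans (div_le_div_of_nonneg_right h8 (by positivity))

theorem tail_b (st : FinState Q lam) (hQ : 3 ≤ Q) (s : ℕ) (hs : 81 ≤ s) (hs2 : s ≤ 2 * Q - 2) :
    |(((s : ℝ) + 1) / nu Q (s + 1)) * st.g3 (0, s + 1) (s, 1)| ≤ (3 / 4 : ℝ) ^ s := by
  rcases Nat.lt_or_ge Q (s + 1) with h0 | h0
  · rw [nu_gt Q (s + 1) h0]; simp only [div_zero, zero_mul, abs_zero]; positivity
  · have hnu := nu_pos Q (s + 1) (by omega) h0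
    have h1 := st.cs3 (0, s + 1) (s, 1)
    have h2 := st.bound3 0 (s + 1) (by omega)
    have h3 := st.bound3 s 1 hs2
    rw [rsq_zero, mul_one] at h2
    rw [nu_one Q (by omega), one_mul] at h3
    have h4 : st.g3 (0, s + 1) (s, 1) ^ 2 ≤ nu Q (s + 1) * rsq Q s :=
      h1.trans (mul_le_mul h2 h3 (st.diag3_nonneg _) hnu.le)
    have hs1 : (81 : ℝ) ≤ s := by exact_mod_cast hs
    have h5 : rsq Q s ≤ nu Q (s + 1) * (2 / (2 ^ s * ((s : ℝ) + 1))) := by
      have h6 := choose_ratio_bound Q hQ s hs2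
      have e1 := choose_succ_real Q s
      have c1 : (0 : ℝ) < (Q.choose (s + 1) : ℝ) := by exact_mod_cast Nat.choose_pos h0
      have c2 : (0 : ℝ) < ((2 * Q - 2).choose s : ℝ) := by exact_mod_cast Nat.choose_pos hs2
      have hQr : (0 : ℝ) < Q := by
        have : 0 < Q := by omega
        exact_mod_cast this
      have h61 : (Q.choose (s + 1) : ℝ) * ((s : ℝ) + 1) * 2 ^ s
          ≤ 2 * ((2 * Q - 2).choose s : ℝ) * Q := by
        rw [e1]
        have h62 : (Q.choose s : ℝ) * ((Q : ℝ) - s) * 2 ^ s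
            = ((Q.choose s : ℝ) * 2 ^ s) * ((Q : ℝ) - s) := by ring
        rw [h62]
        have h63 : (s : ℝ) + 1 ≤ Q := by exact_mod_cast h0
        exact mul_le_mul h6 (by linarith only []) (by linarith only [h63]) (by (clear * - c2; positivity))
      unfold rsq nu
      rw [div_mul_div_comm, div_le_div_iff₀ c2 (by positivity), pow_succ]
      have h7 : (0 : ℝ) ≤ (Q : ℝ) ^ s := by positivity
      have h71 := mul_le_mul_of_nonneg_left h61 h7
      calc (Q : ℝ) ^ s * ((Q.choose (s + 1) : ℝ) * (2 ^ s * ((s : ℝ) + 1)))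
          = (Q : ℝ) ^ s * ((Q.choose (s + 1) : ℝ) * ((s : ℝ) + 1) * 2 ^ s) := by ring
        _ ≤ (Q : ℝ) ^ s * (2 * ((2 * Q - 2).choose s : ℝ) * Q) := h71
        _ = _ := by ring
    have h8 := pow_bound_b s hs
    apply abs_le_of_sq_le_sq _ (by positivity)
    have h9 : ((((s : ℝ) + 1) / nu Q (s + 1)) * st.g3 (0, s + 1) (s, 1)) ^ 2
        ≤ (((s : ℝ) + 1) / nu Q (s + 1)) ^ 2
          * (nu Q (s + 1) * (nu Q (s + 1) * (2 / (2 ^ s * ((s : ℝ) + 1))))) := by
      rw [mul_pow]
      apply mul_le_mul_of_nonneg_left _ (by positivity)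
      exact h4.trans (mul_le_mul_of_nonneg_left h5 hnu.le)
    have h10 : (((s : ℝ) + 1) / nu Q (s + 1)) ^ 2
          * (nu Q (s + 1) * (nu Q (s + 1) * (2 / (2 ^ s * ((s : ℝ) + 1)))))
        = 2 * ((s : ℝ) + 1) / 2 ^ s := by
      field_simp
    have h11 : ((3 / 4 : ℝ) ^ s) ^ 2 = (9 / 8 : ℝ) ^ s / 2 ^ s := by
      rw [← pow_mul, mul_comm s 2, pow_mul, ← div_pow]
      norm_num
    rw [h11]
    rw [h10] at h9
    exact h9.trans (div_le_div_of_nonneg_right h8 (by positivity))

theorem pairSqQ_nonneg (st : FinState Q lam) (s : ℕ) : 0 ≤ pairSqQ Q st.g4 s := by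
  have h1 := st.pos4 ((antidiagonal (s + 1)).image (fun ab : ℕ × ℕ => ((0 : ℕ), ab.1, ab.2)))
    (fun p => 2 * bcoef Q s p.2.2 p.2.1)
  have hinj : Set.InjOn (fun ab : ℕ × ℕ => ((0 : ℕ), ab.1, ab.2)) (antidiagonal (s + 1)) := by
    intro x _ y _ hxy
    simp only [Prod.mk.injEq, true_and] at hxy
    exact Prod.ext hxy.1 hxy.2
  rw [sum_image hinj] at h1
  have h2 : ∀ x ∈ antidiagonal (s + 1),
      ∑ q ∈ (antidiagonal (s + 1)).image (fun ab : ℕ × ℕ => ((0 : ℕ), ab.1, ab.2)),
        (2 * bcoef Q s x.2 x.1) * (2 * bcoef Q s q.2.2 q.2.1) * st.g4 (0, x.1, x.2) q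
      = (2 * bcoef Q s x.2 x.1) * pairRowQ Q st.g4 s 0 (0, x.1, x.2) := by
    intro x _
    rw [sum_image hinj]
    unfold pairRowQ
    rw [mul_sum]
    refine sum_congr rfl fun y _ => ?_
    rw [st.symm4 (0, x.1, x.2)]
    ring
  rw [sum_congr rfl h2] at h1
  exact h1

theorem energy_trunc (st : FinState Q lam) (hQ : 100 ≤ Q) :
    1 + ∑ s ∈ range 81, ((((s : ℝ) - 1) / nu Q s) * st.g3 (0, s) (s, 0)
        - (((s : ℝ) + 1) / nu Q (s + 1)) * st.g3 (0, s + 1) (s, 1))
      + ∑ s ∈ range 81, (rsq Q s)⁻¹ * (1 / 4) * pairSqQ Q st.g4 s - 1 / 1000 ≤ lam := by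
  have h1 := st.energy
  have hsplit : ∀ f : ℕ → ℝ, ∑ s ∈ range (2 * Q - 1), f s
      = ∑ s ∈ range 81, f s + ∑ s ∈ Ico 81 (2 * Q - 1), f s := by
    intro f
    rw [Finset.sum_range_add_sum_Ico f (by omega)]
  rw [hsplit, hsplit (fun s => (rsq Q s)⁻¹ * (1 / 4) * pairSqQ Q st.g4 s)] at h1
  have h2 : 0 ≤ ∑ s ∈ Ico 81 (2 * Q - 1), (rsq Q s)⁻¹ * (1 / 4) * pairSqQ Q st.g4 s := by
    apply sum_nonneg
    intro s _
    have := st.pairSqQ_nonneg s
    have := rsq_nonneg Q s
    (clear hQ h1 hsplit; positivity)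
  have h3 : -(2 * ((3 / 4 : ℝ) ^ 81 / (1 - 3 / 4)))
      ≤ ∑ s ∈ Ico 81 (2 * Q - 1), ((((s : ℝ) - 1) / nu Q s) * st.g3 (0, s) (s, 0)
        - (((s : ℝ) + 1) / nu Q (s + 1)) * st.g3 (0, s + 1) (s, 1)) := by
    have h4 : ∑ s ∈ Ico 81 (2 * Q - 1), (-(2 * (3 / 4 : ℝ) ^ s))
        ≤ ∑ s ∈ Ico 81 (2 * Q - 1), ((((s : ℝ) - 1) / nu Q s) * st.g3 (0, s) (s, 0)
        - (((s : ℝ) + 1) / nu Q (s + 1)) * st.g3 (0, s + 1) (s, 1)) := by
      apply sum_le_sum
      intro s hs
      rw [mem_Ico] at hs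
      have a1 := st.tail_a (by omega) s hs.1 (by omega)
      have a2 := st.tail_b (by omega) s hs.1 (by omega)
      rw [abs_le] at a1 a2
      linarith only [a1, a2]
    rw [sum_neg_distrib, ← mul_sum] at h4
    have h5 := geom_sum_Ico_le_of_lt_one (m := 81) (n := 2 * Q - 1)
      (by norm_num : (0 : ℝ) ≤ 3 / 4) (by norm_num)
    linarith only [h4, h5]
  have h6 : (2 * ((3 / 4 : ℝ) ^ 81 / (1 - 3 / 4))) ≤ 1 / 1000 := by norm_num
  linarith

end FinState

end Vale.Agent.P359
end
end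

section

section

set_option linter.unusedSectionVars false

namespace Vale.Agent.P359

open Finset Filter Topology

theorem tendsto_nu (a : ℕ) :
    Tendsto (fun Q : ℕ => nu Q a) atTop (𝓝 (a.factorial : ℝ)) := by
  have h1 := isEquivalent_choose a
  have hz : ∀ᶠ x : ℕ in atTop, (x.choose a : ℝ) ≠ 0 := by
    filter_upwards [eventually_ge_atTop a] with x hx
    exact_mod_cast (Nat.choose_pos hx).ne'
  have h2 := (Asymptotics.isEquivalent_iff_tendsto_one hz).mp h1.symm
  have h3 := h2.const_mul (a.factorial : ℝ)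
  rw [mul_one] at h3
  refine h3.congr fun Q => ?_
  have hf : (a.factorial : ℝ) ≠ 0 := by exact_mod_cast a.factorial_ne_zero
  simp only [Pi.div_apply]
  unfold nu
  (clear * - hf; field_simp)

theorem tendsto_two_sub : Tendsto (fun Q : ℕ => 2 * Q - 2) atTop atTop := by
  apply tendsto_atTop_mono (f := fun Q : ℕ => Q - 2)
  · intro Q; omega
  · exact tendsto_sub_atTop_nat 2

theorem tendsto_half : Tendsto (fun Q : ℕ => (Q : ℝ) / ((2 * Q - 2 : ℕ) : ℝ)) atTop
    (𝓝 (1 / 2)) := by
  have h1 : Tendsto (fun Q : ℕ => (1 : ℝ) / 2 + 1 / ((2 * Q - 2 : ℕ) : ℝ)) atTop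
      (𝓝 (1 / 2 + 0)) := by
    apply Tendsto.add tendsto_const_nhds
    have := tendsto_one_div_atTop_nhds_zero_nat (𝕜 := ℝ)
    exact this.comp tendsto_two_sub
  rw [add_zero] at h1
  apply h1.congr'
  filter_upwards [eventually_ge_atTop 2] with Q hQ
  have h2 : ((2 * Q - 2 : ℕ) : ℝ) = 2 * Q - 2 := cast_two_Q Q (by omega)
  rw [h2]
  have h3 : (2 : ℝ) ≤ Q := by exact_mod_cast hQ
  have h4 : (2 * (Q : ℝ) - 2) ≠ 0 := by linarith only [h3]
  rw [div_add_div _ _ two_ne_zero h4, div_eq_div_iff (mul_ne_zero two_ne_zero h4) h4]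
  ring

theorem tendsto_rsq (s : ℕ) :
    Tendsto (fun Q : ℕ => rsq Q s) atTop (𝓝 ((s.factorial : ℝ) / 2 ^ s)) := by
  have h1 := (tendsto_nu s).comp tendsto_two_sub
  have h2 := tendsto_half.pow s
  have h3 := h2.mul h1
  have e : (1 / 2 : ℝ) ^ s * (s.factorial : ℝ) = (s.factorial : ℝ) / 2 ^ s := by
    rw [one_div, inv_pow]; ring
  rw [e] at h3
  apply h3.congr'
  filter_upwards [eventually_ge_atTop 2] with Q hQ
  simp only [Function.comp_apply]
  unfold nu rsq
  have h4 : ((2 * Q - 2 : ℕ) : ℝ) ≠ 0 := by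
    have : 2 * Q - 2 ≠ 0 := by omega
    exact_mod_cast this
  rw [div_pow]
  field_simp

theorem two_bcoef (Q s a b : ℕ) (hQ : 1 ≤ Q) (hab : a + b = s + 1) :
    2 * bcoef Q s b a = ((a : ℝ) - b) * rsq Q s / (nu Q a * nu Q b) := by
  have hQ' : (Q : ℝ) ≠ 0 := by positivity
  unfold bcoef rsq nu
  have h1 : (Q : ℝ) ^ a / (Q.choose a : ℝ) * ((Q : ℝ) ^ b / (Q.choose b : ℝ))
      = (Q : ℝ) ^ s * Q / ((Q.choose a : ℝ) * (Q.choose b : ℝ)) := by
    rw [div_mul_div_comm, ← pow_add, hab, pow_succ]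
  rw [h1]
  by_cases h2 : (Q.choose a : ℝ) * (Q.choose b : ℝ) = 0
  · have h3 : ((a : ℝ) - b) * (Q.choose b : ℝ) * (Q.choose a : ℝ) = 0 := by
      rw [mul_assoc, mul_comm (Q.choose b : ℝ), h2, mul_zero]
    rw [h3, h2]
    simp only [zero_div, mul_zero, div_zero]
  · by_cases h4 : ((2 * Q - 2).choose s : ℝ) = 0
    · rw [h4]; simp only [mul_zero, div_zero, zero_div]
    · have h5 := left_ne_zero_of_mul h2
      have h6 := right_ne_zero_of_mul h2
      field_simp

theorem tendsto_two_bcoef (s a b : ℕ) (hab : a + b = s + 1) :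
    Tendsto (fun Q : ℕ => 2 * bcoef Q s b a) atTop (𝓝 (pairCoef s a b)) := by
  have h1 := ((tendsto_rsq s).const_mul ((a : ℝ) - b)).div
    ((tendsto_nu a).mul (tendsto_nu b)) (by positivity)
  have e : ((a : ℝ) - b) * ((s.factorial : ℝ) / 2 ^ s) / ((a.factorial : ℝ) * (b.factorial : ℝ))
      = pairCoef s a b := by
    unfold pairCoef; ring
  rw [e] at h1
  apply h1.congr'
  filter_upwards [eventually_ge_atTop 1] with Q hQ
  simp only [Pi.div_apply]
  exact (two_bcoef Q s a b hQ hab).symm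

theorem exists_ulim (U : Ultrafilter ℕ) (f M : ℕ → ℝ) (L : ℝ) (hM : Tendsto M U (𝓝 L))
    (hf : ∀ᶠ i in U, |f i| ≤ M i) : ∃ x, Tendsto f U (𝓝 x) := by
  have h1 : ∀ᶠ i in (U : Filter ℕ), f i ∈ Set.Icc (-(L + 1)) (L + 1) := by
    have h2 : ∀ᶠ i in (U : Filter ℕ), M i ≤ L + 1 := by
      have := hM.eventually (eventually_le_nhds (show L < L + 1 by linarith))
      exact this
    filter_upwards [h2, hf] with i hi hfi
    rw [abs_le] at hfi
    exact ⟨by linarith [hfi.1], by linarith [hfi.2]⟩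
  have h3 : (U.map f : Filter ℝ) ≤ 𝓟 (Set.Icc (-(L + 1)) (L + 1)) := by
    rw [le_principal_iff]
    exact h1
  obtain ⟨x, _, hx⟩ := isCompact_Icc.ultrafilter_le_nhds (U.map f) h3
  exact ⟨x, hx⟩

section limit

variable {Qs : ℕ → ℕ} {lams : ℕ → ℝ} (st : ∀ i, FinState (Qs i) (lams i)) (U : Ultrafilter ℕ)
variable (hQs : Tendsto Qs U atTop)

include hQs in
theorem exists_lim3 (p q : ℕ × ℕ) :
    ∃ x, Tendsto (fun i => (st i).g3 p q) U (𝓝 x) := by
  have t1 := (((tendsto_nu p.2).comp hQs).mul ((tendsto_rsq p.1).comp hQs)).mul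
    (((tendsto_nu q.2).comp hQs).mul ((tendsto_rsq q.1).comp hQs))
  have t2 := t1.add_const 1
  apply exists_ulim U _ _ _ t2
  filter_upwards [hQs.eventually_ge_atTop (p.1 + q.1 + 2)] with i hi
  have c := (st i).cs3 p q
  have b1 := (st i).bound3 p.1 p.2 (by omega)
  have b2 := (st i).bound3 q.1 q.2 (by omega)
  simp only [Function.comp_apply]
  have c2 : (st i).g3 p q ^ 2 ≤ (nu (Qs i) p.2 * rsq (Qs i) p.1)
      * (nu (Qs i) q.2 * rsq (Qs i) q.1) := by
    refine c.trans (mul_le_mul b1 b2 ((st i).diag3_nonneg _) ?_)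
    exact mul_nonneg (nu_nonneg _ _) (rsq_nonneg _ _)
  have c3 : |(st i).g3 p q| ^ 2 ≤ (nu (Qs i) p.2 * rsq (Qs i) p.1)
      * (nu (Qs i) q.2 * rsq (Qs i) q.1) := by rwa [sq_abs]
  nlinarith only [c3]

include hQs in
theorem exists_lim4 (p q : ℕ × ℕ × ℕ) :
    ∃ x, Tendsto (fun i => (st i).g4 p q) U (𝓝 x) := by
  have t1 := (((tendsto_nu p.2.2).comp hQs).mul
    (((tendsto_nu p.2.1).comp hQs).mul ((tendsto_rsq p.1).comp hQs))).mul
    (((tendsto_nu q.2.2).comp hQs).mul
    (((tendsto_nu q.2.1).comp hQs).mul ((tendsto_rsq q.1).comp hQs)))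
  have t2 := t1.add_const 1
  apply exists_ulim U _ _ _ t2
  filter_upwards [hQs.eventually_ge_atTop (p.1 + q.1 + 2)] with i hi
  have c := (st i).cs4 p q
  have b1 := (st i).diag4_le p.1 p.2.1 p.2.2 (by omega)
  have b2 := (st i).diag4_le q.1 q.2.1 q.2.2 (by omega)
  simp only [Function.comp_apply]
  have c2 : (st i).g4 p q ^ 2 ≤ (nu (Qs i) p.2.2 * (nu (Qs i) p.2.1 * rsq (Qs i) p.1))
      * (nu (Qs i) q.2.2 * (nu (Qs i) q.2.1 * rsq (Qs i) q.1)) := by
    refine c.trans (mul_le_mul b1 b2 ((st i).diag4_nonneg _) ?_)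
    exact mul_nonneg (nu_nonneg _ _) (mul_nonneg (nu_nonneg _ _) (rsq_nonneg _ _))
  have c3 : |(st i).g4 p q| ^ 2 ≤ (nu (Qs i) p.2.2 * (nu (Qs i) p.2.1 * rsq (Qs i) p.1))
      * (nu (Qs i) q.2.2 * (nu (Qs i) q.2.1 * rsq (Qs i) q.1)) := by rwa [sq_abs]
  nlinarith only [c3]

theorem tendsto_coef_a (b : ℕ) :
    Tendsto (fun Q : ℕ => ((Q : ℝ) - b) / Q) atTop (𝓝 1) := by
  have h1 : Tendsto (fun Q : ℕ => (1 : ℝ) - b * (1 / (Q : ℝ))) atTop (𝓝 (1 - b * 0)) :=
    tendsto_const_nhds.sub ((tendsto_one_div_atTop_nhds_zero_nat (𝕜 := ℝ)).const_mul _)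
  rw [mul_zero, sub_zero] at h1
  apply h1.congr'
  filter_upwards [eventually_ge_atTop 1] with Q hQ
  have : (Q : ℝ) ≠ 0 := by positivity
  field_simp

theorem tendsto_coef_s (s : ℕ) :
    Tendsto (fun Q : ℕ => (2 * (Q : ℝ) - 2 - s) / Q) atTop (𝓝 2) := by
  have h1 : Tendsto (fun Q : ℕ => (2 : ℝ) - (2 + s) * (1 / (Q : ℝ))) atTop
      (𝓝 (2 - (2 + s) * 0)) :=
    tendsto_const_nhds.sub ((tendsto_one_div_atTop_nhds_zero_nat (𝕜 := ℝ)).const_mul _)
  rw [mul_zero, sub_zero] at h1
  apply h1.congr'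
  filter_upwards [eventually_ge_atTop 1] with Q hQ
  have : (Q : ℝ) ≠ 0 := by positivity
  field_simp
  ring

end limit

/-- data of an ultralimit of finite states -/
structure LimData where
  Qs : ℕ → ℕ
  lams : ℕ → ℝ
  st : ∀ i, FinState (Qs i) (lams i)
  U : Ultrafilter ℕ
  hQs : Tendsto Qs U atTop
  G3 : ℕ × ℕ → ℕ × ℕ → ℝ
  G4 : ℕ × ℕ × ℕ → ℕ × ℕ × ℕ → ℝ
  hG3 : ∀ p q, Tendsto (fun i => (st i).g3 p q) U (𝓝 (G3 p q))
  hG4 : ∀ p q, Tendsto (fun i => (st i).g4 p q) U (𝓝 (G4 p q))

namespace LimData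

variable (d : LimData)

theorem tnu (a : ℕ) : Tendsto (fun i => nu (d.Qs i) a) d.U (𝓝 (a.factorial : ℝ)) :=
  (tendsto_nu a).comp d.hQs

theorem trs (s : ℕ) : Tendsto (fun i => rsq (d.Qs i) s) d.U (𝓝 ((s.factorial : ℝ) / 2 ^ s)) :=
  (tendsto_rsq s).comp d.hQs

theorem tbc (s a b : ℕ) (hab : a + b = s + 1) :
    Tendsto (fun i => 2 * bcoef (d.Qs i) s b a) d.U (𝓝 (pairCoef s a b)) :=
  (tendsto_two_bcoef s a b hab).comp d.hQs

theorem hrow (s t : ℕ) (q : ℕ × ℕ × ℕ) :
    Tendsto (fun i => pairRowQ (d.Qs i) (d.st i).g4 s t q) d.U (𝓝 (pairRow d.G4 s t q)) := by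
  unfold pairRowQ pairRow
  refine tendsto_finsetSum _ fun ab hab => ?_
  exact (d.tbc s ab.1 ab.2 (by simpa only [HasAntidiagonal.mem_antidiagonal] using hab)).mul (d.hG4 _ _)

theorem hsq (s : ℕ) :
    Tendsto (fun i => pairSqQ (d.Qs i) (d.st i).g4 s) d.U (𝓝 (pairSq d.G4 s)) := by
  unfold pairSqQ pairSq
  refine tendsto_finsetSum _ fun ab hab => ?_
  exact (d.tbc s ab.1 ab.2 (by simpa only [HasAntidiagonal.mem_antidiagonal] using hab)).mul (d.hrow _ _ _)

theorem symm3 (p q : ℕ × ℕ) : d.G3 p q = d.G3 q p :=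
  tendsto_nhds_unique (d.hG3 p q) ((d.hG3 q p).congr fun i => (d.st i).symm3 q p)

theorem symm4 (p q : ℕ × ℕ × ℕ) : d.G4 p q = d.G4 q p :=
  tendsto_nhds_unique (d.hG4 p q) ((d.hG4 q p).congr fun i => (d.st i).symm4 q p)

theorem deg3 (p q : ℕ × ℕ) (hpq : p.1 + p.2 ≠ q.1 + q.2) : d.G3 p q = 0 :=
  tendsto_nhds_unique (d.hG3 p q)
    (tendsto_const_nhds.congr fun i => ((d.st i).deg3 p q hpq).symm)

theorem deg4 (p q : ℕ × ℕ × ℕ) (hpq : p.1 + p.2.1 + p.2.2 ≠ q.1 + q.2.1 + q.2.2) :
    d.G4 p q = 0 :=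
  tendsto_nhds_unique (d.hG4 p q)
    (tendsto_const_nhds.congr fun i => ((d.st i).deg4 p q hpq).symm)

theorem pos3 (F : Finset (ℕ × ℕ)) (u : ℕ × ℕ → ℝ) :
    0 ≤ ∑ p ∈ F, ∑ q ∈ F, u p * u q * d.G3 p q := by
  have h1 : Tendsto (fun i => ∑ p ∈ F, ∑ q ∈ F, u p * u q * (d.st i).g3 p q) d.U
      (𝓝 (∑ p ∈ F, ∑ q ∈ F, u p * u q * d.G3 p q)) :=
    tendsto_finsetSum _ fun p _ => tendsto_finsetSum _ fun q _ => (d.hG3 p q).const_mul _
  exact ge_of_tendsto' h1 fun i => (d.st i).pos3 F u

theorem pos4 (F : Finset (ℕ × ℕ × ℕ)) (u : ℕ × ℕ × ℕ → ℝ) :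
    0 ≤ ∑ p ∈ F, ∑ q ∈ F, u p * u q * d.G4 p q := by
  have h1 : Tendsto (fun i => ∑ p ∈ F, ∑ q ∈ F, u p * u q * (d.st i).g4 p q) d.U
      (𝓝 (∑ p ∈ F, ∑ q ∈ F, u p * u q * d.G4 p q)) :=
    tendsto_finsetSum _ fun p _ => tendsto_finsetSum _ fun q _ => (d.hG4 p q).const_mul _
  exact ge_of_tendsto' h1 fun i => (d.st i).pos4 F u

theorem trans3 (s a s' b : ℕ) :
    (s : ℝ) * d.G3 (s - 1, a) (s', b) + (a : ℝ) * d.G3 (s, a - 1) (s', b)
      = 2 * d.G3 (s, a) (s' + 1, b) + d.G3 (s, a) (s', b + 1) := by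
  have h1 : Tendsto (fun i => (s : ℝ) * (d.st i).g3 (s - 1, a) (s', b)
      + (a : ℝ) * (d.st i).g3 (s, a - 1) (s', b)) d.U
      (𝓝 ((s : ℝ) * d.G3 (s - 1, a) (s', b) + (a : ℝ) * d.G3 (s, a - 1) (s', b))) :=
    ((d.hG3 _ _).const_mul _).add ((d.hG3 _ _).const_mul _)
  have h2 : Tendsto (fun i => ((2 * ((d.Qs i : ℕ) : ℝ) - 2 - s') / (d.Qs i : ℕ))
        * (d.st i).g3 (s, a) (s' + 1, b)
      + ((((d.Qs i : ℕ) : ℝ) - b) / (d.Qs i : ℕ)) * (d.st i).g3 (s, a) (s', b + 1)) d.U
      (𝓝 (2 * d.G3 (s, a) (s' + 1, b) + 1 * d.G3 (s, a) (s', b + 1))) :=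
    (((tendsto_coef_s s').comp d.hQs).mul (d.hG3 _ _)).add
      (((tendsto_coef_a b).comp d.hQs).mul (d.hG3 _ _))
  rw [one_mul] at h2
  refine tendsto_nhds_unique h1 (h2.congr' ?_)
  filter_upwards [d.hQs.eventually_ge_atTop (s + s' + a + b + 2)] with i hi
  exact ((d.st i).trans3 s a s' b (by omega) (by omega) (by omega) (by omega)).symm

theorem trans4 (s a b s' a' b' : ℕ) :
    (s : ℝ) * d.G4 (s - 1, a, b) (s', a', b') + (a : ℝ) * d.G4 (s, a - 1, b) (s', a', b')
      + (b : ℝ) * d.G4 (s, a, b - 1) (s', a', b')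
      = 2 * d.G4 (s, a, b) (s' + 1, a', b') + d.G4 (s, a, b) (s', a' + 1, b')
        + d.G4 (s, a, b) (s', a', b' + 1) := by
  have h1 : Tendsto (fun i => (s : ℝ) * (d.st i).g4 (s - 1, a, b) (s', a', b')
      + (a : ℝ) * (d.st i).g4 (s, a - 1, b) (s', a', b')
      + (b : ℝ) * (d.st i).g4 (s, a, b - 1) (s', a', b')) d.U
      (𝓝 ((s : ℝ) * d.G4 (s - 1, a, b) (s', a', b') + (a : ℝ) * d.G4 (s, a - 1, b) (s', a', b')
      + (b : ℝ) * d.G4 (s, a, b - 1) (s', a', b'))) :=
    (((d.hG4 _ _).const_mul _).add ((d.hG4 _ _).const_mul _)).add ((d.hG4 _ _).const_mul _)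
  have h2 : Tendsto (fun i => ((2 * ((d.Qs i : ℕ) : ℝ) - 2 - s') / (d.Qs i : ℕ))
        * (d.st i).g4 (s, a, b) (s' + 1, a', b')
      + ((((d.Qs i : ℕ) : ℝ) - a') / (d.Qs i : ℕ)) * (d.st i).g4 (s, a, b) (s', a' + 1, b')
      + ((((d.Qs i : ℕ) : ℝ) - b') / (d.Qs i : ℕ)) * (d.st i).g4 (s, a, b) (s', a', b' + 1)) d.U
      (𝓝 (2 * d.G4 (s, a, b) (s' + 1, a', b') + 1 * d.G4 (s, a, b) (s', a' + 1, b')
        + 1 * d.G4 (s, a, b) (s', a', b' + 1))) :=
    ((((tendsto_coef_s s').comp d.hQs).mul (d.hG4 _ _)).add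
      (((tendsto_coef_a a').comp d.hQs).mul (d.hG4 _ _))).add
      (((tendsto_coef_a b').comp d.hQs).mul (d.hG4 _ _))
  rw [one_mul, one_mul] at h2
  refine tendsto_nhds_unique h1 (h2.congr' ?_)
  filter_upwards [d.hQs.eventually_ge_atTop (s + s' + a + b + a' + b' + 2)] with i hi
  exact ((d.st i).trans4 s a b s' a' b' (by omega) (by omega) (by omega) (by omega) (by omega)
    (by omega)).symm

theorem anti4 (s a b : ℕ) (q : ℕ × ℕ × ℕ) : d.G4 (s, a, b) q = - d.G4 (s, b, a) q :=
  tendsto_nhds_unique (d.hG4 _ q)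
    ((d.hG4 (s, b, a) q).neg.congr fun i => ((d.st i).anti4 s a b q).symm)

theorem null3_0 (q : ℕ × ℕ) : d.G3 (0, 0) q = 0 :=
  tendsto_nhds_unique (d.hG3 _ q)
    (tendsto_const_nhds.congr fun i => ((d.st i).null3_0 q).symm)

theorem null3_1 (q : ℕ × ℕ) : d.G3 (1, 0) q = 0 :=
  tendsto_nhds_unique (d.hG3 _ q)
    (tendsto_const_nhds.congr fun i => ((d.st i).null3_1 q).symm)

theorem null3_1' (q : ℕ × ℕ) : d.G3 (0, 1) q = 0 :=
  tendsto_nhds_unique (d.hG3 _ q)
    (tendsto_const_nhds.congr fun i => ((d.st i).null3_1' q).symm)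

theorem null3_3 (q : ℕ × ℕ) :
    d.G3 (3, 0) q - 3 * d.G3 (2, 1) q + 3 * d.G3 (1, 2) q - d.G3 (0, 3) q = 0 := by
  have h30 : d.G3 (3, 0) q = 1 / 4 * d.G3 (0, 3) q := by
    have e : pairCoef 3 3 1 = 1 / 4 := by
      unfold pairCoef; norm_num [Nat.factorial]
    have h1 := (d.tbc 3 3 1 (by norm_num)).mul (d.hG3 (0, 3) q)
    rw [e] at h1
    exact tendsto_nhds_unique (d.hG3 _ q) (h1.congr fun i => ((d.st i).null3_30 q).symm)
  have h21 : d.G3 (2, 1) q = -(1 / 4 * d.G3 (0, 3) q) := by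
    have e : pairCoef 2 3 0 = 1 / 4 := by
      unfold pairCoef; norm_num [Nat.factorial]
    have h1 := ((d.tbc 2 3 0 (by norm_num)).mul (d.hG3 (0, 3) q)).neg
    rw [e] at h1
    exact tendsto_nhds_unique (d.hG3 _ q) (h1.congr fun i => ((d.st i).null3_21 q).symm)
  have h12 : d.G3 (1, 2) q = 0 :=
    tendsto_nhds_unique (d.hG3 _ q)
      (tendsto_const_nhds.congr fun i => ((d.st i).null3_12 q).symm)
  rw [h30, h21, h12]
  ring

theorem null4 (s t : ℕ) (q : ℕ × ℕ × ℕ) : pairRow d.G4 s t q = pairRow d.G4 t s q :=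
  tendsto_nhds_unique (d.hrow s t q)
    ((d.hrow t s q).congr fun i => ((d.st i).null4 t s q))

theorem bound3 (s a : ℕ) :
    d.G3 (s, a) (s, a) ≤ (s.factorial : ℝ) * (a.factorial : ℝ) / 2 ^ s := by
  have h1 := (d.tnu a).mul (d.trs s)
  have h2 : d.G3 (s, a) (s, a) ≤ (a.factorial : ℝ) * ((s.factorial : ℝ) / 2 ^ s) := by
    refine le_of_tendsto_of_tendsto (d.hG3 _ _) h1 ?_
    filter_upwards [d.hQs.eventually_ge_atTop (s + 2)] with i hi
    exact (d.st i).bound3 s a (by omega)
  refine h2.trans (le_of_eq ?_)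
  ring

theorem bound4 (F : Finset (ℕ × ℕ)) (u : ℕ × ℕ → ℝ) (b : ℕ) :
    ∑ p ∈ F, ∑ q ∈ F, u p * u q * d.G4 (p.1, p.2, b) (q.1, q.2, b)
      ≤ (b.factorial : ℝ) * ∑ p ∈ F, ∑ q ∈ F, u p * u q * d.G3 p q := by
  have h1 : Tendsto (fun i => ∑ p ∈ F, ∑ q ∈ F,
      u p * u q * (d.st i).g4 (p.1, p.2, b) (q.1, q.2, b)) d.U
      (𝓝 (∑ p ∈ F, ∑ q ∈ F, u p * u q * d.G4 (p.1, p.2, b) (q.1, q.2, b))) :=
    tendsto_finsetSum _ fun p _ => tendsto_finsetSum _ fun q _ => (d.hG4 _ _).const_mul _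
  have h2 : Tendsto (fun i => nu (d.Qs i) b * ∑ p ∈ F, ∑ q ∈ F,
      u p * u q * (d.st i).g3 p q) d.U
      (𝓝 ((b.factorial : ℝ) * ∑ p ∈ F, ∑ q ∈ F, u p * u q * d.G3 p q)) :=
    (d.tnu b).mul (tendsto_finsetSum _ fun p _ => tendsto_finsetSum _ fun q _ =>
      (d.hG3 _ _).const_mul _)
  exact le_of_tendsto_of_tendsto' h1 h2 fun i => (d.st i).bound4 F u b

theorem tV1 (D : ℕ) (A : Finset ℕ) (F : Finset (ℕ × ℕ)) (y : ℕ → ℕ × ℕ → ℝ) :
    Tendsto (fun i => ∑ a ∈ A, (∑ p ∈ F, y a p * (d.st i).g3 (D, a) p) / nu (d.Qs i) a) d.U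
      (𝓝 (∑ a ∈ A, (∑ p ∈ F, y a p * d.G3 (D, a) p) / (a.factorial : ℝ))) := by
  refine tendsto_finsetSum _ fun a _ => ?_
  have h1 : Tendsto (fun i => ∑ p ∈ F, y a p * (d.st i).g3 (D, a) p) d.U
      (𝓝 (∑ p ∈ F, y a p * d.G3 (D, a) p)) :=
    tendsto_finsetSum _ fun p _ => (d.hG3 _ _).const_mul _
  exact h1.div (d.tnu a) (by positivity)

theorem tV2 (A : Finset ℕ) (F : Finset (ℕ × ℕ)) (y : ℕ → ℕ × ℕ → ℝ) :
    Tendsto (fun i => ∑ a ∈ A, (∑ p ∈ F, ∑ q ∈ F, y a p * y a q * (d.st i).g3 p q)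
        / nu (d.Qs i) a) d.U
      (𝓝 (∑ a ∈ A, (∑ p ∈ F, ∑ q ∈ F, y a p * y a q * d.G3 p q) / (a.factorial : ℝ))) := by
  refine tendsto_finsetSum _ fun a _ => ?_
  have h1 : Tendsto (fun i => ∑ p ∈ F, ∑ q ∈ F, y a p * y a q * (d.st i).g3 p q) d.U
      (𝓝 (∑ p ∈ F, ∑ q ∈ F, y a p * y a q * d.G3 p q)) :=
    tendsto_finsetSum _ fun p _ => tendsto_finsetSum _ fun q _ => (d.hG3 _ _).const_mul _
  exact h1.div (d.tnu a) (by positivity)

theorem tV3 (A : Finset ℕ) (F : Finset (ℕ × ℕ)) (y : ℕ → ℕ × ℕ → ℝ) :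
    Tendsto (fun i => ∑ a ∈ A, ∑ a' ∈ A, (∑ p ∈ F, ∑ q ∈ F,
          y a p * y a' q * (d.st i).g4 (p.1, p.2, a') (q.1, q.2, a))
            / (nu (d.Qs i) a * nu (d.Qs i) a')) d.U
      (𝓝 (∑ a ∈ A, ∑ a' ∈ A, (∑ p ∈ F, ∑ q ∈ F,
          y a p * y a' q * d.G4 (p.1, p.2, a') (q.1, q.2, a))
            / ((a.factorial : ℝ) * (a'.factorial : ℝ)))) := by
  refine tendsto_finsetSum _ fun a _ => tendsto_finsetSum _ fun a' _ => ?_
  have h1 : Tendsto (fun i => ∑ p ∈ F, ∑ q ∈ F,
          y a p * y a' q * (d.st i).g4 (p.1, p.2, a') (q.1, q.2, a)) d.U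
      (𝓝 (∑ p ∈ F, ∑ q ∈ F, y a p * y a' q * d.G4 (p.1, p.2, a') (q.1, q.2, a))) :=
    tendsto_finsetSum _ fun p _ => tendsto_finsetSum _ fun q _ => (d.hG4 _ _).const_mul _
  exact h1.div ((d.tnu a).mul (d.tnu a')) (by positivity)

theorem posV (D : ℕ) (al : ℝ) (A : Finset ℕ) (F : Finset (ℕ × ℕ)) (y : ℕ → ℕ × ℕ → ℝ) :
    0 ≤ al ^ 2 * ((D.factorial : ℝ) / 2 ^ D)
      + 2 * al * ∑ a ∈ A, (∑ p ∈ F, y a p * d.G3 (D, a) p) / (a.factorial : ℝ)
      + ∑ a ∈ A, (∑ p ∈ F, ∑ q ∈ F, y a p * y a q * d.G3 p q) / (a.factorial : ℝ)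
      - ∑ a ∈ A, ∑ a' ∈ A, (∑ p ∈ F, ∑ q ∈ F,
          y a p * y a' q * d.G4 (p.1, p.2, a') (q.1, q.2, a))
            / ((a.factorial : ℝ) * (a'.factorial : ℝ)) := by
  have h1 := ((((d.trs D).const_mul (al ^ 2)).add ((d.tV1 D A F y).const_mul (2 * al))).add
    (d.tV2 A F y)).sub (d.tV3 A F y)
  refine ge_of_tendsto h1 ?_
  filter_upwards [d.hQs.eventually_ge_atTop (D + A.sup id + 2)] with i hi
  refine (d.st i).posV D al A F y (by omega) fun a ha => ?_
  have : a ≤ A.sup id := le_sup (f := id) ha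
  omega

theorem energy0 (lam : ℝ) (hlam : Tendsto d.lams d.U (𝓝 lam)) :
    1 + ∑ s ∈ range 81,
        ((((s : ℝ) - 1) / (s.factorial : ℝ)) * d.G3 (0, s) (s, 0)
        - (((s : ℝ) + 1) / ((s + 1).factorial : ℝ)) * d.G3 (0, s + 1) (s, 1))
      + ∑ s ∈ range 81, ((s.factorial : ℝ) / 2 ^ s)⁻¹ * (1 / 4) * pairSq d.G4 s - 1 / 1000
        ≤ lam := by
  have t1 : Tendsto (fun i => ∑ s ∈ range 81,
        ((((s : ℝ) - 1) / nu (d.Qs i) s) * (d.st i).g3 (0, s) (s, 0)
        - (((s : ℝ) + 1) / nu (d.Qs i) (s + 1)) * (d.st i).g3 (0, s + 1) (s, 1))) d.U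
      (𝓝 (∑ s ∈ range 81,
        ((((s : ℝ) - 1) / (s.factorial : ℝ)) * d.G3 (0, s) (s, 0)
        - (((s : ℝ) + 1) / ((s + 1).factorial : ℝ)) * d.G3 (0, s + 1) (s, 1)))) := by
    refine tendsto_finsetSum _ fun s _ => ?_
    exact ((tendsto_const_nhds.div (d.tnu s) (by positivity)).mul (d.hG3 _ _)).sub
      ((tendsto_const_nhds.div (d.tnu (s + 1)) (by positivity)).mul (d.hG3 _ _))
  have t2 : Tendsto (fun i => ∑ s ∈ range 81,
        (rsq (d.Qs i) s)⁻¹ * (1 / 4) * pairSqQ (d.Qs i) (d.st i).g4 s) d.U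
      (𝓝 (∑ s ∈ range 81, ((s.factorial : ℝ) / 2 ^ s)⁻¹ * (1 / 4) * pairSq d.G4 s)) := by
    refine tendsto_finsetSum _ fun s _ => ?_
    exact (((d.trs s).inv₀ (by positivity)).mul_const _).mul (d.hsq s)
  have h1 := ((tendsto_const_nhds (x := (1 : ℝ))).add t1).add t2
  have h2 := h1.sub_const (1 / 1000)
  refine le_of_tendsto_of_tendsto h2 hlam ?_
  filter_upwards [d.hQs.eventually_ge_atTop 100] with i hi
  exact (d.st i).energy_trunc hi

theorem energy_aux1 : ∑ s ∈ range 81, (((s : ℝ) - 1) / (s.factorial : ℝ)) * d.G3 (0, s) (s, 0)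
    = ∑ s ∈ Icc (2 : ℕ) 80, ((s : ℝ) - 1) / (s.factorial : ℝ) * d.G3 (0, s) (s, 0) := by
  symm
  apply sum_subset
  · intro s hs
    rw [mem_Icc] at hs
    exact mem_range.mpr (by omega)
  · intro s hs hs'
    rw [mem_range] at hs
    rw [mem_Icc] at hs'
    have : s = 0 ∨ s = 1 := by omega
    rcases this with h | h
    · subst h; rw [d.null3_0]; simp only [CharP.cast_eq_zero, zero_sub, Nat.factorial_zero, Nat.cast_one, div_one, mul_zero]
    · subst h; rw [d.null3_1']; simp only [Nat.cast_one, sub_self, Nat.factorial_one, div_one, mul_zero]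

theorem energy_aux2 :
    ∑ s ∈ range 81, (((s : ℝ) + 1) / ((s + 1).factorial : ℝ)) * d.G3 (0, s + 1) (s, 1)
    = ∑ s ∈ Icc (1 : ℕ) 80, d.G3 (0, s + 1) (s, 1) / (s.factorial : ℝ) := by
  have i3 : ∑ s ∈ Icc (1 : ℕ) 80, d.G3 (0, s + 1) (s, 1) / (s.factorial : ℝ)
      = ∑ s ∈ Icc (1 : ℕ) 80,
        (((s : ℝ) + 1) / ((s + 1).factorial : ℝ)) * d.G3 (0, s + 1) (s, 1) := by
    refine sum_congr rfl fun s _ => ?_
    rw [Nat.factorial_succ]
    push_cast
    have : ((s : ℝ) + 1) ≠ 0 := by positivity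
    have h2 : (s.factorial : ℝ) ≠ 0 := by positivity
    field_simp
  rw [i3]
  symm
  apply sum_subset
  · intro s hs
    rw [mem_Icc] at hs
    exact mem_range.mpr (by omega)
  · intro s hs hs'
    rw [mem_range] at hs
    rw [mem_Icc] at hs'
    have : s = 0 := by omega
    subst this
    rw [zero_add, d.null3_1']; simp

theorem energy (lam : ℝ) (hlam : Tendsto d.lams d.U (𝓝 lam)) :
    1 - ∑ s ∈ Icc (1 : ℕ) 80, d.G3 (0, s + 1) (s, 1) / (s.factorial : ℝ)
      + ∑ s ∈ Icc (2 : ℕ) 80, ((s : ℝ) - 1) / (s.factorial : ℝ) * d.G3 (0, s) (s, 0)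
      + ∑ s ∈ Icc (0 : ℕ) 80, (2 : ℝ) ^ s / (s.factorial : ℝ) * (1 / 4) * pairSq d.G4 s
      - 1 / 1000 ≤ lam := by
  have h2 := d.energy0 lam hlam
  rw [sum_sub_distrib, d.energy_aux1, d.energy_aux2] at h2
  have e2 : ∑ s ∈ range 81, ((s.factorial : ℝ) / 2 ^ s)⁻¹ * (1 / 4) * pairSq d.G4 s
      = ∑ s ∈ Icc (0 : ℕ) 80, (2 : ℝ) ^ s / (s.factorial : ℝ) * (1 / 4) * pairSq d.G4 s := by
    apply sum_congr
    · ext s; simp; omega
    · intro s _; rw [inv_div]
  rw [e2] at h2
  linarith only [h2]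

/-- the ultralimit as a planar state -/
def toPlanar (lam : ℝ) (hlam : Tendsto d.lams d.U (𝓝 lam)) : PlanarState lam where
  g3 := d.G3
  g4 := d.G4
  symm3 := d.symm3
  symm4 := d.symm4
  deg3 := d.deg3
  deg4 := d.deg4
  pos3 := d.pos3
  pos4 := d.pos4
  trans3 := d.trans3
  trans4 := d.trans4
  anti4 := d.anti4
  null3_0 := d.null3_0
  null3_1 := d.null3_1
  null3_1' := d.null3_1'
  null3_3 := d.null3_3
  null4 := d.null4
  bound3 := d.bound3
  bound4 := d.bound4
  posV := d.posV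
  energy := d.energy lam hlam

end LimData

/-- sequences of finite states with bounded energies produce a planar state -/
theorem exists_planar (Qs : ℕ → ℕ) (lams : ℕ → ℝ) (st : ∀ i, FinState (Qs i) (lams i))
    (hQs : Tendsto Qs atTop atTop) (d0 : ℝ) (h0 : ∀ i, 0 ≤ lams i) (h1 : ∀ i, lams i ≤ d0) :
    ∃ lam, lam ≤ d0 ∧ Nonempty (PlanarState lam) := by
  let U : Ultrafilter ℕ := hyperfilter ℕ
  have hU : (U : Filter ℕ) ≤ atTop := Nat.hyperfilter_le_atTop
  have hQU : Tendsto Qs U atTop := hQs.mono_left hU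
  obtain ⟨lam, hlam⟩ := exists_ulim U lams (fun _ => d0) d0 tendsto_const_nhds
    (Eventually.of_forall fun i => by rw [abs_of_nonneg (h0 i)]; exact h1 i)
  choose G3 hG3 using fun p q => exists_lim3 st U hQU p q
  choose G4 hG4 using fun p q => exists_lim4 st U hQU p q
  refine ⟨lam, le_of_tendsto' hlam h1, ⟨LimData.toPlanar
    { Qs := Qs, lams := lams, st := st, U := U, hQs := hQU, G3 := G3, G4 := G4, hG3 := hG3,
      hG4 := hG4 } lam hlam⟩⟩

end Vale.Agent.P359
end
end
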