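import Vale.Agent.P359.MathlibUsed
import Vale.Agent.P359.Bdl.B1

set_option linter.all false

section

section

/-!
Translation invariance, antisymmetry and null relations for the polynomial forms.
-/

namespace Vale.Agent.P359

open Finset MvPolynomial

noncomputable section

/-- infinitesimal translation on `R[X, x]` -/
def dl3 : Derivation ℝ P3 P3 := pderiv 0 + pderiv 1
/-- infinitesimal translation on `R[X, x, y]` -/
def dl4 : Derivation ℝ P4 P4 := pderiv 0 + pderiv 1 + pderiv 2

lemma dl3_X0 : dl3 (X 0) = 1 := by simp only [dl3, Fin.isValue, Derivation.coe_add, Pi.add_apply, pderiv_X, Pi.single_eq_same, ne_eq, zero_ne_one, not_false_eq_true, Pi.single_eq_of_ne, add_zero]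
lemma dl3_X1 : dl3 (X 1) = 1 := by simp only [dl3, Fin.isValue, Derivation.coe_add, Pi.add_apply, pderiv_X, ne_eq, one_ne_zero, not_false_eq_true, Pi.single_eq_of_ne, Pi.single_eq_same, zero_add]
lemma dl4_X0 : dl4 (X 0) = 1 := by simp only [dl4, Fin.isValue, Derivation.coe_add, Pi.add_apply, pderiv_X, Pi.single_eq_same, ne_eq, zero_ne_one, not_false_eq_true, Pi.single_eq_of_ne, add_zero, Fin.reduceEq]
lemma dl4_X1 : dl4 (X 1) = 1 := by simp only [dl4, Fin.isValue, Derivation.coe_add, Pi.add_apply, pderiv_X, ne_eq, one_ne_zero, not_false_eq_true, Pi.single_eq_of_ne, Pi.single_eq_same, zero_add, Fin.reduceEq, add_zero]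
lemma dl4_X2 : dl4 (X 2) = 1 := by simp only [dl4, Fin.isValue, Derivation.coe_add, Pi.add_apply, pderiv_X, ne_eq, Fin.reduceEq, not_false_eq_true, Pi.single_eq_of_ne, add_zero, Pi.single_eq_same, zero_add]

lemma dl3_m3 (s a : ℕ) :
    dl3 (m3 (s, a)) = (s : ℝ) • m3 (s - 1, a) + (a : ℝ) • m3 (s, a - 1) := by
  rw [m3_eq, m3_eq, m3_eq]
  simp only [Derivation.leibniz, Derivation.leibniz_pow, dl3_X0, dl3_X1, smul_eq_mul, nsmul_eq_mul,
    mul_one]
  simp only [MvPolynomial.smul_eq_C_mul, map_natCast]
  ring

lemma dl4_m4 (s a b : ℕ) :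
    dl4 (m4 (s, a, b)) = (s : ℝ) • m4 (s - 1, a, b) + (a : ℝ) • m4 (s, a - 1, b)
      + (b : ℝ) • m4 (s, a, b - 1) := by
  rw [m4_eq, m4_eq, m4_eq, m4_eq]
  simp only [Derivation.leibniz, Derivation.leibniz_pow, dl4_X0, dl4_X1, dl4_X2, smul_eq_mul,
    nsmul_eq_mul, mul_one]
  simp only [MvPolynomial.smul_eq_C_mul, map_natCast]
  ring

variable {lam : ℝ} (st : PlanarState lam)

lemma B3_adj (p q : P3) : B3 st (dl3 p) q = B3 st p ((2 * X 0 + X 1) * q) := by
  have key : (B3 st).comp (dl3 : P3 →ₗ[ℝ] P3)
      = ((LinearMap.mulLeft ℝ (2 * X 0 + X 1 : P3)).lcomp ℝ ℝ).comp (B3 st) := by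
    apply lin_ext3; rintro ⟨s, a⟩; apply lin_ext3; rintro ⟨s', b⟩
    simp only [LinearMap.comp_apply, Derivation.coeFn_coe, dl3_m3, map_add, map_smul,
      LinearMap.add_apply, LinearMap.smul_apply, B3_m3, smul_eq_mul, LinearMap.lcomp_apply,
      LinearMap.mulLeft_apply]
    have e1 : (2 * X 0 + X 1 : P3) * m3 (s', b) = (2 : ℝ) • m3 (s' + 1, b) + m3 (s', b + 1) := by
      simp only [m3_eq, Algebra.smul_def, MvPolynomial.algebraMap_eq, map_ofNat]
      ring
    rw [e1]
    simp only [map_add, map_smul, B3_m3, smul_eq_mul]
    exact st.trans3 s a s' b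
  exact LinearMap.congr_fun (LinearMap.congr_fun key p) q

lemma B4_adj (p q : P4) : B4 st (dl4 p) q = B4 st p ((2 * X 0 + X 1 + X 2) * q) := by
  have key : (B4 st).comp (dl4 : P4 →ₗ[ℝ] P4)
      = ((LinearMap.mulLeft ℝ (2 * X 0 + X 1 + X 2 : P4)).lcomp ℝ ℝ).comp (B4 st) := by
    apply lin_ext4; rintro ⟨s, a, b⟩; apply lin_ext4; rintro ⟨s', a', b'⟩
    simp only [LinearMap.comp_apply, Derivation.coeFn_coe, dl4_m4, map_add, map_smul,
      LinearMap.add_apply, LinearMap.smul_apply, B4_m4, smul_eq_mul, LinearMap.lcomp_apply,
      LinearMap.mulLeft_apply]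
    have e1 : (2 * X 0 + X 1 + X 2 : P4) * m4 (s', a', b')
        = (2 : ℝ) • m4 (s' + 1, a', b') + m4 (s', a' + 1, b') + m4 (s', a', b' + 1) := by
      simp only [m4_eq, Algebra.smul_def, MvPolynomial.algebraMap_eq, map_ofNat]
      ring
    rw [e1]
    simp only [map_add, map_smul, B4_m4, smul_eq_mul]
    exact st.trans4 s a b s' a' b'
  exact LinearMap.congr_fun (LinearMap.congr_fun key p) q

/-- relative coordinate `w = X - x` -/
def w3 : P3 := X 0 - X 1
/-- center of mass `(2 X + x) / 3` -/
def c3 : P3 := (2 / 3 : ℝ) • X 0 + (1 / 3 : ℝ) • X 1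
/-- center of mass `(2 X + x + y) / 4` -/
def c4 : P4 := (1 / 2 : ℝ) • X 0 + (1 / 4 : ℝ) • X 1 + (1 / 4 : ℝ) • X 2
/-- `v = X - (x + y) / 2` -/
def v4 : P4 := X 0 - (1 / 2 : ℝ) • X 1 - (1 / 2 : ℝ) • X 2
/-- `w' = (x - y) / 2` -/
def w4 : P4 := (1 / 2 : ℝ) • X 1 - (1 / 2 : ℝ) • X 2

lemma dl3_w3 : dl3 w3 = 0 := by simp [w3, dl3_X0, dl3_X1]
lemma dl3_c3 : dl3 c3 = 1 := by
  simp only [c3, map_add, Derivation.map_smul, dl3_X0, dl3_X1, ← add_smul]; norm_num
lemma dl4_v4 : dl4 v4 = 0 := by
  simp only [v4, map_sub, Derivation.map_smul, dl4_X0, dl4_X1, dl4_X2]; module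
lemma dl4_w4 : dl4 w4 = 0 := by
  simp only [w4, map_sub, Derivation.map_smul, dl4_X1, dl4_X2]; module
lemma dl4_c4 : dl4 c4 = 1 := by
  simp only [c4, map_add, Derivation.map_smul, dl4_X0, dl4_X1, dl4_X2, ← add_smul]; norm_num

lemma zeta3 : (2 * X 0 + X 1 : P3) = (3 : ℝ) • c3 := by
  rw [c3, two_mul]; module
lemma zeta4 : (2 * X 0 + X 1 + X 2 : P4) = (4 : ℝ) • c4 := by
  rw [c4, two_mul]; module

lemma B3_adj' (p q : P3) : B3 st (dl3 p) q = 3 * B3 st p (c3 * q) := by
  rw [B3_adj, zeta3, smul_mul_assoc, map_smul, smul_eq_mul]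
lemma B4_adj' (p q : P4) : B4 st (dl4 p) q = 4 * B4 st p (c4 * q) := by
  rw [B4_adj, zeta4, smul_mul_assoc, map_smul, smul_eq_mul]

/-- channel decomposition for `Gamma3` -/
lemma B3_channel (p q : P3) (hp : dl3 p = 0) (hq : dl3 q = 0) (c c' : ℕ) :
    B3 st (c3 ^ c * p) (c3 ^ c' * q)
      = if c = c' then (c.factorial : ℝ) / 3 ^ c * B3 st p q else 0 := by
  have hd : ∀ (n : ℕ) (r : P3), dl3 r = 0 → dl3 (c3 ^ n * r) = (n : ℝ) • (c3 ^ (n - 1) * r) := by
    intro n r hr
    rw [Derivation.leibniz, hr, Derivation.leibniz_pow, dl3_c3]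
    simp only [smul_eq_mul, mul_zero, zero_add, mul_one, MvPolynomial.smul_eq_C_mul, nsmul_eq_mul,
      map_natCast]
    ring
  induction c generalizing c' with
  | zero =>
    cases c' with
    | zero => simp only [pow_zero, one_mul, ↓reduceIte, Nat.factorial_zero, Nat.cast_one, ne_eq, one_ne_zero, not_false_eq_true, div_self]
    | succ n =>
      have h := B3_adj' st p (c3 ^ n * q)
      rw [hp, map_zero, LinearMap.zero_apply, ← mul_assoc, ← pow_succ'] at h
      simp only [pow_zero, one_mul]
      rw [if_neg (by omega)]
      linarith only [h]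
  | succ k ih =>
    have step : ∀ r : P3, B3 st (c3 ^ (k + 1) * p) r = 1 / 3 * B3 st (c3 ^ k * p) (dl3 r) := by
      intro r
      have h := B3_adj' st r (c3 ^ k * p)
      rw [B3_symm st (c3 ^ (k + 1) * p) r, B3_symm st (c3 ^ k * p) (dl3 r), h, pow_succ', mul_assoc]
      ring
    rw [step, hd _ _ hq, map_smul, smul_eq_mul, ih (c' - 1)]
    cases c' with
    | zero => simp only [one_div, CharP.cast_eq_zero, zero_tsub, mul_ite, zero_mul, mul_zero, ite_self, Nat.add_eq_zero_iff, one_ne_zero, and_false, ↓reduceIte]
    | succ n =>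
      simp only [Nat.add_sub_cancel, Nat.add_right_cancel_iff]
      split_ifs with h
      · subst h
        rw [Nat.factorial_succ]; push_cast; field_simp; ring
      · simp

/-- channel decomposition for `Gamma4` -/
lemma B4_channel (p q : P4) (hp : dl4 p = 0) (hq : dl4 q = 0) (c c' : ℕ) :
    B4 st (c4 ^ c * p) (c4 ^ c' * q)
      = if c = c' then (c.factorial : ℝ) / 4 ^ c * B4 st p q else 0 := by
  have hd : ∀ (n : ℕ) (r : P4), dl4 r = 0 → dl4 (c4 ^ n * r) = (n : ℝ) • (c4 ^ (n - 1) * r) := by
    intro n r hr
    rw [Derivation.leibniz, hr, Derivation.leibniz_pow, dl4_c4]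
    simp only [smul_eq_mul, mul_zero, zero_add, mul_one, MvPolynomial.smul_eq_C_mul, nsmul_eq_mul,
      map_natCast]
    ring
  induction c generalizing c' with
  | zero =>
    cases c' with
    | zero => simp only [pow_zero, one_mul, ↓reduceIte, Nat.factorial_zero, Nat.cast_one, ne_eq, one_ne_zero, not_false_eq_true, div_self]
    | succ n =>
      have h := B4_adj' st p (c4 ^ n * q)
      rw [hp, map_zero, LinearMap.zero_apply, ← mul_assoc, ← pow_succ'] at h
      simp only [pow_zero, one_mul]
      rw [if_neg (by omega)]
      linarith only [h]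
  | succ k ih =>
    have step : ∀ r : P4, B4 st (c4 ^ (k + 1) * p) r = 1 / 4 * B4 st (c4 ^ k * p) (dl4 r) := by
      intro r
      have h := B4_adj' st r (c4 ^ k * p)
      rw [B4_symm st (c4 ^ (k + 1) * p) r, B4_symm st (c4 ^ k * p) (dl4 r), h, pow_succ', mul_assoc]
      ring
    rw [step, hd _ _ hq, map_smul, smul_eq_mul, ih (c' - 1)]
    cases c' with
    | zero => simp only [one_div, CharP.cast_eq_zero, zero_tsub, mul_ite, zero_mul, mul_zero, ite_self, Nat.add_eq_zero_iff, one_ne_zero, and_false, ↓reduceIte]
    | succ n =>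
      simp only [Nat.add_sub_cancel, Nat.add_right_cancel_iff]
      split_ifs with h
      · subst h
        rw [Nat.factorial_succ]; push_cast; field_simp; ring
      · simp

end

end Vale.Agent.P359
end
end

section

section

/-!
Degree orthogonality, antisymmetry, null vectors and the embedding `R[X,x] → R[X,x,y]`.
-/

namespace Vale.Agent.P359

open Finset MvPolynomial

noncomputable section

variable {lam : ℝ} (st : PlanarState lam)

lemma B3_deg {p q : P3} {n n' : ℕ} (hp : p.IsHomogeneous n) (hq : q.IsHomogeneous n')
    (h : n ≠ n') : B3 st p q = 0 := by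
  rw [expand3 p, expand3 q, B3_sum]
  apply sum_eq_zero; intro a ha; apply sum_eq_zero; intro b hb
  rw [mem_image] at ha hb
  obtain ⟨m, hm, rfl⟩ := ha
  obtain ⟨m', hm', rfl⟩ := hb
  rw [mem_support_iff] at hm hm'
  have h1 : m.degree = n := by
    have := hp hm
    rwa [Pi.one_def, ← Finsupp.degree_eq_weight_one] at this
  have h2 : m'.degree = n' := by
    have := hq hm'
    rwa [Pi.one_def, ← Finsupp.degree_eq_weight_one] at this
  rw [Finsupp.degree_eq_sum, Fin.sum_univ_two] at h1 h2
  rw [st.deg3, mul_zero]
  simp only [d3]; omega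

lemma B4_deg {p q : P4} {n n' : ℕ} (hp : p.IsHomogeneous n) (hq : q.IsHomogeneous n')
    (h : n ≠ n') : B4 st p q = 0 := by
  rw [expand4 p, expand4 q, B4_sum]
  apply sum_eq_zero; intro a ha; apply sum_eq_zero; intro b hb
  rw [mem_image] at ha hb
  obtain ⟨m, hm, rfl⟩ := ha
  obtain ⟨m', hm', rfl⟩ := hb
  rw [mem_support_iff] at hm hm'
  have h1 : m.degree = n := by
    have := hp hm
    rwa [Pi.one_def, ← Finsupp.degree_eq_weight_one] at this
  have h2 : m'.degree = n' := by
    have := hq hm'
    rwa [Pi.one_def, ← Finsupp.degree_eq_weight_one] at this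
  rw [Finsupp.degree_eq_sum, Fin.sum_univ_three] at h1 h2
  rw [st.deg4, mul_zero]
  simp only [d4]; omega

/-- exchange of `x` and `y` -/
def sw : P4 →ₐ[ℝ] P4 := aeval ![X 0, X 2, X 1]

lemma sw_X0 : sw (X 0) = X 0 := by simp [sw]
lemma sw_X1 : sw (X 1) = X 2 := by simp [sw]
lemma sw_X2 : sw (X 2) = X 1 := by simp [sw]

lemma sw_m4 (s a b : ℕ) : sw (m4 (s, a, b)) = m4 (s, b, a) := by
  rw [m4_eq, m4_eq]; simp only [map_mul, map_pow, sw_X0, sw_X1, sw_X2]; ring

lemma B4_anti (p q : P4) : B4 st (sw p) q = - B4 st p q := by
  have : (B4 st).comp sw.toLinearMap = - B4 st := by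
    apply lin_ext4; rintro ⟨s, a, b⟩; apply lin_ext4; intro q
    simp only [LinearMap.comp_apply, AlgHom.toLinearMap_apply, sw_m4, B4_m4, LinearMap.neg_apply]
    exact st.anti4 s b a q
  exact LinearMap.congr_fun (LinearMap.congr_fun this p) q

lemma B4_even {p : P4} (hp : sw p = p) (q : P4) : B4 st p q = 0 := by
  have := B4_anti st p q
  rw [hp] at this; linarith only [this]

lemma sw_v4 : sw v4 = v4 := by
  simp only [v4, map_sub, map_smul, sw_X0, sw_X1, sw_X2]; module
lemma sw_w4 : sw w4 = - w4 := by
  simp only [w4, map_sub, map_smul, sw_X1, sw_X2]; module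

/-- even powers of `w'` do not contribute -/
lemma B4_even_pow (i j : ℕ) (hi : Even i) (q : P4) : B4 st (w4 ^ i * v4 ^ j) q = 0 := by
  apply B4_even
  rw [map_mul, map_pow, map_pow, sw_w4, sw_v4, hi.neg_pow]

/-- the embedding `R[X,x] → R[X,x,y]` -/
def emb : P3 →ₐ[ℝ] P4 := aeval ![X 0, X 1]

lemma emb_X0 : emb (X 0) = X 0 := by simp [emb]
lemma emb_X1 : emb (X 1) = X 1 := by simp [emb]

lemma emb_m3 (b : ℕ) (q : ℕ × ℕ) : X 2 ^ b * emb (m3 q) = m4 (q.1, q.2, b) := by
  rw [m4_eq, m3_eq]; simp only [map_mul, map_pow, emb_X0, emb_X1]; ring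

/-- Cauchy-Schwarz consequence: null vectors of a nonnegative form -/
lemma B4_null {p : P4} (hp : B4 st p p = 0) (q : P4) : B4 st p q = 0 := by
  by_contra hne
  have h : ∀ t : ℝ, 0 ≤ 2 * t * B4 st p q + B4 st q q := by
    intro t
    have := B4_nonneg st (t • p + q)
    simp only [map_add, map_smul, LinearMap.add_apply, LinearMap.smul_apply, smul_eq_mul, hp,
      mul_zero, zero_add] at this
    rw [B4_symm st q p] at this
    linarith
  have h1 := h (-(B4 st q q + 1) / (2 * B4 st p q))
  have h2 : 2 * (-(B4 st q q + 1) / (2 * B4 st p q)) * B4 st p q = -(B4 st q q + 1) := by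
    field_simp
  rw [h2] at h1; linarith only [h1]

lemma bound4' (t : P3) (b : ℕ) :
    B4 st (X 2 ^ b * emb t) (X 2 ^ b * emb t) ≤ (b.factorial : ℝ) * B3 st t t := by
  have e : X 2 ^ b * emb t = ∑ q ∈ t.support.image d3, t.coeff (e3 q) • (X 2 ^ b * emb (m3 q)) := by
    conv_lhs => rw [expand3 t]
    simp only [map_sum, map_smul, mul_sum, mul_smul_comm]
  have e2 : B4 st (X 2 ^ b * emb t) (X 2 ^ b * emb t)
      = ∑ p ∈ t.support.image d3, ∑ q ∈ t.support.image d3,
          t.coeff (e3 p) * t.coeff (e3 q) * st.g4 (p.1, p.2, b) (q.1, q.2, b) := by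
    rw [e]
    simp only [emb_m3, map_sum, LinearMap.sum_apply, map_smul, LinearMap.smul_apply, smul_eq_mul,
      B4_m4, mul_sum]
    rw [sum_comm]
    apply sum_congr rfl; intro p _; apply sum_congr rfl; intro q _; ring
  rw [e2]
  conv_rhs => rw [expand3 t, B3_sum]
  exact st.bound4 _ _ _

lemma null_emb {t : P3} (ht : B3 st t t = 0) (b : ℕ) (q : P4) : B4 st (X 2 ^ b * emb t) q = 0 := by
  apply B4_null
  apply le_antisymm
  · have := bound4' st t b
    rw [ht, mul_zero] at this; exact this
  · exact B4_nonneg st _

/-- `gamma_m = Gamma3 (w^m, w^m)` -/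
def gam (m : ℕ) : ℝ := B3 st (w3 ^ m) (w3 ^ m)

lemma gam_nonneg (m : ℕ) : 0 ≤ gam st m := B3_nonneg st _

lemma w3_null0 (q : P3) : B3 st (w3 ^ 0) q = 0 := by
  have : B3 st (w3 ^ 0) = 0 := by
    apply lin_ext3; intro q
    rw [pow_zero, show (1 : P3) = m3 (0, 0) by simp [m3_eq], B3_m3]
    simpa using st.null3_0 q
  rw [this]; rfl

lemma w3_null1 (q : P3) : B3 st (w3 ^ 1) q = 0 := by
  have : B3 st (w3 ^ 1) = 0 := by
    apply lin_ext3; intro q
    rw [pow_one, show (w3 : P3) = m3 (1, 0) - m3 (0, 1) by simp [m3_eq, w3], map_sub,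
      LinearMap.sub_apply, B3_m3, B3_m3, st.null3_1, st.null3_1']
    simp
  rw [this]; rfl

lemma w3_null3 (q : P3) : B3 st (w3 ^ 3) q = 0 := by
  have : B3 st (w3 ^ 3) = 0 := by
    apply lin_ext3; intro q
    have e : (w3 ^ 3 : P3) = m3 (3, 0) - (3 : ℝ) • m3 (2, 1) + (3 : ℝ) • m3 (1, 2) - m3 (0, 3) := by
      simp only [m3_eq, w3, MvPolynomial.smul_eq_C_mul, map_ofNat]; ring
    rw [e]
    simp only [map_sub, map_add, map_smul, LinearMap.sub_apply, LinearMap.add_apply,
      LinearMap.smul_apply, B3_m3, smul_eq_mul]
    have := st.null3_3 q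
    simpa only [LinearMap.zero_apply] using this
  rw [this]; rfl

lemma gam0 : gam st 0 = 0 := w3_null0 st _
lemma gam1 : gam st 1 = 0 := w3_null1 st _
lemma gam3 : gam st 3 = 0 := w3_null3 st _

lemma w3_hom (m : ℕ) : (w3 ^ m : P3).IsHomogeneous m := by
  have : (w3 : P3).IsHomogeneous 1 := (isHomogeneous_X ℝ 0).sub (isHomogeneous_X ℝ 1)
  simpa using this.pow m

lemma dl3_w3_pow (m : ℕ) : dl3 (w3 ^ m) = 0 := by
  rw [Derivation.leibniz_pow, dl3_w3]; simp

/-- the three-body channels -/
lemma B3_chan (c c' m m' : ℕ) :
    B3 st (c3 ^ c * w3 ^ m) (c3 ^ c' * w3 ^ m')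
      = if c = c' ∧ m = m' then (c.factorial : ℝ) / 3 ^ c * gam st m else 0 := by
  rw [B3_channel st _ _ (dl3_w3_pow m) (dl3_w3_pow m')]
  by_cases hc : c = c'
  · by_cases hm : m = m'
    · subst hm; simp only [hc, ↓reduceIte, and_self, gam]
    · rw [if_pos hc, if_neg (fun h => hm h.2), B3_deg st (w3_hom m) (w3_hom m') hm, mul_zero]
  · rw [if_neg hc, if_neg (fun h => hc h.1)]

end

end Vale.Agent.P359
end
end

section

section

/-!
Polynomial versions of the crossing positivity, of the pair exchange relation and of the energy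
inequality.
-/

namespace Vale.Agent.P359

open Finset MvPolynomial

noncomputable section

variable {lam : ℝ} (st : PlanarState lam)

lemma expand3' (p : P3) {F : Finset (ℕ × ℕ)} (hF : p.support.image d3 ⊆ F) :
    p = ∑ q ∈ F, p.coeff (e3 q) • m3 q := by
  conv_lhs => rw [expand3 p]
  apply sum_subset hF
  intro q _ hq
  have : p.coeff (e3 q) = 0 := by
    by_contra h
    exact hq (mem_image.2 ⟨e3 q, mem_support_iff.2 h, d3_e3 q⟩)
  rw [this, zero_smul]

/-- crossing positivity, polynomial form -/
lemma posV' (D : ℕ) (al : ℝ) (A : Finset ℕ) (t : ℕ → P3) :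
    0 ≤ al ^ 2 * ((D.factorial : ℝ) / 2 ^ D)
      + 2 * al * ∑ a ∈ A, B3 st (X 0 ^ D * X 1 ^ a) (t a) / (a.factorial : ℝ)
      + ∑ a ∈ A, B3 st (t a) (t a) / (a.factorial : ℝ)
      - ∑ a ∈ A, ∑ a' ∈ A, B4 st (X 2 ^ a' * emb (t a)) (X 2 ^ a * emb (t a'))
          / ((a.factorial : ℝ) * (a'.factorial : ℝ)) := by
  set F : Finset (ℕ × ℕ) := A.biUnion fun a => (t a).support.image d3 with hF
  have hex : ∀ a ∈ A, t a = ∑ q ∈ F, (t a).coeff (e3 q) • m3 q := by
    intro a ha
    apply expand3'
    intro q hq
    exact mem_biUnion.2 ⟨a, ha, hq⟩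
  have h := st.posV D al A F fun a q => (t a).coeff (e3 q)
  have e1 : ∀ a ∈ A, B3 st (X 0 ^ D * X 1 ^ a) (t a)
      = ∑ p ∈ F, (t a).coeff (e3 p) * st.g3 (D, a) p := by
    intro a ha
    rw [show (X 0 ^ D * X 1 ^ a : P3) = m3 (D, a) by rw [m3_eq]]
    conv_lhs => rw [hex a ha]
    simp only [map_sum, map_smul, B3_m3, smul_eq_mul]
  have e2 : ∀ a ∈ A, B3 st (t a) (t a)
      = ∑ p ∈ F, ∑ q ∈ F, (t a).coeff (e3 p) * (t a).coeff (e3 q) * st.g3 p q := by
    intro a ha
    conv_lhs => rw [hex a ha, B3_sum]
  have e3' : ∀ a ∈ A, ∀ a' ∈ A, B4 st (X 2 ^ a' * emb (t a)) (X 2 ^ a * emb (t a'))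
      = ∑ p ∈ F, ∑ q ∈ F, (t a).coeff (e3 p) * (t a').coeff (e3 q)
          * st.g4 (p.1, p.2, a') (q.1, q.2, a) := by
    intro a ha a' ha'
    have f1 : X 2 ^ a' * emb (t a) = ∑ q ∈ F, (t a).coeff (e3 q) • m4 (q.1, q.2, a') := by
      conv_lhs => rw [hex a ha]
      simp only [map_sum, map_smul, mul_sum, mul_smul_comm, emb_m3]
    have f2 : X 2 ^ a * emb (t a') = ∑ q ∈ F, (t a').coeff (e3 q) • m4 (q.1, q.2, a) := by
      conv_lhs => rw [hex a' ha']
      simp only [map_sum, map_smul, mul_sum, mul_smul_comm, emb_m3]
    rw [f1, f2]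
    simp only [map_sum, LinearMap.sum_apply, map_smul, LinearMap.smul_apply, smul_eq_mul,
      B4_m4, mul_sum]
    rw [sum_comm]
    apply sum_congr rfl; intro p _; apply sum_congr rfl; intro q _; ring
  have s1 : ∑ a ∈ A, B3 st (X 0 ^ D * X 1 ^ a) (t a) / (a.factorial : ℝ)
      = ∑ a ∈ A, (∑ p ∈ F, (t a).coeff (e3 p) * st.g3 (D, a) p) / (a.factorial : ℝ) :=
    sum_congr rfl fun a ha => by rw [e1 a ha]
  have s2 : ∑ a ∈ A, B3 st (t a) (t a) / (a.factorial : ℝ)
      = ∑ a ∈ A, (∑ p ∈ F, ∑ q ∈ F, (t a).coeff (e3 p) * (t a).coeff (e3 q) * st.g3 p q)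
          / (a.factorial : ℝ) :=
    sum_congr rfl fun a ha => by rw [e2 a ha]
  have s3 : ∑ a ∈ A, ∑ a' ∈ A, B4 st (X 2 ^ a' * emb (t a)) (X 2 ^ a * emb (t a'))
          / ((a.factorial : ℝ) * (a'.factorial : ℝ))
      = ∑ a ∈ A, ∑ a' ∈ A, (∑ p ∈ F, ∑ q ∈ F, (t a).coeff (e3 p) * (t a').coeff (e3 q)
          * st.g4 (p.1, p.2, a') (q.1, q.2, a)) / ((a.factorial : ℝ) * (a'.factorial : ℝ)) :=
    sum_congr rfl fun a ha => sum_congr rfl fun a' ha' => by rw [e3' a ha a' ha']
  rw [s1, s2, s3]
  exact h

/-- `Y = (x + y) / 2` -/
def y4 : P4 := (1 / 2 : ℝ) • X 1 + (1 / 2 : ℝ) • X 2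

/-- the pair polynomial `(x - y) Y^s X^t` -/
def pp (s t : ℕ) : P4 := (X 1 - X 2) * y4 ^ s * X 0 ^ t

lemma diff_mul_pow (s : ℕ) :
    ((X 1 - X 2) * (X 1 + X 2) ^ s : P4)
      = ∑ ab ∈ antidiagonal (s + 1),
          ((s.factorial : ℝ) * (((ab.1 : ℝ) - (ab.2 : ℝ)) /
            ((ab.1.factorial : ℝ) * (ab.2.factorial : ℝ)))) • (X 1 ^ ab.1 * X 2 ^ ab.2) := by
  let Dr : Derivation ℝ P4 P4 := (X 1 : P4) • pderiv 1 - (X 2 : P4) • pderiv 2
  have d1 : Dr (X 1) = X 1 := by simp only [Fin.isValue, Derivation.coe_sub, Derivation.coe_smul, Pi.sub_apply, Pi.smul_apply, pderiv_X, Pi.single_eq_same, smul_eq_mul, mul_one, ne_eq, Fin.reduceEq, not_false_eq_true, Pi.single_eq_of_ne, mul_zero, sub_zero, Dr]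
  have d2 : Dr (X 2) = - X 2 := by simp only [Fin.isValue, Derivation.coe_sub, Derivation.coe_smul, Pi.sub_apply, Pi.smul_apply, pderiv_X, ne_eq, Fin.reduceEq, not_false_eq_true, Pi.single_eq_of_ne, smul_eq_mul, mul_zero, Pi.single_eq_same, mul_one, zero_sub, Dr]
  have h1 : Dr ((X 1 + X 2) ^ (s + 1)) = ((s : ℝ) + 1) • ((X 1 - X 2) * (X 1 + X 2) ^ s) := by
    rw [Derivation.leibniz_pow, map_add, d1, d2]
    simp only [Nat.add_sub_cancel, smul_eq_mul, nsmul_eq_mul, MvPolynomial.smul_eq_C_mul]
    push_cast
    rw [map_add, map_one, map_natCast]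
    ring
  have h2 : Dr ((X 1 + X 2) ^ (s + 1)) = ∑ ab ∈ antidiagonal (s + 1),
      (((s + 1).choose ab.1 : ℝ) * ((ab.1 : ℝ) - (ab.2 : ℝ))) • (X 1 ^ ab.1 * X 2 ^ ab.2) := by
    rw [(Commute.all (X 1 : P4) (X 2)).add_pow', map_sum]
    apply sum_congr rfl
    rintro ⟨a, b⟩ _
    rw [map_nsmul, Derivation.leibniz, Derivation.leibniz_pow, Derivation.leibniz_pow, d1, d2]
    simp only [smul_eq_mul, nsmul_eq_mul, MvPolynomial.smul_eq_C_mul, map_mul, map_sub, map_natCast]
    rcases a with _ | a <;> rcases b with _ | b <;> simp <;> ring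
  have h3 : ((X 1 - X 2) * (X 1 + X 2) ^ s : P4)
      = (1 / ((s : ℝ) + 1)) • Dr ((X 1 + X 2) ^ (s + 1)) := by
    rw [h1, smul_smul, one_div, inv_mul_cancel₀ (by (clear * -; positivity)), one_smul]
  rw [h3, h2, smul_sum]
  apply sum_congr rfl
  rintro ⟨a, b⟩ hab
  rw [HasAntidiagonal.mem_antidiagonal] at hab
  simp only at hab ⊢
  rw [smul_smul]
  congr 1
  have hc : ((s + 1).choose a : ℝ) = ((s + 1).factorial : ℝ) / ((a.factorial : ℝ) * b.factorial) := by
    rw [eq_div_iff (by positivity), ← hab]
    have := Nat.add_choose_mul_factorial_mul_factorial a b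
    rw [Nat.choose_symm_add, ← this]; push_cast; ring
  rw [hc, Nat.factorial_succ]
  push_cast
  (clear * -; field_simp)

end

end Vale.Agent.P359
end
end

section

section

/-!
Pair polynomials, the exchange relation, and the energy inequality in channel form.
-/

namespace Vale.Agent.P359

open Finset MvPolynomial

noncomputable section

variable {lam : ℝ} (st : PlanarState lam)

lemma pp_eq (s t : ℕ) :
    pp s t = ∑ ab ∈ antidiagonal (s + 1), pairCoef s ab.1 ab.2 • m4 (t, ab.1, ab.2) := by
  have hy : (y4 : P4) = (1 / 2 : ℝ) • (X 1 + X 2) := by rw [y4, smul_add]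
  rw [pp, hy, smul_pow, mul_smul_comm, diff_mul_pow, smul_sum, sum_mul]
  apply sum_congr rfl
  rintro ⟨a, b⟩ _
  rw [m4_eq, pairCoef, smul_smul, smul_mul_assoc]
  congr 1
  · simp only [one_div, inv_pow]; ring
  · ring

lemma B4_pp (s t : ℕ) (q : ℕ × ℕ × ℕ) : B4 st (pp s t) (m4 q) = pairRow st.g4 s t q := by
  rw [pp_eq, pairRow, map_sum, LinearMap.sum_apply]
  apply sum_congr rfl
  rintro ⟨a, b⟩ _
  rw [map_smul, LinearMap.smul_apply, B4_m4, smul_eq_mul]

lemma B4_pp_swap (s t : ℕ) (q : P4) : B4 st (pp s t) q = B4 st (pp t s) q := by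
  have : B4 st (pp s t) = B4 st (pp t s) := by
    apply lin_ext4; intro q
    rw [B4_pp, B4_pp, st.null4]
  rw [this]

lemma B4_pp_sq (s : ℕ) : B4 st (pp s 0) (pp s 0) = pairSq st.g4 s := by
  have h : B4 st (pp s 0) (pp s 0)
      = B4 st (pp s 0)
          (∑ ab ∈ antidiagonal (s + 1), pairCoef s ab.1 ab.2 • m4 (0, ab.1, ab.2)) := by
    rw [← pp_eq]
  rw [h, pairSq, map_sum]
  apply sum_congr rfl
  rintro ⟨a, b⟩ _
  rw [map_smul, B4_pp, smul_eq_mul]

/-- odd relative pair momenta vanish -/
lemma B4_odd_pair (l : ℕ) (hl : Odd l) (q : P4) : B4 st (w4 * v4 ^ l) q = 0 := by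
  have hv : (v4 : P4) = X 0 + - y4 := by rw [v4, y4]; module
  have hw : (w4 : P4) = (1 / 2 : ℝ) • (X 1 - X 2) := by rw [w4, smul_sub]
  have hexp : (X 1 - X 2) * v4 ^ l
      = ∑ ij ∈ antidiagonal l, ((l.choose ij.1 : ℝ) * (-1) ^ ij.2) • pp ij.2 ij.1 := by
    rw [hv, (Commute.all (X 0 : P4) (-y4)).add_pow', mul_sum]
    apply sum_congr rfl
    rintro ⟨i, j⟩ _
    simp only [pp, nsmul_eq_mul, MvPolynomial.smul_eq_C_mul, map_mul, map_pow, map_neg, map_one,
      map_natCast]
    rw [neg_pow]; ring
  have h1 : B4 st ((X 1 - X 2) * v4 ^ l) q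
      = ∑ ij ∈ antidiagonal l, (l.choose ij.1 : ℝ) * (-1) ^ ij.2 * B4 st (pp ij.2 ij.1) q := by
    rw [hexp, map_sum, LinearMap.sum_apply]
    apply sum_congr rfl; intro ij _
    rw [map_smul, LinearMap.smul_apply, smul_eq_mul]
  have h2 : B4 st ((X 1 - X 2) * v4 ^ l) q = - B4 st ((X 1 - X 2) * v4 ^ l) q := by
    conv_lhs => rw [h1, ← Finset.Nat.sum_antidiagonal_swap]
    conv_rhs => rw [h1]
    rw [← sum_neg_distrib]
    apply sum_congr rfl
    rintro ⟨i, j⟩ hij
    rw [HasAntidiagonal.mem_antidiagonal] at hij
    simp only [Prod.swap_prod_mk] at hij ⊢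
    rw [B4_pp_swap st i j]
    have hc : l.choose j = l.choose i := by rw [← hij]; exact Nat.choose_symm_add.symm
    have hs : (-1 : ℝ) ^ i = - (-1) ^ j := by
      have : (-1 : ℝ) ^ (i + j) = -1 := by rw [hij]; exact hl.neg_one_pow
      have h3 : (-1 : ℝ) ^ j * (-1) ^ j = 1 := by rw [← pow_add, ← two_mul]; simp only [even_two, Even.mul_right, Even.neg_pow, one_pow]
      calc (-1 : ℝ) ^ i = (-1) ^ i * ((-1) ^ j * (-1) ^ j) := by rw [h3, mul_one]
        _ = (-1) ^ (i + j) * (-1) ^ j := by rw [pow_add]; ring
        _ = - (-1) ^ j := by rw [this]; ring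
    rw [hc, hs]; ring
  have h3 : B4 st ((X 1 - X 2) * v4 ^ l) q = 0 := by linarith only [h2]
  rw [hw, smul_mul_assoc, map_smul, LinearMap.smul_apply, h3, smul_zero]

/-! three-body expansions -/

lemma X1_eq : (X 1 : P3) = c3 + (-(2 / 3) : ℝ) • w3 := by rw [c3, w3]; module
lemma X0_eq : (X 0 : P3) = c3 + (1 / 3 : ℝ) • w3 := by rw [c3, w3]; module

lemma pow_expand {A : Type*} [CommRing A] [Algebra ℝ A] (c w : A) (r : ℝ) (n : ℕ) :
    (c + r • w) ^ n = ∑ m ∈ range (n + 1), ((n.choose m : ℝ) * r ^ m) • (c ^ (n - m) * w ^ m) := by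
  rw [add_comm, add_pow]
  apply sum_congr rfl
  intro m _
  rw [smul_pow, smul_mul_assoc, smul_mul_assoc, mul_smul, ← nsmul_eq_mul', ← Nat.cast_smul_eq_nsmul ℝ,
    smul_comm, mul_comm (w ^ m)]

lemma B3_X1 (a c m : ℕ) :
    B3 st (X 1 ^ a) (c3 ^ c * w3 ^ m)
      = if c + m = a then (a.choose m : ℝ) * (-(2 / 3)) ^ m * ((c.factorial : ℝ) / 3 ^ c) * gam st m
        else 0 := by
  rw [X1_eq, pow_expand, map_sum, LinearMap.sum_apply]
  simp only [map_smul, LinearMap.smul_apply, smul_eq_mul, B3_chan]
  split_ifs with h
  · rw [sum_eq_single m]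
    · rw [if_pos ⟨by omega, rfl⟩, show a - m = c by omega]; ring
    · intro b _ hb; rw [if_neg (fun h => hb h.2), mul_zero]
    · intro hm; exact absurd (mem_range.2 (by omega)) hm
  · apply sum_eq_zero; intro b hb
    rw [mem_range] at hb
    rw [if_neg (by rintro ⟨h1, h2⟩; omega), mul_zero]

/-- coefficient of `c^(a+1-m) w^m` in `(c + w/3) (c - 2w/3)^a` -/
def kap1 (a m : ℕ) : ℝ :=
  (a.choose m : ℝ) * (-(2 / 3)) ^ m
    + (if m = 0 then 0 else 1 / 3 * ((a.choose (m - 1) : ℝ) * (-(2 / 3)) ^ (m - 1)))

lemma B3_X0X1 (a c m : ℕ) (h : c + m = a + 1) :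
    B3 st (X 0 * X 1 ^ a) (c3 ^ c * w3 ^ m) = kap1 a m * ((c.factorial : ℝ) / 3 ^ c) * gam st m := by
  have e : (X 0 * X 1 ^ a : P3)
      = ∑ j ∈ range (a + 1), ((a.choose j : ℝ) * (-(2 / 3)) ^ j) • (c3 ^ (a - j + 1) * w3 ^ j)
        + ∑ j ∈ range (a + 1), (1 / 3 * ((a.choose j : ℝ) * (-(2 / 3)) ^ j)) •
            (c3 ^ (a - j) * w3 ^ (j + 1)) := by
    rw [X1_eq, pow_expand]
    conv_lhs => rw [X0_eq]
    rw [mul_sum, ← sum_add_distrib]
    apply sum_congr rfl; intro j _
    simp only [MvPolynomial.smul_eq_C_mul, map_mul]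
    ring
  rw [e, map_add, LinearMap.add_apply, map_sum, map_sum, LinearMap.sum_apply, LinearMap.sum_apply]
  simp only [map_smul, LinearMap.smul_apply, smul_eq_mul, B3_chan]
  have s1 : ∑ j ∈ range (a + 1), (a.choose j : ℝ) * (-(2 / 3)) ^ j *
      (if a - j + 1 = c ∧ j = m then ((a - j + 1).factorial : ℝ) / 3 ^ (a - j + 1) * gam st j else 0)
      = (a.choose m : ℝ) * (-(2 / 3)) ^ m * ((c.factorial : ℝ) / 3 ^ c) * gam st m := by
    by_cases hm : m ≤ a
    · rw [sum_eq_single m]
      · rw [if_pos ⟨by omega, rfl⟩, show a - m + 1 = c by omega]; ring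
      · intro b _ hb; rw [if_neg (fun h => hb h.2), mul_zero]
      · intro hm; exact absurd (mem_range.2 (by omega)) hm
    · rw [Nat.choose_eq_zero_of_lt (by omega : a < m)]
      simp only [Nat.cast_zero, zero_mul]
      apply sum_eq_zero; intro b hb
      rw [mem_range] at hb
      rw [if_neg (by rintro ⟨h1, h2⟩; omega), mul_zero]
  have s2 : ∑ j ∈ range (a + 1), 1 / 3 * ((a.choose j : ℝ) * (-(2 / 3)) ^ j) *
      (if a - j = c ∧ j + 1 = m then ((a - j).factorial : ℝ) / 3 ^ (a - j) * gam st (j + 1) else 0)
      = (if m = 0 then 0 else 1 / 3 * ((a.choose (m - 1) : ℝ) * (-(2 / 3)) ^ (m - 1)))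
        * ((c.factorial : ℝ) / 3 ^ c) * gam st m := by
    by_cases hm : m = 0
    · rw [if_pos hm, zero_mul, zero_mul]
      apply sum_eq_zero; intro b hb
      rw [if_neg (by rintro ⟨h1, h2⟩; omega), mul_zero]
    · rw [if_neg hm, sum_eq_single (m - 1)]
      · rw [if_pos ⟨by omega, by omega⟩, show m - 1 + 1 = m by omega, show a - (m - 1) = c by omega]
        ring
      · intro b _ hb; rw [if_neg (fun h => hb (by omega)), mul_zero]
      · intro hm; exact absurd (mem_range.2 (by omega)) hm
  rw [s1, s2, kap1]; ring

end

end Vale.Agent.P359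
end
end

section

section

/-!
The energy inequality in channel form.
-/

namespace Vale.Agent.P359

open Finset MvPolynomial

noncomputable section

variable {lam : ℝ} (st : PlanarState lam)

/-- normalized three-body channel weights -/
def gh (m : ℕ) : ℝ := gam st m * (2 / 3) ^ m / (m.factorial : ℝ)

lemma gh_nonneg (m : ℕ) : 0 ≤ gh st m := by
  have := gam_nonneg st m
  unfold gh; positivity

lemma gam_eq (m : ℕ) : gam st m = (m.factorial : ℝ) * (3 / 2) ^ m * gh st m := by
  unfold gh
  have h : ((3 : ℝ) / 2) ^ m * (2 / 3) ^ m = 1 := by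
    rw [← mul_pow]; norm_num
  have hf : (m.factorial : ℝ) ≠ 0 := by positivity
  field_simp
  linear_combination (-(gam st m)) * h

/-- pair channel weights -/
def ph (l : ℕ) : ℝ := B4 st (w4 * v4 ^ l) (w4 * v4 ^ l)

lemma ph_nonneg (l : ℕ) : 0 ≤ ph st l := B4_nonneg st _

lemma choose_fact (s m : ℕ) (h : m ≤ s) :
    (s.choose m : ℝ) * ((s - m).factorial : ℝ) * (m.factorial : ℝ) = (s.factorial : ℝ) := by
  have := Nat.choose_mul_factorial_mul_factorial h
  rw [← this]; push_cast; ring

lemma e3_first (s : ℕ) :
    B3 st (X 1 ^ s) (X 0 ^ s) / (s.factorial : ℝ)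
      = ∑ m ∈ range (s + 1), (-1) ^ m * (s.choose m : ℝ) / 3 ^ s * gh st m := by
  have h0 : (X 0 : P3) ^ s
      = ∑ m ∈ range (s + 1), ((s.choose m : ℝ) * (1 / 3) ^ m) • (c3 ^ (s - m) * w3 ^ m) := by
    rw [X0_eq, pow_expand]
  rw [h0, map_sum, sum_div]
  apply sum_congr rfl
  intro m hm
  rw [mem_range] at hm
  rw [map_smul, smul_eq_mul, B3_X1, if_pos (by omega), gam_eq]
  have hc := choose_fact s m (by omega)
  have hs : (s.factorial : ℝ) ≠ 0 := by positivity
  have h3 : (3 : ℝ) ^ s = 3 ^ (s - m) * 3 ^ m := by rw [← pow_add]; congr 1; omega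
  have h4 : ((1 : ℝ) / 3) ^ m * (-(2 / 3)) ^ m * (3 / 2) ^ m = (-1) ^ m / 3 ^ m := by
    rw [← mul_pow, ← mul_pow, ← div_pow]; norm_num
  rw [h3]
  have e : (s.choose m : ℝ) * (1 / 3) ^ m * ((s.choose m : ℝ) * (-(2 / 3)) ^ m *
      (((s - m).factorial : ℝ) / 3 ^ (s - m)) * ((m.factorial : ℝ) * (3 / 2) ^ m * gh st m))
      / (s.factorial : ℝ)
      = (s.choose m : ℝ) * gh st m / 3 ^ (s - m) * ((1 / 3) ^ m * (-(2 / 3)) ^ m * (3 / 2) ^ m)
        * (((s.choose m : ℝ) * ((s - m).factorial : ℝ) * (m.factorial : ℝ)) / (s.factorial : ℝ)) := by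
    ring
  rw [e, h4, hc, div_self hs]
  (clear * -; field_simp)

lemma e3_second (s : ℕ) :
    B3 st (X 1 ^ (s + 1)) (X 0 ^ s * X 1) / (s.factorial : ℝ)
      = ∑ m ∈ range (s + 2), (-1) ^ m * ((s : ℝ) + 1) / 3 ^ (s + 1) *
          ((s.choose m : ℝ) - (if m = 0 then 0 else 2 * (s.choose (m - 1) : ℝ))) * gh st m := by
  have key : ∀ m, m ≤ s + 1 →
      ((s + 1).choose m : ℝ) * (-(2 / 3)) ^ m * (((s + 1 - m).factorial : ℝ) / 3 ^ (s + 1 - m))
        * gam st m / (s.factorial : ℝ) = (-1) ^ m * ((s : ℝ) + 1) / 3 ^ (s + 1) * 3 ^ m * gh st m := by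
    intro m hm
    rw [gam_eq]
    have hc := choose_fact (s + 1) m hm
    have hs : (s.factorial : ℝ) ≠ 0 := by positivity
    have h3 : (3 : ℝ) ^ (s + 1) = 3 ^ (s + 1 - m) * 3 ^ m := by rw [← pow_add]; congr 1; omega
    have h4 : (-(2 / 3) : ℝ) ^ m * (3 / 2) ^ m = (-1) ^ m := by
      rw [← mul_pow]; norm_num
    rw [Nat.factorial_succ] at hc
    push_cast at hc
    have e : ((s + 1).choose m : ℝ) * (-(2 / 3)) ^ m * (((s + 1 - m).factorial : ℝ) / 3 ^ (s + 1 - m))
        * ((m.factorial : ℝ) * (3 / 2) ^ m * gh st m) / (s.factorial : ℝ)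
        = (((s + 1).choose m : ℝ) * ((s + 1 - m).factorial : ℝ) * (m.factorial : ℝ))
          * ((-(2 / 3)) ^ m * (3 / 2) ^ m) * gh st m / 3 ^ (s + 1 - m) / (s.factorial : ℝ) := by
      ring
    rw [e, hc, h4, h3]
    (clear * - hs; field_simp)
  have h0 : (X 0 : P3) ^ s * X 1
      = ∑ m ∈ range (s + 1), ((s.choose m : ℝ) * (1 / 3) ^ m) • (c3 ^ (s + 1 - m) * w3 ^ m)
        + ∑ m ∈ range (s + 1), ((s.choose m : ℝ) * (1 / 3) ^ m * (-(2 / 3))) •
            (c3 ^ (s - m) * w3 ^ (m + 1)) := by
    rw [X0_eq, pow_expand, X1_eq, sum_mul, ← sum_add_distrib]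
    apply sum_congr rfl; intro m hm
    rw [mem_range] at hm
    rw [show s + 1 - m = (s - m) + 1 by omega]
    simp only [MvPolynomial.smul_eq_C_mul, map_mul]
    ring
  rw [h0, map_add, map_sum, map_sum, add_div, sum_div, sum_div]
  have t1 : ∑ m ∈ range (s + 1), B3 st (X 1 ^ (s + 1))
        (((s.choose m : ℝ) * (1 / 3) ^ m) • (c3 ^ (s + 1 - m) * w3 ^ m)) / (s.factorial : ℝ)
      = ∑ m ∈ range (s + 2), (-1) ^ m * ((s : ℝ) + 1) / 3 ^ (s + 1) * (s.choose m : ℝ) * gh st m := by
    rw [sum_range_succ _ (s + 1), Nat.choose_succ_self, Nat.cast_zero, mul_zero, zero_mul, add_zero]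
    apply sum_congr rfl; intro m hm
    rw [mem_range] at hm
    rw [map_smul, smul_eq_mul, B3_X1, if_pos (by omega)]
    have := key m (by omega)
    have h5 : ((1 : ℝ) / 3) ^ m * 3 ^ m = 1 := by rw [← mul_pow]; norm_num
    calc _ = (s.choose m : ℝ) * (1 / 3) ^ m * (((s + 1).choose m : ℝ) * (-(2 / 3)) ^ m
          * (((s + 1 - m).factorial : ℝ) / 3 ^ (s + 1 - m)) * gam st m / (s.factorial : ℝ)) := by ring
      _ = (s.choose m : ℝ) * ((1 / 3) ^ m * 3 ^ m) * ((-1) ^ m * ((s : ℝ) + 1) / 3 ^ (s + 1)
          * gh st m) := by rw [this]; ring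
      _ = _ := by rw [h5]; ring
  have t2 : ∑ m ∈ range (s + 1), B3 st (X 1 ^ (s + 1))
        (((s.choose m : ℝ) * (1 / 3) ^ m * (-(2 / 3))) • (c3 ^ (s - m) * w3 ^ (m + 1)))
          / (s.factorial : ℝ)
      = - ∑ m ∈ range (s + 2), (-1) ^ m * ((s : ℝ) + 1) / 3 ^ (s + 1) *
          (if m = 0 then 0 else 2 * (s.choose (m - 1) : ℝ)) * gh st m := by
    rw [sum_range_succ' _ (s + 1), if_pos rfl, mul_zero, zero_mul, add_zero, ← sum_neg_distrib]
    apply sum_congr rfl; intro m hm
    rw [mem_range] at hm
    rw [map_smul, smul_eq_mul, B3_X1, if_pos (by omega), if_neg (by omega), Nat.add_sub_cancel]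
    have := key (m + 1) (by omega)
    rw [show s + 1 - (m + 1) = s - m by omega] at this
    have h5 : ((1 : ℝ) / 3) ^ m * 3 ^ (m + 1) = 3 := by
      rw [pow_succ, ← mul_assoc, ← mul_pow]; norm_num
    calc _ = (s.choose m : ℝ) * (1 / 3) ^ m * (-(2 / 3)) * (((s + 1).choose (m + 1) : ℝ)
          * (-(2 / 3)) ^ (m + 1) * (((s - m).factorial : ℝ) / 3 ^ (s - m)) * gam st (m + 1)
            / (s.factorial : ℝ)) := by ring
      _ = (s.choose m : ℝ) * (-(2 / 3)) * ((1 / 3) ^ m * 3 ^ (m + 1)) *
          ((-1) ^ (m + 1) * ((s : ℝ) + 1) / 3 ^ (s + 1) * gh st (m + 1)) := by rw [this]; ring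
      _ = _ := by rw [h5]; ring
  rw [t1, t2, ← sub_eq_add_neg, ← sum_sub_distrib]
  apply sum_congr rfl; intro m _; ring

lemma e4_first (s : ℕ) :
    (2 : ℝ) ^ s / (s.factorial : ℝ) * (1 / 4) * B4 st (pp s 0) (pp s 0)
      = ∑ l ∈ range (s + 1), (s.choose l : ℝ) / 2 ^ s / (l.factorial : ℝ) * ph st l := by
  have h0 : (pp s 0 : P4)
      = ∑ l ∈ range (s + 1), (2 * ((s.choose l : ℝ) * (-(1 / 2)) ^ l)) •
          (c4 ^ (s - l) * (w4 * v4 ^ l)) := by
    have hy : (y4 : P4) = c4 + (-(1 / 2) : ℝ) • v4 := by rw [y4, c4, v4]; module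
    have hx : (X 1 - X 2 : P4) = (2 : ℝ) • w4 := by rw [w4]; module
    rw [pp, hy, pow_expand, hx, pow_zero, mul_one, mul_sum]
    apply sum_congr rfl; intro l _
    simp only [MvPolynomial.smul_eq_C_mul, map_mul]
    ring
  have hdl : ∀ l, dl4 (w4 * v4 ^ l) = 0 := by
    intro l
    rw [Derivation.leibniz, Derivation.leibniz_pow, dl4_v4, dl4_w4]; simp only [smul_eq_mul, mul_zero, nsmul_zero, add_zero]
  have hh : ∀ l l', l ≠ l' → B4 st (w4 * v4 ^ l) (w4 * v4 ^ l') = 0 := by
    intro l l' hne
    have hv : (v4 : P4).IsHomogeneous 1 := by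
      have h1 : ((1 / 2 : ℝ) • X 1 : P4).IsHomogeneous 1 := by
        rw [MvPolynomial.smul_eq_C_mul]
        simpa only [one_div, Fin.isValue, zero_add] using     (isHomogeneous_C (Fin 3) (1 / 2 : ℝ)).mul (isHomogeneous_X ℝ (1 : Fin 3))
      have h2 : ((1 / 2 : ℝ) • X 2 : P4).IsHomogeneous 1 := by
        rw [MvPolynomial.smul_eq_C_mul]
        simpa only [one_div, Fin.isValue, zero_add] using     (isHomogeneous_C (Fin 3) (1 / 2 : ℝ)).mul (isHomogeneous_X ℝ (2 : Fin 3))
      exact ((isHomogeneous_X ℝ 0).sub h1).sub h2
    have hw : (w4 : P4).IsHomogeneous 1 := by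
      have h1 : ((1 / 2 : ℝ) • X 1 : P4).IsHomogeneous 1 := by
        rw [MvPolynomial.smul_eq_C_mul]
        simpa only [one_div, Fin.isValue, zero_add] using     (isHomogeneous_C (Fin 3) (1 / 2 : ℝ)).mul (isHomogeneous_X ℝ (1 : Fin 3))
      have h2 : ((1 / 2 : ℝ) • X 2 : P4).IsHomogeneous 1 := by
        rw [MvPolynomial.smul_eq_C_mul]
        simpa only [one_div, Fin.isValue, zero_add] using     (isHomogeneous_C (Fin 3) (1 / 2 : ℝ)).mul (isHomogeneous_X ℝ (2 : Fin 3))
      exact h1.sub h2
    apply B4_deg st (hw.mul (hv.pow l)) (hw.mul (hv.pow l'))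
    omega
  rw [h0, map_sum, mul_sum]
  apply sum_congr rfl
  intro l hl
  rw [mem_range] at hl
  rw [map_sum, LinearMap.sum_apply, sum_eq_single l]
  · rw [map_smul, map_smul, LinearMap.smul_apply, smul_eq_mul, smul_eq_mul,
      B4_channel st _ _ (hdl l) (hdl l), if_pos rfl]
    change _ = (s.choose l : ℝ) / 2 ^ s / (l.factorial : ℝ) * B4 st (w4 * v4 ^ l) (w4 * v4 ^ l)
    have hc := choose_fact s l (by omega)
    have hs : (s.factorial : ℝ) ≠ 0 := by positivity
    have hl' : (l.factorial : ℝ) ≠ 0 := by positivity
    have h3 : (4 : ℝ) ^ s = 4 ^ (s - l) * 4 ^ l := by rw [← pow_add]; congr 1; omega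
    have h4 : (4 : ℝ) ^ s = 2 ^ s * 2 ^ s := by rw [← mul_pow]; norm_num
    have h5 : (-(1 / 2) : ℝ) ^ l * (-(1 / 2)) ^ l * 4 ^ l = 1 := by
      rw [← mul_pow, ← mul_pow]; norm_num
    have h6 : (1 : ℝ) / 4 ^ (s - l) = 4 ^ l / (2 ^ s * 2 ^ s) := by
      rw [← h4, h3]; field_simp
    calc _ = (2 : ℝ) ^ s * (s.choose l : ℝ) * ((-(1 / 2) : ℝ) ^ l * (-(1 / 2)) ^ l) *
          (1 / 4 ^ (s - l)) * ((s.choose l : ℝ) * ((s - l).factorial : ℝ) * (l.factorial : ℝ))
            / (s.factorial : ℝ) / (l.factorial : ℝ)
            * B4 st (w4 * v4 ^ l) (w4 * v4 ^ l) := by field_simp; ring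
      _ = (2 : ℝ) ^ s * (s.choose l : ℝ) * ((-(1 / 2) : ℝ) ^ l * (-(1 / 2)) ^ l * 4 ^ l) /
          (2 ^ s * 2 ^ s) / (l.factorial : ℝ) * B4 st (w4 * v4 ^ l) (w4 * v4 ^ l) := by
            rw [h6, hc]; field_simp
      _ = _ := by rw [h5]; field_simp
  · intro l' _ hne
    rw [map_smul, map_smul, LinearMap.smul_apply, B4_channel st _ _ (hdl l') (hdl l),
      hh l' l hne]
    simp only [one_div, mul_zero, ite_self, smul_eq_mul]
  · intro h; exact absurd (mem_range.2 hl) h

end

end Vale.Agent.P359
end
end

section

section

/-!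
List encodings of homogeneous binary forms, and the four-body expansions.
-/

namespace Vale.Agent.P359

open Finset MvPolynomial

/-- multiply the coefficient list (with carry `p`) by `x + r y` -/
def mulLin (r : ℤ) : ℤ → List ℤ → List ℤ
  | p, [] => [r * p]
  | p, a :: l => (a + r * p) :: mulLin r a l

/-- coefficients of `(x + r y)^a (x + s y)^c` in `x^(a+c-k) y^k` -/
def thl (r s : ℤ) : ℕ → ℕ → List ℤ
  | 0, 0 => [1]
  | 0, c + 1 => mulLin s 0 (thl r s 0 c)
  | a + 1, c => mulLin r 0 (thl r s a c)

lemma mulLin_length (r : ℤ) (p : ℤ) (l : List ℤ) : (mulLin r p l).length = l.length + 1 := by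
  induction l generalizing p with
  | nil => simp [mulLin]
  | cons a l ih => simp [mulLin, ih]

lemma thl_length (r s : ℤ) (a c : ℕ) : (thl r s a c).length = a + c + 1 := by
  induction a with
  | zero =>
    induction c with
    | zero => simp [thl]
    | succ c ih => rw [thl, mulLin_length, ih]; omega
  | succ a ih => rw [thl, mulLin_length, ih]; omega

noncomputable section

/-- `∑_k l_k x^(len-1-k) y^k` -/
def evH {A : Type*} [CommRing A] (x y : A) : List ℤ → A
  | [] => 0
  | a :: l => (a : A) * x ^ l.length + y * evH x y l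

lemma evH_mulLin {A : Type*} [CommRing A] (x y : A) (r p : ℤ) (l : List ℤ) :
    evH x y (mulLin r p l) = (x + r * y) * evH x y l + r * p * x ^ l.length := by
  induction l generalizing p with
  | nil => simp only [mulLin, evH, Int.cast_mul, List.length_nil, pow_zero, mul_one, mul_zero, add_zero, zero_add]
  | cons a l ih =>
    simp only [mulLin, evH, ih, mulLin_length, List.length_cons, Int.cast_add, Int.cast_mul]
    ring

lemma evH_thl {A : Type*} [CommRing A] (x y : A) (r s : ℤ) (a c : ℕ) :
    evH x y (thl r s a c) = (x + r * y) ^ a * (x + s * y) ^ c := by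
  induction a with
  | zero =>
    induction c with
    | zero => simp [thl, evH]
    | succ c ih => rw [thl, evH_mulLin, ih]; simp only [pow_zero, one_mul, Int.cast_zero, mul_zero, zero_mul, add_zero]; ring
  | succ a ih => rw [thl, evH_mulLin, ih]; simp only [Int.cast_zero, mul_zero, zero_mul, add_zero]; ring

lemma evH_eq_sum {A : Type*} [CommRing A] (x y : A) (l : List ℤ) :
    evH x y l = ∑ k ∈ range l.length, (l.getD k 0 : A) * (x ^ (l.length - 1 - k) * y ^ k) := by
  induction l with
  | nil => simp only [evH, List.length_nil, range_zero, List.getD_eq_getElem?_getD, not_lt_zero, not_false_eq_true, getElem?_neg, Option.getD_none, Int.cast_zero, zero_tsub, pow_zero, one_mul, zero_mul, sum_const_zero]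
  | cons a l ih =>
    rw [evH, ih, List.length_cons, sum_range_succ']
    simp only [List.getD_cons_zero, List.getD_cons_succ, pow_zero, mul_one, Nat.add_sub_cancel,
      Nat.sub_zero]
    rw [add_comm, mul_sum]
    congr 1
    apply sum_congr rfl
    intro k hk
    rw [mem_range] at hk
    rw [show l.length - (k + 1) = l.length - 1 - k by omega, pow_succ]
    ring

variable {lam : ℝ} (st : PlanarState lam)

/-- `(v + 2 w') / 6` -/
def uh : P4 := (1 / 6 : ℝ) • v4 + (1 / 3 : ℝ) • w4

lemma X2_eq : (X 2 : P4) = c4 + ((-3 : ℤ) : P4) * uh := by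
  have : ((-3 : ℤ) : P4) * uh = (-3 : ℝ) • uh := by
    rw [MvPolynomial.smul_eq_C_mul]; congr 1; push_cast; simp only [C_neg, map_ofNat]
  rw [this, c4, uh, v4, w4]; module

lemma emb_c3 : emb c3 = c4 + ((1 : ℤ) : P4) * uh := by
  have : ((1 : ℤ) : P4) * uh = (1 : ℝ) • uh := by simp
  rw [this, c3, map_add, map_smul, map_smul, emb_X0, emb_X1, c4, uh, v4, w4]; module

lemma emb_w3 : emb w3 = v4 - w4 := by
  rw [w3, map_sub, emb_X0, emb_X1, v4, w4]; module

lemma dl4_uh : dl4 uh = 0 := by
  rw [uh, map_add, Derivation.map_smul, Derivation.map_smul, dl4_v4, dl4_w4]; simp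

/-- relative four-body polynomials `uh^n (v - w')^m` -/
def rel (n m : ℕ) : P4 := uh ^ n * (v4 - w4) ^ m

lemma dl4_rel (n m : ℕ) : dl4 (rel n m) = 0 := by
  rw [rel, Derivation.leibniz, Derivation.leibniz_pow, Derivation.leibniz_pow, dl4_uh, map_sub,
    dl4_v4, dl4_w4]; simp only [sub_self, smul_eq_mul, mul_zero, nsmul_zero, add_zero]

/-- the generator polynomial `c^(k) w^m` -/
def gen (c m : ℕ) : P3 := c3 ^ c * w3 ^ m

lemma gen_expand (a c m : ℕ) :
    X 2 ^ a * emb (gen c m) = ∑ k ∈ range (a + c + 1),
      ((thl (-3) 1 a c).getD k 0 : ℝ) • (c4 ^ (a + c - k) * rel k m) := by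
  have h := evH_thl (c4 : P4) uh (-3) 1 a c
  rw [gen, map_mul, map_pow, map_pow, emb_w3, X2_eq, emb_c3, ← mul_assoc, ← h, evH_eq_sum,
    thl_length, Nat.add_sub_cancel, sum_mul]
  apply sum_congr rfl
  intro k _
  rw [MvPolynomial.smul_eq_C_mul, map_intCast, rel]
  ring

/-- the level coefficient of the pairing of two generators; `T = c + m + a'` -/
def lev (T e m m' a c a' c' : ℕ) : ℝ :=
  if m ≤ e ∧ m' ≤ e then
    ((thl (-3) 1 a' c).getD (e - m) 0 : ℝ) * ((thl (-3) 1 a c').getD (e - m') 0 : ℝ)
      * (((T - e).factorial : ℝ) / 4 ^ (T - e))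
  else 0

lemma getD_big (r s : ℤ) (a c k : ℕ) (h : a + c < k) : (thl r s a c).getD k 0 = 0 := by
  rw [List.getD_eq_getElem?_getD, List.getElem?_eq_none (by rw [thl_length]; omega)]; rfl

/-- pairing of `y^{a'} gen c m` and `y^a gen c' m'` where `c + m + a' = c' + m' + a = T` -/
lemma B4_gen (T E a c m a' c' m' : ℕ) (h : c + m + a' = T) (h' : c' + m' + a = T) (hE : T ≤ E) :
    B4 st (X 2 ^ a' * emb (gen c m)) (X 2 ^ a * emb (gen c' m'))
      = ∑ e ∈ range (E + 1), lev T e m m' a c a' c' * B4 st (rel (e - m) m) (rel (e - m') m') := by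
  rw [gen_expand, gen_expand]
  -- expand the double sum
  have step1 : B4 st
      (∑ k ∈ range (a' + c + 1), ((thl (-3) 1 a' c).getD k 0 : ℝ) • (c4 ^ (a' + c - k) * rel k m))
      (∑ k ∈ range (a + c' + 1), ((thl (-3) 1 a c').getD k 0 : ℝ) • (c4 ^ (a + c' - k) * rel k m'))
      = ∑ k ∈ range (a' + c + 1), ∑ k' ∈ range (a + c' + 1),
          if a' + c - k = a + c' - k' then
            ((thl (-3) 1 a' c).getD k 0 : ℝ) * ((thl (-3) 1 a c').getD k' 0 : ℝ)
              * (((a' + c - k).factorial : ℝ) / 4 ^ (a' + c - k)) * B4 st (rel k m) (rel k' m')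
          else 0 := by
    rw [map_sum (B4 st), LinearMap.sum_apply]
    apply sum_congr rfl; intro k _
    rw [map_sum]
    apply sum_congr rfl; intro k' _
    rw [map_smul, map_smul, LinearMap.smul_apply, smul_eq_mul, smul_eq_mul,
      B4_channel st _ _ (dl4_rel k m) (dl4_rel k' m')]
    split_ifs <;> ring
  rw [step1]
  -- inner sum: only k' with m' + k' = m + k
  have step2 : ∀ k ∈ range (a' + c + 1), (∑ k' ∈ range (a + c' + 1),
          if a' + c - k = a + c' - k' then
            ((thl (-3) 1 a' c).getD k 0 : ℝ) * ((thl (-3) 1 a c').getD k' 0 : ℝ)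
              * (((a' + c - k).factorial : ℝ) / 4 ^ (a' + c - k)) * B4 st (rel k m) (rel k' m')
          else 0)
      = lev T (m + k) m m' a c a' c' * B4 st (rel (m + k - m) m) (rel (m + k - m') m') := by
    intro k hk
    rw [mem_range] at hk
    unfold lev
    by_cases hm : m' ≤ m + k
    · rw [if_pos ⟨by omega, hm⟩, sum_eq_single (m + k - m')]
      · rw [if_pos (by omega), Nat.add_sub_cancel_left, show T - (m + k) = a' + c - k by omega]
      · intro k' hk' hne
        rw [mem_range] at hk'
        rw [if_neg (by omega)]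
      · intro hn
        rw [mem_range] at hn
        omega
    · rw [if_neg (fun hh => hm hh.2), zero_mul]
      apply sum_eq_zero; intro k' hk'
      rw [mem_range] at hk'
      rw [if_neg (by omega)]
  rw [sum_congr rfl step2]
  -- reindex e = m + k
  symm
  have hsub : ∀ e ∈ range (E + 1), e ∉ (range (a' + c + 1)).image (fun k => m + k) →
      lev T e m m' a c a' c' * B4 st (rel (e - m) m) (rel (e - m') m') = 0 := by
    intro e he hne
    unfold lev
    split_ifs with hc
    · have : a' + c < e - m := by
        by_contra hcon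
        apply hne
        rw [mem_image]
        exact ⟨e - m, mem_range.2 (by omega), by omega⟩
      rw [getD_big _ _ _ _ _ this]; simp only [Int.cast_zero, Int.reduceNeg, List.getD_eq_getElem?_getD, zero_mul]
    · rw [zero_mul]
  rw [← sum_subset (s₁ := (range (a' + c + 1)).image (fun k => m + k)) _ hsub, sum_image]
  · intro x _ y _ hxy; simpa using hxy
  · intro e he
    rw [mem_image] at he
    obtain ⟨k, hk, rfl⟩ := he
    rw [mem_range] at hk ⊢
    omega

end

end Vale.Agent.P359
end
end

section

section

/-!
Crossing positivity for lists of generators, null relations, level forms.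
-/

namespace Vale.Agent.P359

open Finset MvPolynomial

/-- list sum -/
def lsum {α R : Type*} [AddCommMonoid R] (l : List α) (f : α → R) : R := (l.map f).sum

section lsum
variable {α β R : Type*}

@[simp] lemma lsum_nil [AddCommMonoid R] (f : α → R) : lsum [] f = 0 := rfl
@[simp] lemma lsum_cons [AddCommMonoid R] (a : α) (l : List α) (f : α → R) :
    lsum (a :: l) f = f a + lsum l f := by simp [lsum]

lemma lsum_append [AddCommMonoid R] (l l' : List α) (f : α → R) :
    lsum (l ++ l') f = lsum l f + lsum l' f := by simp [lsum]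

lemma lsum_congr [AddCommMonoid R] (l : List α) (f g : α → R) (h : ∀ x ∈ l, f x = g x) :
    lsum l f = lsum l g := by
  unfold lsum; rw [List.map_congr_left h]

lemma lsum_add [AddCommMonoid R] (l : List α) (f g : α → R) :
    lsum l (fun x => f x + g x) = lsum l f + lsum l g := by
  induction l with
  | nil => simp
  | cons a l ih => simp only [lsum_cons, ih]; abel

lemma lsum_mul_left [NonUnitalNonAssocSemiring R] (l : List α) (c : R) (f : α → R) :
    lsum l (fun x => c * f x) = c * lsum l f := by
  induction l with
  | nil => simp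
  | cons a l ih => simp [ih, mul_add]

lemma lsum_mul_right [NonUnitalNonAssocSemiring R] (l : List α) (c : R) (f : α → R) :
    lsum l (fun x => f x * c) = lsum l f * c := by
  induction l with
  | nil => simp
  | cons a l ih => simp [ih, add_mul]

lemma lsum_sum [AddCommMonoid R] {ι : Type*} (s : Finset ι) (l : List α) (f : ι → α → R) :
    ∑ i ∈ s, lsum l (f i) = lsum l (fun x => ∑ i ∈ s, f i x) := by
  induction l with
  | nil => simp
  | cons a l ih => simp [ih, sum_add_distrib]

lemma lsum_comm [AddCommMonoid R] (l : List α) (l' : List β) (f : α → β → R) :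
    lsum l (fun x => lsum l' (f x)) = lsum l' (fun y => lsum l (fun x => f x y)) := by
  induction l with
  | nil => induction l' with
    | nil => simp
    | cons b l' ih => simpa only [lsum_cons, lsum_nil, zero_add] using ih
  | cons a l ih => simp [ih, lsum_add]

lemma lsum_zero [AddCommMonoid R] (l : List α) : lsum l (fun _ => (0 : R)) = 0 := by
  induction l with
  | nil => simp
  | cons a l ih => simp [ih]

lemma map_lsum {M N F : Type*} [AddCommMonoid M] [AddCommMonoid N] [FunLike F M N]
    [AddMonoidHomClass F M N] (g : F) (l : List α) (f : α → M) :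
    g (lsum l f) = lsum l (fun x => g (f x)) := by
  induction l with
  | nil => simp
  | cons a l ih => simp only [lsum_cons, map_add, ih]

lemma lsum_map [AddCommMonoid R] (l : List α) (h : α → β) (f : β → R) :
    lsum (l.map h) f = lsum l (fun x => f (h x)) := by
  induction l with
  | nil => simp
  | cons a l ih => simp [ih]

lemma lsum_range_flatMap [AddCommMonoid R] (n : ℕ) (h : ℕ → List β) (f : β → R) :
    lsum ((List.range n).flatMap h) f = ∑ m ∈ range n, lsum (h m) f := by
  induction n with
  | zero => simp
  | succ n ih =>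
    rw [List.range_succ, List.flatMap_append, lsum_append, ih, sum_range_succ]
    simp


end lsum

noncomputable section

variable {lam : ℝ} (st : PlanarState lam)

lemma sum_range_ite_lsum {R : Type*} [AddCommMonoid R] (n : ℕ) (gs : List (ℕ × P3))
    (hgs : ∀ g ∈ gs, g.1 < n) (f : ℕ → ℕ × P3 → R) :
    ∑ a ∈ range n, lsum gs (fun g => if g.1 = a then f a g else 0) = lsum gs (fun g => f g.1 g) := by
  rw [lsum_sum]
  apply lsum_congr
  intro g hg
  rw [sum_ite_eq, if_pos (mem_range.2 (hgs g hg))]

/-- crossing positivity for a list of generators `(a, p)` -/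
lemma posV_list (D : ℕ) (al : ℝ) (n : ℕ) (gs : List (ℕ × P3)) (hgs : ∀ g ∈ gs, g.1 < n) :
    0 ≤ al ^ 2 * ((D.factorial : ℝ) / 2 ^ D)
      + 2 * al * lsum gs (fun g => B3 st (X 0 ^ D * X 1 ^ g.1) g.2 / (g.1.factorial : ℝ))
      + lsum gs (fun g => lsum gs fun g' =>
          if g.1 = g'.1 then B3 st g.2 g'.2 / (g.1.factorial : ℝ) else 0)
      - lsum gs (fun g => lsum gs fun g' =>
          B4 st (X 2 ^ g'.1 * emb g.2) (X 2 ^ g.1 * emb g'.2)
            / ((g.1.factorial : ℝ) * (g'.1.factorial : ℝ))) := by
  have h := posV' st D al (range n) (fun a => lsum gs (fun g => if g.1 = a then g.2 else 0))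
  have e1 : ∑ a ∈ range n, B3 st (X 0 ^ D * X 1 ^ a)
      (lsum gs (fun g => if g.1 = a then g.2 else 0)) / (a.factorial : ℝ)
      = lsum gs (fun g => B3 st (X 0 ^ D * X 1 ^ g.1) g.2 / (g.1.factorial : ℝ)) := by
    rw [← sum_range_ite_lsum n gs hgs
      (fun a g => B3 st (X 0 ^ D * X 1 ^ a) g.2 / (a.factorial : ℝ))]
    apply sum_congr rfl; intro a _
    rw [map_lsum, div_eq_mul_inv, ← lsum_mul_right]
    apply lsum_congr; intro g _
    split_ifs <;> simp [div_eq_mul_inv]
  have e2 : ∑ a ∈ range n, B3 st (lsum gs (fun g => if g.1 = a then g.2 else 0))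
      (lsum gs (fun g => if g.1 = a then g.2 else 0)) / (a.factorial : ℝ)
      = lsum gs (fun g => lsum gs fun g' =>
          if g.1 = g'.1 then B3 st g.2 g'.2 / (g.1.factorial : ℝ) else 0) := by
    rw [← sum_range_ite_lsum n gs hgs
      (fun a g => lsum gs fun g' => if a = g'.1 then B3 st g.2 g'.2 / (a.factorial : ℝ) else 0)]
    apply sum_congr rfl; intro a _
    rw [map_lsum (B3 st)]
    have : (lsum gs fun x => B3 st (if x.1 = a then x.2 else 0))
        (lsum gs fun g => if g.1 = a then g.2 else 0)
        = lsum gs fun x => B3 st (if x.1 = a then x.2 else 0)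
          (lsum gs fun g => if g.1 = a then g.2 else 0) :=
      map_lsum (LinearMap.applyₗ (lsum gs fun g => if g.1 = a then g.2 else 0)) _ _
    rw [this, div_eq_mul_inv, ← lsum_mul_right]
    apply lsum_congr; intro g _
    rw [map_lsum, ← lsum_mul_right]
    split_ifs with h1
    · apply lsum_congr; intro g' _
      by_cases h2 : g'.1 = a
      · rw [if_pos h2, if_pos h2.symm]; simp [div_eq_mul_inv]
      · rw [if_neg h2, if_neg (Ne.symm h2)]; simp only [map_zero, zero_mul]
    · have : (fun x : ℕ × P3 => B3 st (0 : P3) (if x.1 = a then x.2 else 0)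
          * ((a.factorial : ℝ))⁻¹) = fun _ => 0 := by
        funext x; simp only [map_zero, LinearMap.zero_apply, zero_mul]
      rw [this, lsum_zero]
  have e3 : ∑ a ∈ range n, ∑ a' ∈ range n,
      B4 st (X 2 ^ a' * emb (lsum gs (fun g => if g.1 = a then g.2 else 0)))
        (X 2 ^ a * emb (lsum gs (fun g => if g.1 = a' then g.2 else 0)))
          / ((a.factorial : ℝ) * (a'.factorial : ℝ))
      = lsum gs (fun g => lsum gs fun g' =>
          B4 st (X 2 ^ g'.1 * emb g.2) (X 2 ^ g.1 * emb g'.2)
            / ((g.1.factorial : ℝ) * (g'.1.factorial : ℝ))) := by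
    have key : ∀ a a', B4 st (X 2 ^ a' * emb (lsum gs (fun g => if g.1 = a then g.2 else 0)))
        (X 2 ^ a * emb (lsum gs (fun g => if g.1 = a' then g.2 else 0)))
          / ((a.factorial : ℝ) * (a'.factorial : ℝ))
        = lsum gs (fun g => lsum gs fun g' => if g.1 = a then (if g'.1 = a' then
            B4 st (X 2 ^ a' * emb g.2) (X 2 ^ a * emb g'.2)
              / ((a.factorial : ℝ) * (a'.factorial : ℝ)) else 0) else 0) := by
      intro a a'
      have f1 : X 2 ^ a' * emb (lsum gs (fun g => if g.1 = a then g.2 else 0))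
          = lsum gs (fun g => if g.1 = a then X 2 ^ a' * emb g.2 else 0) := by
        rw [map_lsum, ← lsum_mul_left]
        apply lsum_congr; intro g _; split_ifs <;> simp
      have f2 : X 2 ^ a * emb (lsum gs (fun g => if g.1 = a' then g.2 else 0))
          = lsum gs (fun g => if g.1 = a' then X 2 ^ a * emb g.2 else 0) := by
        rw [map_lsum, ← lsum_mul_left]
        apply lsum_congr; intro g _; split_ifs <;> simp
      rw [f1, f2, map_lsum (B4 st)]
      have : ∀ q : P4, (lsum gs fun x => B4 st (if x.1 = a then X 2 ^ a' * emb x.2 else 0)) q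
          = lsum gs fun x => B4 st (if x.1 = a then X 2 ^ a' * emb x.2 else 0) q :=
        fun q => map_lsum (LinearMap.applyₗ q) _ _
      rw [this, div_eq_mul_inv, ← lsum_mul_right]
      apply lsum_congr; intro g _
      rw [map_lsum, ← lsum_mul_right]
      apply lsum_congr; intro g' _
      split_ifs <;> simp [div_eq_mul_inv]
    rw [sum_congr rfl fun a _ => sum_congr rfl fun a' _ => key a a']
    rw [sum_congr rfl fun a _ => lsum_sum _ _ _, lsum_sum]
    apply lsum_congr; intro g hg
    rw [sum_congr rfl fun a _ => lsum_sum _ _ _, lsum_sum]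
    apply lsum_congr; intro g' hg'
    have hg1 := hgs g hg
    have hg2 := hgs g' hg'
    rw [sum_eq_single g.1, sum_eq_single g'.1]
    · rw [if_pos rfl, if_pos rfl]
    · intro b _ hb; rw [if_pos rfl, if_neg (Ne.symm hb)]
    · intro hb; exact absurd (mem_range.2 hg2) hb
    · intro b _ hb
      apply sum_eq_zero; intro c _; rw [if_neg (Ne.symm hb)]
    · intro hb; exact absurd (mem_range.2 hg1) hb
  rw [e1, e2, e3] at h
  exact h

lemma uh_eq : (uh : P4) = (1 / 4 : ℝ) • (emb c3 - X 2) := by
  rw [X2_eq, emb_c3]
  simp only [MvPolynomial.smul_eq_C_mul]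
  push_cast
  have h : (C (1 / 4) : P4) * 4 = 1 := by
    rw [show (4 : P4) = C (4 : ℝ) by simp [map_ofNat], ← C_mul]; norm_num
  linear_combination (-uh) * h

/-- null relations from the vanishing three-body channels -/
lemma rel_null (n m : ℕ) (hm : gam st m = 0) (q : P4) : B4 st (rel n m) q = 0 := by
  have h1 : (rel n m : P4) = ∑ j ∈ range (n + 1),
      ((1 / 4 : ℝ) ^ n * ((n.choose j : ℝ) * (-1) ^ (n - j))) • (X 2 ^ (n - j) * emb (gen j m)) := by
    rw [rel, uh_eq, smul_pow, sub_eq_add_neg, add_pow, smul_mul_assoc, sum_mul, smul_sum]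
    apply sum_congr rfl; intro j _
    rw [gen, map_mul, map_pow, map_pow, emb_w3, neg_pow]
    simp only [MvPolynomial.smul_eq_C_mul, map_mul, map_pow, map_natCast, map_neg, map_one]
    ring
  rw [h1, map_sum, LinearMap.sum_apply]
  apply sum_eq_zero; intro j _
  rw [map_smul, LinearMap.smul_apply, null_emb, smul_zero]
  rw [gen, B3_chan, if_pos ⟨rfl, rfl⟩, hm, mul_zero]

/-- integer relative vectors `(v + 2 w')^n (v - w')^m` -/
def psi (n m : ℕ) : P4 := evH v4 w4 (thl 2 (-1) n m)

lemma rel_psi (n m : ℕ) : (rel n m : P4) = (1 / 6 : ℝ) ^ n • psi n m := by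
  have h : (uh : P4) = (1 / 6 : ℝ) • (v4 + ((2 : ℤ) : P4) * w4) := by
    rw [uh]
    have : ((2 : ℤ) : P4) * w4 = (2 : ℝ) • w4 := by
      rw [MvPolynomial.smul_eq_C_mul]; congr 1
    rw [this]; module
  rw [rel, psi, evH_thl, h, smul_pow, smul_mul_assoc]
  have h2 : (v4 - w4 : P4) = v4 + ((-1 : ℤ) : P4) * w4 := by
    rw [Int.cast_neg, Int.cast_one]; ring
  rw [h2]

lemma psi_null (n m : ℕ) (hm : gam st m = 0) (q : P4) : B4 st (psi n m) q = 0 := by
  have h := rel_null st n m hm q
  rw [rel_psi, map_smul, LinearMap.smul_apply, smul_eq_mul] at h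
  rcases mul_eq_zero.1 h with h | h
  · exact absurd h (by positivity)
  · exact h

/-- the basis vector with `w'`-power `2 i + 1` at level `e` -/
def pb (e i : ℕ) : P4 := w4 ^ (2 * i + 1) * v4 ^ (e - (2 * i + 1))

/-- expansion of a coefficient list at level `e` in the odd basis -/
lemma B4_evH (e : ℕ) (l : List ℤ) (hl : l.length = e + 1) (q : P4) :
    B4 st (evH v4 w4 l) q
      = ∑ i ∈ range ((e + 1) / 2), (l.getD (2 * i + 1) 0 : ℝ) * B4 st (pb e i) q := by
  rw [evH_eq_sum, hl, Nat.add_sub_cancel, map_sum, LinearMap.sum_apply]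
  have h1 : ∀ k ∈ range (e + 1), B4 st ((l.getD k 0 : P4) * (v4 ^ (e - k) * w4 ^ k)) q
      = (l.getD k 0 : ℝ) * B4 st (w4 ^ k * v4 ^ (e - k)) q := by
    intro k _
    have : ((l.getD k 0 : ℤ) : P4) * (v4 ^ (e - k) * w4 ^ k)
        = ((l.getD k 0 : ℤ) : ℝ) • (w4 ^ k * v4 ^ (e - k)) := by
      rw [MvPolynomial.smul_eq_C_mul, map_intCast]; ring
    rw [this, map_smul, LinearMap.smul_apply, smul_eq_mul]
  rw [sum_congr rfl h1]
  have h2 : ∑ k ∈ (range ((e + 1) / 2)).image (fun i => 2 * i + 1),
      (l.getD k 0 : ℝ) * B4 st (w4 ^ k * v4 ^ (e - k)) q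
      = ∑ k ∈ range (e + 1), (l.getD k 0 : ℝ) * B4 st (w4 ^ k * v4 ^ (e - k)) q := by
    apply sum_subset
    · intro k hk
      rw [mem_image] at hk
      obtain ⟨i, hi, rfl⟩ := hk
      rw [mem_range] at hi ⊢; omega
    · intro k hk hne
      rw [mem_range] at hk
      have hev : Even k := by
        by_contra hodd
        rw [Nat.not_even_iff_odd] at hodd
        obtain ⟨i, hi⟩ := hodd
        apply hne
        rw [mem_image]
        exact ⟨i, mem_range.2 (by omega), by omega⟩
      rw [B4_even_pow st k (e - k) hev, mul_zero]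
  rw [← h2, sum_image]
  · rfl
  · intro x _ y _ h; simpa only [Nat.add_right_cancel_iff, mul_eq_mul_left_iff, OfNat.ofNat_ne_zero, or_false] using h

/-- weighted diagonal dominance implies nonnegativity -/
lemma dd_nonneg (n : ℕ) (g R : ℕ → ℕ → ℝ) (tau : ℕ → ℝ)
    (hpos : ∀ i j (a b : ℝ), 0 ≤ a ^ 2 * g i i + 2 * a * b * g i j + b ^ 2 * g j j)
    (hR : ∀ i < n, ∀ j < n, R i j = R j i) (htau : ∀ i < n, 0 < tau i)
    (hdd : ∀ i < n, ∑ j ∈ range n, (if j = i then 0 else |R i j| * tau j) ≤ R i i * tau i) :
    0 ≤ ∑ i ∈ range n, ∑ j ∈ range n, R i j * g i j := by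
  have hgi : ∀ i, 0 ≤ g i i := by
    intro i; have := hpos i i 1 0; simpa only [ge_iff_le, one_pow, one_mul, mul_one, mul_zero, zero_mul, add_zero, ne_eq, OfNat.ofNat_ne_zero,     not_false_eq_true, zero_pow] using this
  have h1 : ∀ i ∈ range n, ∀ j ∈ range n,
      (if j = i then R i i * g i i else
        - (1 / 2 * (|R i j| * (tau j / tau i) * g i i + |R i j| * (tau i / tau j) * g j j)))
        ≤ R i j * g i j := by
    intro i hi j hj
    rw [mem_range] at hi hj
    split_ifs with h
    · rw [h]
    · have ti := htau i hi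
      have tj := htau j hj
      have hb : 2 * |g i j| ≤ tau j / tau i * g i i + tau i / tau j * g j j := by
        have p1 := hpos i j (tau j) (tau i)
        have p2 := hpos i j (tau j) (-(tau i))
        have e1 : tau j / tau i * g i i + tau i / tau j * g j j
            = (tau j ^ 2 * g i i + tau i ^ 2 * g j j) / (tau i * tau j) := by
          (clear * - ti tj; field_simp)
        rw [e1, le_div_iff₀ (by positivity)]
        rcases abs_cases (g i j) with ⟨h1, _⟩ | ⟨h1, _⟩ <;> rw [h1] <;> nlinarith
      have hc : -(|R i j| * |g i j|) ≤ R i j * g i j := by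
        rw [← abs_mul]; exact neg_abs_le _
      have hd := mul_le_mul_of_nonneg_left hb (abs_nonneg (R i j))
      linarith
  have h2 : 0 ≤ ∑ i ∈ range n, ∑ j ∈ range n,
      (if j = i then R i i * g i i else
        - (1 / 2 * (|R i j| * (tau j / tau i) * g i i + |R i j| * (tau i / tau j) * g j j))) := by
    have e1 : ∑ i ∈ range n, ∑ j ∈ range n,
      (if j = i then R i i * g i i else
        - (1 / 2 * (|R i j| * (tau j / tau i) * g i i + |R i j| * (tau i / tau j) * g j j)))
        = ∑ i ∈ range n, (R i i * g i i
            - ∑ j ∈ range n, (if j = i then 0 else |R i j| * (tau j / tau i) * g i i)) := by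
      have e2 : ∑ i ∈ range n, ∑ j ∈ range n,
          (if j = i then (0 : ℝ) else |R i j| * (tau i / tau j) * g j j)
          = ∑ i ∈ range n, ∑ j ∈ range n,
          (if j = i then 0 else |R i j| * (tau j / tau i) * g i i) := by
        rw [sum_comm]
        apply sum_congr rfl; intro i hi
        apply sum_congr rfl; intro j hj
        rw [mem_range] at hi hj
        by_cases h : i = j
        · rw [if_pos h, if_pos h.symm]
        · rw [if_neg h, if_neg (Ne.symm h), hR j hj i hi]
      have e3 : ∀ i ∈ range n, ∑ j ∈ range n, (if j = i then R i i * g i i else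
        - (1 / 2 * (|R i j| * (tau j / tau i) * g i i + |R i j| * (tau i / tau j) * g j j)))
          = R i i * g i i - 1 / 2 * ∑ j ∈ range n,
              (if j = i then 0 else |R i j| * (tau j / tau i) * g i i)
            - 1 / 2 * ∑ j ∈ range n, (if j = i then 0 else |R i j| * (tau i / tau j) * g j j) := by
        intro i hi
        have : R i i * g i i = ∑ j ∈ range n, (if j = i then R i i * g i i else 0) := by
          rw [sum_ite_eq' (range n) i, if_pos hi]
        conv_rhs => rw [this]
        rw [mul_sum, mul_sum, ← sum_sub_distrib, ← sum_sub_distrib]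
        apply sum_congr rfl; intro j _
        split_ifs <;> ring
      rw [sum_congr rfl e3, sum_sub_distrib, sum_sub_distrib, ← mul_sum, ← mul_sum, e2,
        sum_sub_distrib]
      ring
    rw [e1]
    apply sum_nonneg; intro i hi
    rw [mem_range] at hi
    have ti := htau i hi
    have hd := hdd i hi
    have : ∑ j ∈ range n, (if j = i then 0 else |R i j| * (tau j / tau i) * g i i)
        = (∑ j ∈ range n, (if j = i then 0 else |R i j| * tau j)) / tau i * g i i := by
      rw [sum_div, sum_mul]
      apply sum_congr rfl; intro j _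
      split_ifs <;> ring
    rw [this, sub_nonneg]
    apply mul_le_mul_of_nonneg_right _ (hgi i)
    rwa [div_le_iff₀ ti]
  exact h2.trans (sum_le_sum fun i hi => sum_le_sum fun j hj => h1 i hi j hj)

end

end Vale.Agent.P359
end
end

section

section

/-!
The crossing-positivity block for integer data.
-/

namespace Vale.Agent.P359

open Finset MvPolynomial

/-- dot product of integer lists -/
def dot : List ℤ → List ℤ → ℤ
  | a :: l, b :: l' => a * b + dot l l'
  | _, _ => 0

/-- a family of generators `sc * col[k] * a! * gen (D + a - m) m`, `k` the row index -/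
structure Ent where
  a : ℕ
  sc : ℤ
  col : List ℤ

noncomputable section

lemma dot_eq (l l' : List ℤ) (n : ℕ) (h : l.length ≤ n) :
    (dot l l' : ℝ) = ∑ k ∈ range n, (l.getD k 0 : ℝ) * (l'.getD k 0 : ℝ) := by
  induction l generalizing l' n with
  | nil => simp only [dot, Int.cast_zero, List.getD_eq_getElem?_getD, List.length_nil, not_lt_zero, not_false_eq_true, getElem?_neg, Option.getD_none, zero_mul, sum_const_zero]
  | cons a l ih =>
    cases l' with
    | nil => simp only [dot, Int.cast_zero, List.getD_eq_getElem?_getD, List.length_nil, not_lt_zero, not_false_eq_true, getElem?_neg, Option.getD_none, mul_zero, sum_const_zero]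
    | cons b l' =>
      obtain ⟨n, rfl⟩ : ∃ k, n = k + 1 := ⟨n - 1, by simp at h; omega⟩
      rw [sum_range_succ', dot]
      simp only [List.getD_cons_succ, List.getD_cons_zero]
      push_cast
      rw [ih l' n (by simpa only [List.length_cons, add_le_add_iff_right] using h)]
      ring

variable {lam : ℝ} (st : PlanarState lam)

/-- the row `k` of the generator list -/
def rowG (D : ℕ) (ents : ℕ → List Ent) (M k : ℕ) : List (ℕ × P3) :=
  (List.range M).flatMap fun m => (ents m).map fun x =>
    (x.a, ((x.a.factorial : ℝ) * (x.sc : ℝ) * (x.col.getD k 0 : ℝ)) • gen (D + x.a - m) m)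

lemma lsum_rowG {R : Type*} [AddCommMonoid R] (D : ℕ) (ents : ℕ → List Ent) (M k : ℕ)
    (f : ℕ × P3 → R) :
    lsum (rowG D ents M k) f = ∑ m ∈ range M, lsum (ents m) fun x =>
      f (x.a, ((x.a.factorial : ℝ) * (x.sc : ℝ) * (x.col.getD k 0 : ℝ)) • gen (D + x.a - m) m) := by
  rw [rowG, lsum_range_flatMap]
  apply sum_congr rfl; intro m _; rw [lsum_map]

lemma mem_rowG {D : ℕ} {ents : ℕ → List Ent} {M k : ℕ} {g : ℕ × P3} (h : g ∈ rowG D ents M k) :
    ∃ m < M, ∃ x ∈ ents m, g.1 = x.a := by
  rw [rowG, List.mem_flatMap] at h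
  obtain ⟨m, hm, h⟩ := h
  rw [List.mem_map] at h
  obtain ⟨x, hx, rfl⟩ := h
  exact ⟨m, List.mem_range.1 hm, x, hx, rfl⟩

/-- the integer pairing of two entries -/
def Ent.pr (x y : Ent) : ℤ := x.sc * y.sc * dot x.col y.col

/-- coefficient of `gam m` in the crossing inequality -/
def v3c (D : ℕ) (ents : ℕ → List Ent) (al : List ℤ) (kap : ℕ → ℕ → ℝ) (m : ℕ) : ℝ :=
  lsum (ents m) fun x =>
    (2 * ((x.sc * dot al x.col : ℤ) : ℝ) * kap x.a m
      + lsum (ents m) fun x' => if x.a = x'.a then
          (x.a.factorial : ℝ) * ((x.pr x' : ℤ) : ℝ) else 0)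
      * (((D + x.a - m).factorial : ℝ) / 3 ^ (D + x.a - m))

theorem vblock (D : ℕ) (ents : ℕ → List Ent) (al : List ℤ) (ρ n M : ℕ) (kap : ℕ → ℕ → ℝ)
    (hal : al.length ≤ ρ)
    (hent : ∀ m < M, ∀ x ∈ ents m, x.col.length ≤ ρ ∧ x.a < n ∧ m ≤ D + x.a)
    (hk : ∀ a m, m ≤ D + a → B3 st (X 0 ^ D * X 1 ^ a) (gen (D + a - m) m)
      = kap a m * (((D + a - m).factorial : ℝ) / 3 ^ (D + a - m)) * gam st m) :
    0 ≤ (dot al al : ℝ) * ((D.factorial : ℝ) / 2 ^ D)
      + ∑ m ∈ range M, v3c D ents al kap m * gam st m
      - ∑ m ∈ range M, lsum (ents m) fun x => ∑ m' ∈ range M, lsum (ents m') fun x' =>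
          ((x.pr x' : ℤ) : ℝ) * B4 st (X 2 ^ x'.a * emb (gen (D + x.a - m) m))
            (X 2 ^ x.a * emb (gen (D + x'.a - m') m')) := by
  -- positivity of each row
  have h : ∀ k ∈ range ρ, 0 ≤ (al.getD k 0 : ℝ) * (al.getD k 0 : ℝ) * ((D.factorial : ℝ) / 2 ^ D)
      + ∑ m ∈ range M, lsum (ents m) (fun x =>
          (2 * ((x.sc : ℝ) * ((al.getD k 0 : ℝ) * (x.col.getD k 0 : ℝ))) * kap x.a m
          + lsum (ents m) fun x' => if x.a = x'.a then
              (x.a.factorial : ℝ) * ((x.sc : ℝ) * (x'.sc : ℝ)
                * ((x.col.getD k 0 : ℝ) * (x'.col.getD k 0 : ℝ))) else 0)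
          * (((D + x.a - m).factorial : ℝ) / 3 ^ (D + x.a - m))) * gam st m
      - ∑ m ∈ range M, lsum (ents m) fun x => ∑ m' ∈ range M, lsum (ents m') fun x' =>
          (x.sc : ℝ) * (x'.sc : ℝ) * ((x.col.getD k 0 : ℝ) * (x'.col.getD k 0 : ℝ))
            * B4 st (X 2 ^ x'.a * emb (gen (D + x.a - m) m))
              (X 2 ^ x.a * emb (gen (D + x'.a - m') m')) := by
    intro k _
    have h0 := posV_list st D (al.getD k 0) n (rowG D ents M k) (by
      intro g hg
      obtain ⟨m, hm, x, hx, e⟩ := mem_rowG hg
      rw [e]; exact (hent m hm x hx).2.1)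
    simp only [lsum_rowG] at h0
    refine h0.trans_eq ?_
    have t2 : 2 * (al.getD k 0 : ℝ) * ∑ m ∈ range M, lsum (ents m) (fun x =>
          B3 st (X 0 ^ D * X 1 ^ x.a) (((x.a.factorial : ℝ) * (x.sc : ℝ) * (x.col.getD k 0 : ℝ)) •
            gen (D + x.a - m) m) / (x.a.factorial : ℝ))
        = ∑ m ∈ range M, lsum (ents m) (fun x =>
          (2 * ((x.sc : ℝ) * ((al.getD k 0 : ℝ) * (x.col.getD k 0 : ℝ))) * kap x.a m)
          * (((D + x.a - m).factorial : ℝ) / 3 ^ (D + x.a - m))) * gam st m := by
      rw [mul_sum]
      apply sum_congr rfl; intro m hm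
      rw [mem_range] at hm
      rw [← lsum_mul_left, ← lsum_mul_right]
      apply lsum_congr; intro x hx
      have hf : (x.a.factorial : ℝ) ≠ 0 := by positivity
      rw [map_smul, smul_eq_mul, hk _ _ (hent m hm x hx).2.2]
      field_simp
    have t3 : ∑ m ∈ range M, lsum (ents m) (fun x => ∑ m' ∈ range M, lsum (ents m') fun x' =>
          if x.a = x'.a then
            B3 st (((x.a.factorial : ℝ) * (x.sc : ℝ) * (x.col.getD k 0 : ℝ)) •
              gen (D + x.a - m) m) (((x'.a.factorial : ℝ) * (x'.sc : ℝ) * (x'.col.getD k 0 : ℝ)) •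
              gen (D + x'.a - m') m') / (x.a.factorial : ℝ) else 0)
        = ∑ m ∈ range M, lsum (ents m) (fun x =>
          (lsum (ents m) fun x' => if x.a = x'.a then
              (x.a.factorial : ℝ) * ((x.sc : ℝ) * (x'.sc : ℝ)
                * ((x.col.getD k 0 : ℝ) * (x'.col.getD k 0 : ℝ))) else 0)
          * (((D + x.a - m).factorial : ℝ) / 3 ^ (D + x.a - m))) * gam st m := by
      apply sum_congr rfl; intro m hm
      rw [← lsum_mul_right]
      apply lsum_congr; intro x hx
      have hf : (x.a.factorial : ℝ) ≠ 0 := by positivity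
      rw [sum_eq_single m]
      · rw [← lsum_mul_right, ← lsum_mul_right]
        apply lsum_congr; intro x' hx'
        by_cases he : x.a = x'.a
        · rw [if_pos he, if_pos he, ← he, map_smul, map_smul, LinearMap.smul_apply, smul_eq_mul,
            smul_eq_mul, gen, B3_chan, if_pos ⟨rfl, rfl⟩]
          (clear * - hf; field_simp)
        · rw [if_neg he, if_neg he, zero_mul, zero_mul]
      · intro m' _ hne
        have : (fun x' : Ent => if x.a = x'.a then
            B3 st (((x.a.factorial : ℝ) * (x.sc : ℝ) * (x.col.getD k 0 : ℝ)) •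
              gen (D + x.a - m) m) (((x'.a.factorial : ℝ) * (x'.sc : ℝ) * (x'.col.getD k 0 : ℝ)) •
              gen (D + x'.a - m') m') / (x.a.factorial : ℝ) else 0) = fun _ => 0 := by
          funext x'
          split_ifs with he
          · rw [map_smul, map_smul, LinearMap.smul_apply, gen, gen, B3_chan,
              if_neg (fun hh => hne hh.2.symm)]
            simp only [List.getD_eq_getElem?_getD, smul_eq_mul, mul_zero, zero_div]
          · rfl
        rw [this, lsum_zero]
      · intro hn; exact absurd hm hn
    have t4 : ∑ m ∈ range M, lsum (ents m) (fun x => ∑ m' ∈ range M, lsum (ents m') fun x' =>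
          B4 st (X 2 ^ x'.a * emb (((x.a.factorial : ℝ) * (x.sc : ℝ) * (x.col.getD k 0 : ℝ)) •
              gen (D + x.a - m) m))
            (X 2 ^ x.a * emb (((x'.a.factorial : ℝ) * (x'.sc : ℝ) * (x'.col.getD k 0 : ℝ)) •
              gen (D + x'.a - m') m')) / ((x.a.factorial : ℝ) * (x'.a.factorial : ℝ)))
        = ∑ m ∈ range M, lsum (ents m) fun x => ∑ m' ∈ range M, lsum (ents m') fun x' =>
          (x.sc : ℝ) * (x'.sc : ℝ) * ((x.col.getD k 0 : ℝ) * (x'.col.getD k 0 : ℝ))
            * B4 st (X 2 ^ x'.a * emb (gen (D + x.a - m) m))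
              (X 2 ^ x.a * emb (gen (D + x'.a - m') m')) := by
      apply sum_congr rfl; intro m hm
      apply lsum_congr; intro x hx
      apply sum_congr rfl; intro m' hm'
      apply lsum_congr; intro x' hx'
      have hf : (x.a.factorial : ℝ) ≠ 0 := by positivity
      have hf' : (x'.a.factorial : ℝ) ≠ 0 := by positivity
      rw [map_smul, map_smul, mul_smul_comm, mul_smul_comm, map_smul, map_smul,
        LinearMap.smul_apply, smul_eq_mul, smul_eq_mul]
      (clear * - hf' hf; field_simp)
    rw [t2, t3, t4]
    congr 1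
    rw [add_assoc, ← sum_add_distrib]
    congr 1
    · ring
    · apply sum_congr rfl; intro m _
      rw [← add_mul, ← lsum_add]
      congr 1
      apply lsum_congr; intro x _
      ring
  have hs := sum_nonneg h
  refine hs.trans_eq ?_
  rw [sum_sub_distrib, sum_add_distrib, ← sum_mul, ← dot_eq al al ρ hal]
  congr 1
  · congr 1
    rw [sum_comm]
    apply sum_congr rfl; intro m hm
    rw [mem_range] at hm
    rw [← sum_mul, lsum_sum, v3c]
    congr 1
    apply lsum_congr; intro x hx
    rw [← sum_mul, sum_add_distrib, ← sum_mul]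
    congr 1
    congr 1
    · congr 1
      rw [← mul_sum]
      congr 1
      rw [← mul_sum, Int.cast_mul, dot_eq al x.col ρ hal]
    · rw [lsum_sum]
      apply lsum_congr; intro x' hx'
      split_ifs with he
      · rw [← mul_sum]
        congr 1
        rw [← mul_sum, Ent.pr, Int.cast_mul, Int.cast_mul, dot_eq _ _ ρ (hent m hm x hx).1]
      · simp
  · rw [sum_comm]
    apply sum_congr rfl; intro m hm
    rw [mem_range] at hm
    rw [lsum_sum]
    apply lsum_congr; intro x hx
    rw [sum_comm]
    apply sum_congr rfl; intro m' _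
    rw [lsum_sum]
    apply lsum_congr; intro x' hx'
    rw [← sum_mul]
    congr 1
    rw [← mul_sum, Ent.pr, Int.cast_mul, Int.cast_mul, dot_eq _ _ ρ (hent m hm x hx).1]

end

end Vale.Agent.P359
end
end

section

section

/-!
Integer list arithmetic, the level matrices, and soundness of the level certificates.
-/

namespace Vale.Agent.P359

open Finset MvPolynomial

/-- pointwise sum -/
def addL : List ℤ → List ℤ → List ℤ
  | [], l => l
  | a :: l, [] => a :: l
  | a :: l, b :: l' => (a + b) :: addL l l'

/-- pointwise product -/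
def mulL : List ℤ → List ℤ → List ℤ
  | a :: l, b :: l' => (a * b) :: mulL l l'
  | _, _ => []

/-- scalar multiple -/
def smulL (c : ℤ) : List ℤ → List ℤ
  | [] => []
  | a :: l => (c * a) :: smulL c l

/-- prepend zeros -/
def shiftL : ℕ → List ℤ → List ℤ
  | 0, l => l
  | n + 1, l => 0 :: shiftL n l

/-- list-valued sum -/
def lsumL {α : Type*} (f : α → List ℤ) : List α → List ℤ
  | [] => []
  | x :: l => addL (f x) (lsumL f l)

/-- entries at odd positions -/
def odds : List ℤ → List ℤ
  | _ :: b :: l => b :: odds l
  | _ => []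

lemma getD_addL (l l' : List ℤ) (k : ℕ) : (addL l l').getD k 0 = l.getD k 0 + l'.getD k 0 := by
  induction l generalizing l' k with
  | nil => simp only [addL, List.getD_eq_getElem?_getD, List.length_nil, not_lt_zero, not_false_eq_true, getElem?_neg, Option.getD_none, zero_add]
  | cons a l ih =>
    cases l' with
    | nil => simp only [addL, List.getD_eq_getElem?_getD, List.length_nil, not_lt_zero, not_false_eq_true, getElem?_neg, Option.getD_none, add_zero]
    | cons b l' =>
      cases k with
      | zero => simp only [addL, List.getD_eq_getElem?_getD, List.length_cons, lt_add_iff_pos_left, Order.lt_add_one_iff, zero_le, getElem?_pos, List.getElem_cons_zero, Option.getD_some]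
      | succ k => simp only [addL, List.getD_cons_succ]; exact ih l' k

lemma getD_mulL (l l' : List ℤ) (k : ℕ) : (mulL l l').getD k 0 = l.getD k 0 * l'.getD k 0 := by
  induction l generalizing l' k with
  | nil => simp only [mulL, List.getD_eq_getElem?_getD, List.length_nil, not_lt_zero, not_false_eq_true, getElem?_neg, Option.getD_none, zero_mul]
  | cons a l ih =>
    cases l' with
    | nil => simp only [mulL, List.getD_eq_getElem?_getD, List.length_nil, not_lt_zero, not_false_eq_true, getElem?_neg, Option.getD_none, mul_zero]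
    | cons b l' =>
      cases k with
      | zero => simp only [mulL, List.getD_eq_getElem?_getD, List.length_cons, lt_add_iff_pos_left, Order.lt_add_one_iff, zero_le, getElem?_pos, List.getElem_cons_zero, Option.getD_some]
      | succ k => simp only [mulL, List.getD_cons_succ]; exact ih l' k

lemma getD_smulL (c : ℤ) (l : List ℤ) (k : ℕ) : (smulL c l).getD k 0 = c * l.getD k 0 := by
  induction l generalizing k with
  | nil => simp only [smulL, List.getD_eq_getElem?_getD, List.length_nil, not_lt_zero, not_false_eq_true, getElem?_neg, Option.getD_none, mul_zero]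
  | cons a l ih =>
    cases k with
    | zero => simp only [smulL, List.getD_eq_getElem?_getD, List.length_cons, lt_add_iff_pos_left, Order.lt_add_one_iff, zero_le, getElem?_pos, List.getElem_cons_zero, Option.getD_some]
    | succ k => simp only [smulL, List.getD_cons_succ]; exact ih k

lemma getD_shiftL (m : ℕ) (l : List ℤ) (k : ℕ) :
    (shiftL m l).getD k 0 = if m ≤ k then l.getD (k - m) 0 else 0 := by
  induction m generalizing k with
  | zero => simp only [shiftL, List.getD_eq_getElem?_getD, zero_le, ↓reduceIte, tsub_zero]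
  | succ m ih =>
    cases k with
    | zero => simp only [shiftL, List.getD_eq_getElem?_getD, List.length_cons, lt_add_iff_pos_left, Order.lt_add_one_iff, zero_le, getElem?_pos, List.getElem_cons_zero, Option.getD_some, nonpos_iff_eq_zero, Nat.add_eq_zero_iff, one_ne_zero, and_false, ↓reduceIte]
    | succ k =>
      simp only [shiftL, List.getD_cons_succ]
      rw [ih k]
      by_cases h : m ≤ k
      · rw [if_pos h, if_pos (by omega), show k + 1 - (m + 1) = k - m by omega]
      · rw [if_neg h, if_neg (by omega)]

lemma getD_lsumL {α : Type*} (f : α → List ℤ) (l : List α) (k : ℕ) :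
    (lsumL f l).getD k 0 = lsum l (fun x => (f x).getD k 0) := by
  induction l with
  | nil => simp only [lsumL, List.getD_eq_getElem?_getD, List.length_nil, not_lt_zero, not_false_eq_true, getElem?_neg, Option.getD_none, lsum_nil]
  | cons a l ih => rw [lsumL, getD_addL, ih, lsum_cons]

lemma getD_odds (l : List ℤ) (k : ℕ) : (odds l).getD k 0 = l.getD (2 * k + 1) 0 := by
  induction k generalizing l with
  | zero =>
    match l with
    | [] => simp only [odds, List.getD_eq_getElem?_getD, List.length_nil, lt_self_iff_false, not_false_eq_true, getElem?_neg, Option.getD_none, mul_zero, zero_add, not_lt_zero]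
    | [a] => simp [odds]
    | a :: b :: l => simp only [odds, List.getD_eq_getElem?_getD, List.length_cons, lt_add_iff_pos_left, Order.lt_add_one_iff, zero_le, getElem?_pos, List.getElem_cons_zero, Option.getD_some, mul_zero, zero_add, List.getElem_cons_succ]
  | succ k ih =>
    match l with
    | [] => simp [odds]
    | [a] => simp only [odds, List.getD_eq_getElem?_getD, List.length_nil, not_lt_zero, not_false_eq_true, getElem?_neg, Option.getD_none, List.length_cons, zero_add, Order.lt_one_iff, Nat.add_eq_zero_iff, mul_eq_zero, OfNat.ofNat_ne_zero, one_ne_zero, and_false, or_self, and_self]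
    | a :: b :: l =>
      rw [odds, List.getD_cons_succ, ih, show 2 * (k + 1) + 1 = (2 * k + 1) + 1 + 1 by ring,
        List.getD_cons_succ, List.getD_cons_succ]

/-- the weights `(22 - j)! 4^j` -/
def wgt : List ℤ :=
  (List.range 23).map fun j => ((22 - j).factorial : ℤ) * 4 ^ j

/-- the integer level list of a pair of entries, given a table for `thl (-3) 1` -/
def kpair (th : ℕ → ℕ → List ℤ) (wg : List ℤ) (D m m' : ℕ) (x x' : Ent) : List ℤ :=
  smulL (x.pr x') (mulL (mulL (shiftL m (th x'.a (D + x.a - m))) (shiftL m' (th x.a (D + x'.a - m'))))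
    (wg.drop (22 - (D + x.a + x'.a))))

noncomputable section

variable {lam : ℝ} (st : PlanarState lam)

lemma wgt_getD (j : ℕ) (hj : j ≤ 22) : wgt.getD j 0 = ((22 - j).factorial : ℤ) * 4 ^ j := by
  rw [wgt, List.getD_eq_getElem?_getD, List.getElem?_map, List.getElem?_range (by omega)]
  rfl

lemma getD_kpair (D m m' e : ℕ) (x x' : Ent) (hx : m ≤ D + x.a) (_ : m' ≤ D + x'.a)
    (hT : D + x.a + x'.a ≤ 22) :
    (((kpair (thl (-3) 1) wgt D m m' x x').getD e 0 : ℤ) : ℝ)
      = 4 ^ 22 * (((x.pr x' : ℤ) : ℝ)
        * lev (D + x.a + x'.a) e m m' x.a (D + x.a - m) x'.a (D + x'.a - m')) := by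
  rw [kpair, getD_smulL, getD_mulL, getD_mulL, getD_shiftL, getD_shiftL, lev]
  set T := D + x.a + x'.a with hTdef
  have hdrop : (wgt.drop (22 - T)).getD e 0 = wgt.getD (22 - T + e) 0 := by
    rw [List.getD_eq_getElem?_getD, List.getD_eq_getElem?_getD, List.getElem?_drop]
  rw [hdrop]
  by_cases h1 : m ≤ e ∧ m' ≤ e
  · rw [if_pos h1.1, if_pos h1.2, if_pos h1]
    by_cases h2 : e ≤ T
    · rw [wgt_getD _ (by omega), show 22 - (22 - T + e) = T - e by omega]
      push_cast
      have : (4 : ℝ) ^ 22 = 4 ^ (22 - T + e) * 4 ^ (T - e) := by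
        rw [← pow_add]; congr 1; omega
      rw [this]
      field_simp
    · rw [getD_big _ _ _ _ _ (show x'.a + (D + x.a - m) < e - m by omega)]
      simp only [Int.reduceNeg, List.getD_eq_getElem?_getD, zero_mul, mul_zero, Int.cast_zero]
  · rw [if_neg h1]
    by_cases h2 : m ≤ e
    · have h3 : ¬ m' ≤ e := fun h3 => h1 ⟨h2, h3⟩
      rw [if_neg h3]; simp only [Int.reduceNeg, List.getD_eq_getElem?_getD, mul_zero, zero_mul, Int.cast_zero]
    · rw [if_neg h2]; simp only [Int.reduceNeg, List.getD_eq_getElem?_getD, mul_ite, zero_mul, mul_zero, ite_self, Int.cast_zero]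

/-- the level-`e` form in terms of the channel polynomials -/
theorem block_levels (D : ℕ) (ents : ℕ → List Ent) (E M : ℕ)
    (hent : ∀ m < M, ∀ x ∈ ents m, m ≤ D + x.a)
    (hT : ∀ m < M, ∀ x ∈ ents m, ∀ m' < M, ∀ x' ∈ ents m', D + x.a + x'.a ≤ E) (hE : E ≤ 22) :
    (4 : ℝ) ^ 22 * ∑ m ∈ range M, lsum (ents m) (fun x => ∑ m' ∈ range M, lsum (ents m') fun x' =>
          ((x.pr x' : ℤ) : ℝ) * B4 st (X 2 ^ x'.a * emb (gen (D + x.a - m) m))
            (X 2 ^ x.a * emb (gen (D + x'.a - m') m')))
      = ∑ e ∈ range (E + 1), ∑ m ∈ range M, ∑ m' ∈ range M,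
          (((lsumL (fun x => lsumL (fun x' => kpair (thl (-3) 1) wgt D m m' x x') (ents m'))
            (ents m)).getD e 0 : ℤ) : ℝ) * B4 st (rel (e - m) m) (rel (e - m') m') := by
  rw [mul_sum, sum_comm]
  apply sum_congr rfl; intro m hm
  rw [mem_range] at hm
  rw [sum_comm]
  have e1 : ∀ x ∈ ents m, (∑ m' ∈ range M, lsum (ents m') fun x' =>
          ((x.pr x' : ℤ) : ℝ) * B4 st (X 2 ^ x'.a * emb (gen (D + x.a - m) m))
            (X 2 ^ x.a * emb (gen (D + x'.a - m') m')))
      = ∑ m' ∈ range M, lsum (ents m') fun x' => ∑ e ∈ range (E + 1),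
          ((x.pr x' : ℤ) : ℝ) * (lev (D + x.a + x'.a) e m m' x.a (D + x.a - m) x'.a
            (D + x'.a - m') * B4 st (rel (e - m) m) (rel (e - m') m')) := by
    intro x hx
    apply sum_congr rfl; intro m' hm'
    rw [mem_range] at hm'
    apply lsum_congr; intro x' hx'
    have h1 := hent m hm x hx
    have h2 := hent m' hm' x' hx'
    rw [B4_gen st (D + x.a + x'.a) E x.a (D + x.a - m) m x'.a (D + x'.a - m') m' (by omega)
      (by omega) (hT m hm x hx m' hm' x' hx'), mul_sum]
  rw [lsum_congr _ _ _ e1, ← lsum_sum, mul_sum]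
  apply sum_congr rfl; intro m' hm'
  rw [mem_range] at hm'
  rw [← lsum_mul_left]
  have e2 : ∀ e, (((lsumL (fun x => lsumL (fun x' => kpair (thl (-3) 1) wgt D m m' x x') (ents m'))
            (ents m)).getD e 0 : ℤ) : ℝ) * B4 st (rel (e - m) m) (rel (e - m') m')
      = lsum (ents m) fun x => lsum (ents m') fun x' =>
          (((kpair (thl (-3) 1) wgt D m m' x x').getD e 0 : ℤ) : ℝ)
            * B4 st (rel (e - m) m) (rel (e - m') m') := by
    intro e
    have : (((lsumL (fun x => lsumL (fun x' => kpair (thl (-3) 1) wgt D m m' x x') (ents m'))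
            (ents m)).getD e 0 : ℤ) : ℝ)
        = lsum (ents m) fun x => lsum (ents m') fun x' =>
          (((kpair (thl (-3) 1) wgt D m m' x x').getD e 0 : ℤ) : ℝ) := by
      rw [getD_lsumL]
      have hc := map_lsum (Int.castRingHom ℝ) (ents m) (fun x => (lsumL (fun x' =>
        kpair (thl (-3) 1) wgt D m m' x x') (ents m')).getD e 0)
      simp only [eq_intCast] at hc
      rw [hc]
      apply lsum_congr; intro x _
      rw [getD_lsumL]
      have hc' := map_lsum (Int.castRingHom ℝ) (ents m')
        (fun x' => (kpair (thl (-3) 1) wgt D m m' x x').getD e 0)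
      simp only [eq_intCast] at hc'
      exact hc'
    rw [this, ← lsum_mul_right]
    apply lsum_congr; intro x _
    rw [← lsum_mul_right]
  rw [sum_congr rfl fun e _ => e2 e, lsum_sum]
  apply lsum_congr; intro x hx
  rw [lsum_sum, ← lsum_mul_left]
  apply lsum_congr; intro x' hx'
  rw [mul_sum]
  apply sum_congr rfl; intro e _
  rw [getD_kpair D m m' e x x' (hent m hm x hx) (hent m' hm' x' hx')
    ((hT m hm x hx m' hm' x' hx').trans hE)]
  ring

end

end Vale.Agent.P359
end
end

section

section

/-!
The integer certificate data: crossing-positivity generators (generated file).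
-/

namespace Vale.Agent.P359

/-- generators of the block `D = 0` -/
def ents0 : ℕ → List Ent
| 2 => [⟨2, 33554432, [-334, -10, 5, -32, -14, 7, 27, 34, -194, -117, 2, 200, -101, 127, 26, 13,
  1, 4]⟩, ⟨3, 33554432, [-310, 60, -34, 79, 24, 91, -119, -6, 133, -93, 111, 120, 205, 56, -26,
  19, 8, 0]⟩, ⟨4, 16777216, [-200, 38, 53, -206, -265, -62, 17, 22, 128, -61, 283, 2, -134, -89,
  51, 21, 3, 0]⟩, ⟨5, 8388608, [-184, 114, 9, 50, 282, 15, -195, 9, -83, 169, 132, 67, -81, -109,
  19, 19, 1, 0]⟩, ⟨6, 4194304, [-9, -43, -40, 63, -172, 211, 41, 97, -94, 107, 31, 5, 43, -33,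
  -18, 19, 4, 0]⟩, ⟨7, 1048576, [-231, 177, 89, 67, -10, -230, 152, 6, -104, 73, 94, -39, 113, 35,
  -10, 12, 5, 0]⟩, ⟨8, 262144, [76, -130, -190, -260, 141, 48, 3, 60, -80, -26, 101, -114, 62, 70,
  1, -17, -3, 1]⟩, ⟨9, 65536, [16, -65, 310, 61, -22, 71, -114, -51, -72, -55, 44, -118, -1, 55,
  14, 4, 2, 0]⟩, ⟨10, 8192, [37, 286, -404, 116, -195, -46, -198, -163, -101, -36, -6, -113, -31,
  48, 28, 22, 6, -1]⟩]
| 4 => [⟨4, 2097152, [-52, -75, -43, 81, 35, -4, 43, -24, -75, -134, 13, -14, 42, -143, 16, 18,
  -74, 67]⟩, ⟨5, 1048576, [6, 158, 105, -254, -60, -5, -73, -66, -105, -53, -71, 41, 56, -130,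
  -134, -45, 149, 77]⟩, ⟨6, 524288, [-312, -365, -150, 305, 10, -81, 19, 40, 56, 36, 83, -35, -55,
  55, 70, -98, 115, 85]⟩, ⟨7, 262144, [-439, 297, 45, -62, 67, 125, 51, 108, 77, 6, -88, -80, -16,
  46, 114, 50, 17, 64]⟩, ⟨8, 65536, [-186, -183, 48, -202, -107, -17, -45, -255, 25, 224, -29, 83,
  53, 87, 42, 10, -65, 79]⟩, ⟨9, 16384, [35, -57, 12, -3, -97, -214, -219, 299, 38, 34, -45, -26,
  -41, 75, -138, 47, -59, 62]⟩, ⟨10, 4096, [-132, 75, -44, 89, 104, 142, 157, -134, 64, -1, 90,
  -52, -137, 81, -191, 44, -11, 35]⟩]
| 5 => [⟨5, 262144, [328, 23, 6, 10, 7, 1, 8, 3, 1, 0, 19, 18, 2, 13, 12, 11, 5, 11]⟩, ⟨6, 262144,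
  [285, 19, 5, 9, 6, 0, 7, 2, 1, 0, 16, 15, 2, 11, 10, 10, 5, 10]⟩, ⟨7, 131072, [226, 9, 3, 7, 5,
  -1, 5, 1, 1, 0, 12, 12, 2, 8, 8, 12, 5, 7]⟩, ⟨8, 32768, [228, -1, 2, 7, 7, -4, 6, -1, 1, -1, 11,
  11, 2, 7, 9, 20, 8, 7]⟩, ⟨9, 8192, [279, 49, 10, 10, 2, 10, 6, 7, 1, 1, 20, 16, 0, 14, 8, -15,
  -4, 12]⟩, ⟨10, 2048, [192, -9, 0, 5, 7, -6, 5, -2, 0, -1, 8, 9, 3, 5, 8, 24, 10, 5]⟩]
| 6 => [⟨6, 32768, [312, -10, 1, 9, 10, -9, 8, -2, 1, -1, 14, 15, 4, 9, 13, 35, 14, 9]⟩, ⟨7,
  32768, [0, -85, -13, -3, 10, -25, 3, -14, -1, -4, -11, -5, 5, -9, 6, 67, 25, -5]⟩, ⟨8, 8192,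
  [-112, -87, -14, -6, 7, -24, 0, -14, -2, -3, -17, -10, 4, -13, 1, 59, 21, -9]⟩, ⟨9, 4096, [117,
  -9, 0, 3, 5, -5, 3, -2, 0, -1, 4, 5, 2, 3, 5, 18, 7, 3]⟩, ⟨10, 1024, [-81, -141, -23, -7, 15,
  -41, 2, -23, -2, -6, -23, -12, 8, -18, 6, 105, 38, -11]⟩]
| 7 => [⟨7, 4096, [106, -8, 0, 3, 4, -4, 3, -2, 0, -1, 4, 5, 2, 3, 5, 16, 6, 3]⟩, ⟨8, 2048, [129,
  -19, -2, 3, 6, -8, 4, -3, 0, -1, 4, 5, 2, 2, 6, 27, 10, 3]⟩, ⟨9, 1024, [139, 31, 6, 5, 0, 7, 3,
  5, 1, 1, 11, 9, 0, 8, 4, -12, -4, 6]⟩, ⟨10, 512, [112, -3, 1, 3, 4, -3, 3, -1, 0, 0, 5, 5, 1, 3,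
  5, 12, 5, 3]⟩]
| 8 => [⟨8, 512, [-229, -93, -16, -9, 5, -24, -3, -15, -2, -3, -24, -16, 3, -17, -3, 54, 19,
  -13]⟩, ⟨9, 256, [126, -3, 1, 4, 4, -3, 3, -1, 0, -1, 6, 6, 1, 4, 5, 13, 5, 4]⟩, ⟨10, 128, [138,
  -77, -11, 2, 13, -26, 6, -13, -1, -4, -4, 3, 6, -4, 11, 73, 27, -1]⟩]
| 9 => [⟨9, 32, [134, 34, 6, 5, 0, 8, 2, 5, 1, 1, 11, 8, -1, 8, 3, -15, -5, 6]⟩, ⟨10, 32, [79, 24,
  4, 3, -1, 6, 1, 4, 1, 1, 7, 5, -1, 5, 2, -12, -4, 4]⟩]
| 10 => [⟨10, 4, [68, 13, 3, 2, 0, 2, 1, 2, 0, 0, 5, 4, 0, 4, 2, -4, -1, 3]⟩]
  | _ => []

/-- pair weights of the block `D = 0` -/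
def al0 : List ℤ := [96234110976, 8724152320, 2147483648, 3087007744, 1610612736, 805306368,
  2147483648, 1207959552, 402653184, 134217728, 5771362304, 5234491392, 402653184, 4160749568,
  3355443200, 1476395008, 939524096, 3489660928]

/-- generators of the block `D = 1` -/
def ents1 : ℕ → List Ent
| 2 => [⟨1, 33554432, [527, 138, 12, 21, -55, 10, 35, -19, 29, -358, 180, -82, 49, -145, -278, 40,
  -91, -30, -47, 6, 11, 3, 0]⟩, ⟨2, 67108864, [97, -156, -29, 34, 47, 12, 29, 0, 31, -22, 101,
  -30, -140, -117, 170, 62, -119, 15, 7, -2, 4, 6, 1]⟩, ⟨3, 33554432, [94, -203, 19, 242, -6, 1,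
  104, -3, -146, 74, -119, 26, 142, -133, -2, 284, 68, 23, -79, -1, -4, 5, 1]⟩, ⟨4, 16777216,
  [128, -192, -17, -88, 122, 13, -61, 150, 275, 246, 86, -131, 184, 37, -73, 60, -127, 9, 2, -4,
  -6, 0, 1]⟩, ⟨5, 8388608, [39, -3, -9, -65, -15, -53, 176, -107, -229, 161, 37, -27, 62, -84,
  -44, -121, -102, 0, 14, -4, -2, 0, 1]⟩, ⟨6, 2097152, [207, -1, 73, 230, 11, 203, -147, 243, -15,
  60, -243, -58, -123, -149, -79, -116, -47, -7, -34, 7, -11, 3, 2]⟩, ⟨7, 524288, [7, -29, -28,
  43, 6, -419, 113, 8, 198, 129, -7, 214, -172, -104, -134, -6, 34, 0, -30, 11, -12, -1, 0]⟩, ⟨8,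
  131072, [17, -128, 143, -94, 8, 392, 103, -224, 54, 142, 74, 27, -182, 47, -129, 60, 47, 18,
  -35, -14, 7, 2, 0]⟩, ⟨9, 32768, [72, 46, -392, 16, 93, -64, -77, 162, -196, 51, 91, -47, -126,
  112, -76, 73, 2, 11, -7, -5, 1, 1, -1]⟩, ⟨10, 4096, [-33, -98, 1024, -45, 143, -161, -37, 163,
  -157, -4, 73, -36, -70, 84, -29, 52, -13, 3, 19, -4, 1, -2, -1]⟩]
| 4 => [⟨3, 4194304, [212, 173, 5, -264, -116, -22, 8, 37, 7, 2, -36, -58, -23, -52, 1, 29, 33,
  124, 33, -48, -22, -77, 1]⟩, ⟨4, 4194304, [-88, -110, 2, 274, -42, 2, 26, -8, 15, -18, 42, -18,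
  5, 10, -27, -17, 19, 76, 86, -48, -61, 38, 9]⟩, ⟨5, 2097152, [-21, -16, -26, -7, 323, 2, 73, -8,
  14, -42, 28, -50, 20, -23, 22, -71, 73, 103, -83, 32, -22, 1, 2]⟩, ⟨6, 524288, [43, -266, 69,
  321, -366, -5, -173, 29, -18, 72, 191, 38, 36, 11, 21, -83, 36, 164, -89, 68, 86, -28, 14]⟩, ⟨7,
  262144, [-18, -8, -12, 88, -13, -76, 133, -84, 37, -34, -149, -127, -53, 83, -36, 41, -62, 71,
  63, 71, 43, 3, 1]⟩, ⟨8, 65536, [39, -260, -48, -262, 70, 111, 26, 144, -35, -46, -9, 188, 45,
  -45, -31, 7, -6, 86, 103, 26, 44, 40, -9]⟩, ⟨9, 16384, [209, -3, 7, -137, 15, -83, -215, -125,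
  -13, 67, 24, -134, -19, -114, -8, 9, 119, -18, 66, 25, 18, 48, -4]⟩, ⟨10, 4096, [-140, 159, 11,
  -68, -152, 38, 214, 173, 30, 20, 55, -83, -15, -22, 27, -7, 78, -34, -6, 24, -1, 29, -2]⟩]
| 5 => [⟨4, 524288, [-595, -291, -31, -74, -26, -24, -21, 1, -5, -32, -13, -48, -11, -26, -30, -3,
  -3, -2, -19, -16, 4, -5, -7]⟩, ⟨5, 524288, [-301, 85, 3, -46, -16, -1, -33, -7, -4, -2, -4, -1,
  -2, -13, -10, 13, -21, 18, -15, 1, -4, 10, 5]⟩, ⟨6, 262144, [-264, 152, 3, 25, 31, 9, -13, 1, 3,
  6, 9, 1, 3, -23, -10, 9, -5, 7, 9, -7, 17, -2, 7]⟩, ⟨7, 131072, [-87, 166, 10, 20, 13, 7, -12,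
  -3, 3, 9, 6, 9, 3, -8, -1, 8, -9, 12, 1, -2, 7, 5, -1]⟩, ⟨8, 32768, [-90, 226, 14, 37, 23, 24,
  -19, -2, -1, 16, 19, 23, 6, -15, -2, 15, -8, 5, 18, 19, -5, -5, 5]⟩, ⟨9, 8192, [28, 169, 9, 53,
  35, 3, 11, 2, 9, 11, 5, 6, 5, -5, 4, 0, 3, 8, 6, -20, 26, 4, -1]⟩, ⟨10, 2048, [25, 109, 12, -45,
  -23, -3, -18, -7, -2, 4, -11, 11, -1, 8, 5, 8, -19, 18, -19, 2, -8, 18, 8]⟩]
| 6 => [⟨5, 131072, [391, -262, -13, 3, -8, -5, 39, 8, -2, -8, -4, -5, -2, 24, 11, -18, 26, -30,
  11, 9, -11, -13, 3]⟩, ⟨6, 65536, [599, -194, 0, -94, -53, -38, 35, -1, 1, -12, -44, -5, -7, 56,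
  26, -20, 2, 3, -44, -25, 0, 32, 18]⟩, ⟨7, 32768, [340, -172, 1, -46, -62, -9, 1, -7, -8, -5,
  -11, 5, -3, 34, 13, -7, -5, 0, -18, 23, -39, 6, -21]⟩, ⟨8, 8192, [-15, -186, -22, 60, 53, 24,
  28, 18, -3, -4, 27, -3, 2, -21, -9, -6, 37, -51, 54, 24, -2, -43, 23]⟩, ⟨9, 4096, [220, -36, -2,
  64, 23, -19, 41, 5, 15, 0, -8, -17, 1, 14, 10, -20, 18, 2, -6, -44, 37, 6, -24]⟩, ⟨10, 1024,
  [-23, 4, 6, -79, -46, 20, -41, -8, -18, 2, 5, 26, -1, 2, -2, 19, -21, -3, 2, 58, -56, -3, 19]⟩]
| 7 => [⟨6, 16384, [-29, -114, -6, -56, -30, -13, -6, -3, -4, -11, -13, -9, -5, 7, -2, -2, -6, 2,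
  -17, -1, -9, 7, 3]⟩, ⟨7, 8192, [-141, -198, -20, -8, 4, -14, 13, 6, 2, -16, -6, -27, -5, -7, -9,
  -11, 13, -12, -1, -17, 13, -8, -2]⟩, ⟨8, 4096, [14, 68, 6, 26, 3, 13, -8, -2, -2, 8, 12, 12, 3,
  -3, 1, 5, -2, 0, 11, 17, -11, -6, -9]⟩, ⟨9, 1024, [38, 127, 7, 2, 23, 7, 2, 2, 2, 8, 0, 12, 3,
  -3, 3, 6, -1, 0, 6, -3, 11, 4, 26]⟩, ⟨10, 256, [106, 26, -2, 69, 50, 32, 17, 11, -2, 11, 28, 19,
  7, -13, 1, 2, 23, -33, 48, 28, -5, -30, 21]⟩]
| 8 => [⟨7, 1024, [198, 75, 18, -160, -83, -52, -17, -18, 3, -9, -62, -5, -9, 46, 18, -1, -43, 56,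
  -88, -47, 9, 68, 11]⟩, ⟨8, 1024, [142, -43, 1, 25, -6, 18, -1, 0, -7, 5, 16, 14, 3, 4, 3, 1, 6,
  -15, 21, 35, -29, -17, -10]⟩, ⟨9, 256, [204, -282, -32, 55, 78, -16, 82, 27, 14, -16, -7, -33,
  -1, -1, 2, -31, 56, -49, 28, -50, 60, -22, 40]⟩, ⟨10, 128, [133, -122, 0, 29, -36, -5, 2, -6,
  -2, -2, 5, -6, -1, 15, 4, -9, 2, 3, -6, 11, -22, -5, -53]⟩]
| 9 => [⟨8, 128, [-103, -207, -19, 10, 7, -2, 12, 7, -2, -12, 5, -19, -3, -9, -9, -9, 17, -22, 14,
  2, 0, -19, -4]⟩, ⟨9, 64, [-31, -169, -11, -46, -23, -7, -2, 1, -6, -12, -7, -10, -5, 3, -4, -3,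
  2, -9, -5, 8, -14, -3, 6]⟩, ⟨10, 32, [75, -56, 4, -138, -66, -25, -21, -10, -7, -12, -36, -1,
  -8, 25, 6, 3, -26, 21, -47, -4, -17, 33, 23]⟩]
| 10 => [⟨9, 8, [419, 71, 17, -28, -30, 7, -1, -6, -6, 11, -5, 30, 2, 30, 20, 4, -9, 3, -6, 26,
  -29, 11, 9]⟩, ⟨10, 8, [97, -189, -17, -1, 20, 0, 28, 12, -1, -10, 0, -9, -2, 0, -1, -10, 24,
  -30, 18, 0, 5, -16, 24]⟩]
| 11 => [⟨10, 1, [-113, -117, -10, -31, -13, -10, -2, 0, -2, -11, -8, -15, -4, -2, -6, -3, 0, -2,
  -9, -6, 0, 0, 0]⟩]
  | _ => []

/-- pair weights of the block `D = 1` -/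
def al1 : List ℤ := [102408126464, 65900904448, 6174015488, 19864223744, 8724152320, 4831838208,
  4831838208, 268435456, 1744830464, 6710886400, 3355443200, 8724152320, 2550136832, 3623878656,
  5234491392, 536870912, 1207959552, 536870912, 4563402752, 1207959552, 1744830464, 671088640,
  536870912]

/-- the weight list, evaluated -/
def wgL : List ℤ := [1124000727777607680000, 204363768686837760000, 38926432130826240000,
  7785286426165248000, 1639007668666368000, 364223926370304000, 85699747381248000,
  21424936845312000, 5713316492083200, 1632376140595200, 502269581721600, 167423193907200,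
  60881161420800, 24352464568320, 10823317585920, 5411658792960, 3092376453120, 2061584302080,
  1649267441664, 1649267441664, 2199023255552, 4398046511104, 17592186044416]

/-- the table of `thl (-3) 1 a c` -/
def thT : List (List (List ℤ)) := [
  [[1],
   [1, 1],
   [1, 2, 1],
   [1, 3, 3, 1],
   [1, 4, 6, 4, 1],
   [1, 5, 10, 10, 5, 1],
   [1, 6, 15, 20, 15, 6, 1],
   [1, 7, 21, 35, 35, 21, 7, 1],
   [1, 8, 28, 56, 70, 56, 28, 8, 1],
   [1, 9, 36, 84, 126, 126, 84, 36, 9, 1],
   [1, 10, 45, 120, 210, 252, 210, 120, 45, 10, 1],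
   [1, 11, 55, 165, 330, 462, 462, 330, 165, 55, 11, 1]],
  [[1, -3],
   [1, -2, -3],
   [1, -1, -5, -3],
   [1, 0, -6, -8, -3],
   [1, 1, -6, -14, -11, -3],
   [1, 2, -5, -20, -25, -14, -3],
   [1, 3, -3, -25, -45, -39, -17, -3],
   [1, 4, 0, -28, -70, -84, -56, -20, -3],
   [1, 5, 4, -28, -98, -154, -140, -76, -23, -3],
   [1, 6, 9, -24, -126, -252, -294, -216, -99, -26, -3],
   [1, 7, 15, -15, -150, -378, -546, -510, -315, -125, -29, -3],
   [1, 8, 22, 0, -165, -528, -924, -1056, -825, -440, -154, -32, -3]],
  [[1, -6, 9],
   [1, -5, 3, 9],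
   [1, -4, -2, 12, 9],
   [1, -3, -6, 10, 21, 9],
   [1, -2, -9, 4, 31, 30, 9],
   [1, -1, -11, -5, 35, 61, 39, 9],
   [1, 0, -12, -16, 30, 96, 100, 48, 9],
   [1, 1, -12, -28, 14, 126, 196, 148, 57, 9],
   [1, 2, -11, -40, -14, 140, 322, 344, 205, 66, 9],
   [1, 3, -9, -51, -54, 126, 462, 666, 549, 271, 75, 9],
   [1, 4, -6, -60, -105, 72, 588, 1128, 1215, 820, 346, 84, 9],
   [1, 5, -2, -66, -165, -33, 660, 1716, 2343, 2035, 1166, 430, 93, 9]],
  [[1, -9, 27, -27],
   [1, -8, 18, 0, -27],
   [1, -7, 10, 18, -27, -27],
   [1, -6, 3, 28, -9, -54, -27],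
   [1, -5, -3, 31, 19, -63, -81, -27],
   [1, -4, -8, 28, 50, -44, -144, -108, -27],
   [1, -3, -12, 20, 78, 6, -188, -252, -135, -27],
   [1, -2, -15, 8, 98, 84, -182, -440, -387, -162, -27],
   [1, -1, -17, -7, 106, 182, -98, -622, -827, -549, -189, -27],
   [1, 0, -18, -24, 99, 288, 84, -720, -1449, -1376, -738, -216, -27],
   [1, 1, -18, -42, 75, 387, 372, -636, -2169, -2825, -2114, -954, -243, -27],
   [1, 2, -17, -60, 33, 462, 759, -264, -2805, -4994, -4939, -3068, -1197, -270, -27]],
  [[1, -12, 54, -108, 81],
   [1, -11, 42, -54, -27, 81],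
   [1, -10, 31, -12, -81, 54, 81],
   [1, -9, 21, 19, -93, -27, 135, 81],
   [1, -8, 12, 40, -74, -120, 108, 216, 81],
   [1, -7, 4, 52, -34, -194, -12, 324, 297, 81],
   [1, -6, -3, 56, 18, -228, -206, 312, 621, 378, 81],
   [1, -5, -9, 53, 74, -210, -434, 106, 933, 999, 459, 81],
   [1, -4, -14, 44, 127, -136, -644, -328, 1039, 1932, 1458, 540, 81],
   [1, -3, -18, 30, 171, -9, -780, -972, 711, 2971, 3390, 1998, 621, 81],
   [1, -2, -21, 12, 201, 162, -789, -1752, -261, 3682, 6361, 5388, 2619, 702, 81],
   [1, -1, -23, -9, 213, 363, -627, -2541, -2013, 3421, 10043, 11749, 8007, 3321, 783, 81]],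
  [[1, -15, 90, -270, 405, -243],
   [1, -14, 75, -180, 135, 162, -243],
   [1, -13, 61, -105, -45, 297, -81, -243],
   [1, -12, 48, -44, -150, 252, 216, -324, -243],
   [1, -11, 36, 4, -194, 102, 468, -108, -567, -243],
   [1, -10, 25, 40, -190, -92, 570, 360, -675, -810, -243],
   [1, -9, 15, 65, -150, -282, 478, 930, -315, -1485, -1053, -243],
   [1, -8, 6, 80, -85, -432, 196, 1408, 615, -1800, -2538, -1296, -243],
   [1, -7, -2, 86, -5, -517, -236, 1604, 2023, -1185, -4338, -3834, -1539, -243],
   [1, -6, -9, 84, 81, -522, -753, 1368, 3627, 838, -5523, -8172, -5373, -1782, -243],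
   [1, -5, -15, 75, 165, -441, -1275, 615, 4995, 4465, -4685, -13695, -13545, -7155, -2025, -243],
   [1, -4, -20, 60, 240, -276, -1716, -660, 5610, 9460, -220, -18380, -27240, -20700, -9180, -2268,
  -243]],
  [[1, -18, 135, -540, 1215, -1458, 729],
   [1, -17, 117, -405, 675, -243, -729, 729],
   [1, -16, 100, -288, 270, 432, -972, 0, 729],
   [1, -15, 84, -188, -18, 702, -540, -972, 729, 729],
   [1, -14, 69, -104, -206, 684, 162, -1512, -243, 1458, 729],
   [1, -13, 55, -35, -310, 478, 846, -1350, -1755, 1215, 2187, 729],
   [1, -12, 42, 20, -345, 168, 1324, -504, -3105, -540, 3402, 2916, 729],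
   [1, -11, 30, 62, -325, -177, 1492, 820, -3609, -3645, 2862, 6318, 3645, 729],
   [1, -10, 19, 92, -263, -502, 1315, 2312, -2789, -7254, -783, 9180, 9963, 4374, 729],
   [1, -9, 9, 111, -171, -765, 813, 3627, -477, -10043, -8037, 8397, 19143, 14337, 5103, 729],
   [1, -8, 0, 120, -60, -936, 48, 4440, 3150, -10520, -18080, 360, 27540, 33480, 19440, 5832, 729],
   [1, -7, -8, 120, 60, -996, -888, 4488, 7590, -7370, -28600, -17720, 27900, 61020, 52920, 25272,
  6561, 729]],
  [[1, -21, 189, -945, 2835, -5103, 5103, -2187],
   [1, -20, 168, -756, 1890, -2268, 0, 2916, -2187],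
   [1, -19, 148, -588, 1134, -378, -2268, 2916, 729, -2187],
   [1, -18, 129, -440, 546, 756, -2646, 648, 3645, -1458, -2187],
   [1, -17, 111, -311, 106, 1302, -1890, -1998, 4293, 2187, -3645, -2187],
   [1, -16, 94, -200, -205, 1408, -588, -3888, 2295, 6480, -1458, -5832, -2187],
   [1, -15, 78, -106, -405, 1203, 820, -4476, -1593, 8775, 5022, -7290, -8019, -2187],
   [1, -14, 63, -28, -511, 798, 2023, -3656, -6069, 7182, 13797, -2268, -15309, -10206, -2187],
   [1, -13, 49, 35, -539, 287, 2821, -1633, -9725, 1113, 20979, 11529, -17577, -25515, -12393, -2187],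
   [1, -12, 36, 84, -504, -252, 3108, 1188, -11358, -8612, 22092, 32508, -6048, -43092, -37908,
  -14580, -2187],
   [1, -11, 24, 120, -420, -756, 2856, 4296, -10170, -19970, 13480, 54600, 26460, -49140, -81000,
  -52488, -16767, -2187],
   [1, -10, 13, 144, -300, -1176, 2100, 7152, -5874, -30140, -6490, 68080, 81060, -22680, -130140,
  -133488, -69255, -18954, -2187]],
  [[1, -24, 252, -1512, 5670, -13608, 20412, -17496, 6561],
   [1, -23, 228, -1260, 4158, -7938, 6804, 2916, -10935, 6561],
   [1, -22, 205, -1032, 2898, -3780, -1134, 9720, -8019, -4374, 6561],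
   [1, -21, 183, -827, 1866, -882, -4914, 8586, 1701, -12393, 2187, 6561],
   [1, -20, 162, -644, 1039, 984, -5796, 3672, 10287, -10692, -10206, 8748, 6561],
   [1, -19, 142, -482, 395, 2023, -4812, -2124, 13959, -405, -20898, -1458, 15309, 6561],
   [1, -18, 123, -340, -87, 2418, -2789, -6936, 11835, 13554, -21303, -22356, 13851, 21870, 6561],
   [1, -17, 105, -217, -427, 2331, -371, -9725, 4899, 25389, -7749, -43659, -8505, 35721, 28431,
  6561],
   [1, -16, 88, -112, -644, 1904, 1960, -10096, -4826, 30288, 17640, -51408, -52164, 27216, 64152,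
  34992, 6561],
   [1, -15, 72, -24, -756, 1260, 3864, -8136, -14922, 25462, 47928, -33768, -103572, -24948, 91368,
  99144, 41553, 6561],
   [1, -14, 57, 48, -780, 504, 5124, -4272, -23058, 10540, 73390, 14160, -137340, -128520, 66420,
  190512, 140697, 48114, 6561],
   [1, -13, 43, 105, -732, -276, 5628, 852, -27330, -12518, 83930, 87550, -123180, -265860, -62100,
  256932, 331209, 188811, 54675, 6561]],
  [[1, -27, 324, -2268, 10206, -30618, 61236, -78732, 59049, -19683],
   [1, -26, 297, -1944, 7938, -20412, 30618, -17496, -19683, 39366, -19683],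
   [1, -25, 271, -1647, 5994, -12474, 10206, 13122, -37179, 19683, 19683, -19683],
   [1, -24, 246, -1376, 4347, -6480, -2268, 23328, -24057, -17496, 39366, 0, -19683],
   [1, -23, 222, -1130, 2971, -2133, -8748, 21060, -729, -41553, 21870, 39366, -19683, -19683],
   [1, -22, 199, -908, 1841, 838, -10881, 12312, 20331, -42282, -19683, 61236, 19683, -39366, -19683],
   [1, -21, 177, -709, 933, 2679, -10043, 1431, 32643, -21951, -61965, 41553, 80919, -19683, -59049,
  -19683],
   [1, -20, 156, -532, 224, 3612, -7364, -8612, 34074, 10692, -83916, -20412, 122472, 61236, -78732,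
  -78732, -19683],
   [1, -19, 136, -376, -308, 3836, -3752, -15976, 25462, 44766, -73224, -104328, 102060, 183708,
  -17496, -157464, -98415, -19683],
   [1, -18, 117, -240, -684, 3528, 84, -19728, 9486, 70228, -28458, -177552, -2268, 285768, 166212,
  -174960, -255879, -118098, -19683],
   [1, -17, 99, -123, -924, 2844, 3612, -19644, -10242, 79714, 41770, -206010, -179820, 283500,
  451980, -8748, -430839, -373977, -137781, -19683],
   [1, -16, 82, -24, -1047, 1920, 6456, -16032, -29886, 69472, 121484, -164240, -385830, 103680,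
  735480, 443232, -439587, -804816, -511758, -157464, -19683]],
  [[1, -30, 405, -3240, 17010, -61236, 153090, -262440, 295245, -196830, 59049],
   [1, -29, 375, -2835, 13770, -44226, 91854, -109350, 32805, 98415, -137781, 59049],
   [1, -28, 346, -2460, 10935, -30456, 47628, -17496, -76545, 131220, -39366, -78732, 59049],
   [1, -27, 318, -2114, 8475, -19521, 17172, 30132, -94041, 54675, 91854, -118098, -19683, 59049],
   [1, -26, 291, -1796, 6361, -11046, -2349, 47304, -63909, -39366, 146529, -26244, -137781, 39366,
  59049],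
   [1, -25, 265, -1505, 4565, -4685, -13395, 44955, -16605, -103275, 107163, 120285, -164025, -98415,
  98415, 59049],
   [1, -24, 240, -1240, 3060, -120, -18080, 31560, 28350, -119880, 3888, 227448, -43740, -262440, 0,
  157464, 59049],
   [1, -23, 216, -1000, 1820, 2940, -18200, 13480, 59910, -91530, -115992, 231336, 183708, -306180,
  -262440, 157464, 216513, 59049],
   [1, -22, 193, -784, 820, 4760, -15260, -4720, 73390, -31620, -207522, 115344, 415044, -122472,
  -568620, -104976, 373977, 275562, 59049],
   [1, -21, 171, -591, 36, 5580, -10500, -19980, 68670, 41770, -239142, -92178, 530388, 292572,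
  -691092, -673596, 269001, 649539, 334611, 59049],
   [1, -20, 150, -420, -555, 5616, -4920, -30480, 48690, 110440, -197372, -331320, 438210, 822960,
  -398520, -1364688, -404595, 918540, 984150, 393660, 59049],
   [1, -19, 130, -270, -975, 5061, 696, -35400, 18210, 159130, -86932, -528692, 106890, 1261170,
  424440, -1763208, -1769283, 513945, 1902690, 1377810, 452709, 59049]]]

/-- table lookup for `thl (-3) 1` -/
def thf (a c : ℕ) : List ℤ := (thT.getD a []).getD c []

/-- the level list of the pair `(m, m')` -/
def kcomp (m m' : ℕ) : List ℤ :=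
  addL (lsumL (fun x => lsumL (fun x' => kpair thf wgL 0 m m' x x') (ents0 m')) (ents0 m))
    (lsumL (fun x => lsumL (fun x' => kpair thf wgL 1 m m' x x') (ents1 m')) (ents1 m))

lemma wgL_eq : wgt = wgL := by (clear * -; decide +kernel)

/-- structural version of `thl` -/
def powL (r : ℤ) : ℕ → List ℤ → List ℤ
  | 0, l => l
  | n + 1, l => mulLin r 0 (powL r n l)

lemma thl_eq_powL (r s : ℤ) (a c : ℕ) : thl r s a c = powL r a (powL s c [1]) := by
  induction a with
  | zero =>
    induction c with
    | zero => simp [thl, powL]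
    | succ c ih => rw [thl, ih]; rfl
  | succ a ih => rw [thl, ih]; rfl

lemma thf_eq' : ∀ a < 11, ∀ c < 12, thf a c = powL (-3) a (powL 1 c [1]) := by (clear * -; decide +kernel)

lemma thf_eq (a c : ℕ) (ha : a < 11) (hc : c < 12) : thf a c = thl (-3) 1 a c := by
  rw [thl_eq_powL, thf_eq' a ha c hc]

end Vale.Agent.P359
end
end

section

section

/-!
Kernel verification of the level lists (generated file).
-/

namespace Vale.Agent.P359

lemma kc_0_0 : kcomp 0 0 = kT 0 0 := by (clear * -; decide +kernel)
lemma kc_0_1 : kcomp 0 1 = kT 0 1 := by (clear * -; decide +kernel)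
lemma kc_0_2 : kcomp 0 2 = kT 0 2 := by (clear * -; decide +kernel)
lemma kc_0_3 : kcomp 0 3 = kT 0 3 := by (clear * -; decide +kernel)
lemma kc_0_4 : kcomp 0 4 = kT 0 4 := by (clear * -; decide +kernel)
lemma kc_0_5 : kcomp 0 5 = kT 0 5 := by (clear * -; decide +kernel)
lemma kc_0_6 : kcomp 0 6 = kT 0 6 := by (clear * -; decide +kernel)
lemma kc_0_7 : kcomp 0 7 = kT 0 7 := by (clear * -; decide +kernel)
lemma kc_0_8 : kcomp 0 8 = kT 0 8 := by (clear * -; decide +kernel)
lemma kc_0_9 : kcomp 0 9 = kT 0 9 := by (clear * -; decide +kernel)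
lemma kc_0_10 : kcomp 0 10 = kT 0 10 := by (clear * -; decide +kernel)
lemma kc_0_11 : kcomp 0 11 = kT 0 11 := by (clear * -; decide +kernel)
lemma kc_1_1 : kcomp 1 1 = kT 1 1 := by (clear * -; decide +kernel)
lemma kc_1_2 : kcomp 1 2 = kT 1 2 := by (clear * -; decide +kernel)
lemma kc_1_3 : kcomp 1 3 = kT 1 3 := by (clear * -; decide +kernel)
lemma kc_1_4 : kcomp 1 4 = kT 1 4 := by (clear * -; decide +kernel)
lemma kc_1_5 : kcomp 1 5 = kT 1 5 := by (clear * -; decide +kernel)
lemma kc_1_6 : kcomp 1 6 = kT 1 6 := by (clear * -; decide +kernel)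
lemma kc_1_7 : kcomp 1 7 = kT 1 7 := by (clear * -; decide +kernel)
lemma kc_1_8 : kcomp 1 8 = kT 1 8 := by (clear * -; decide +kernel)
lemma kc_1_9 : kcomp 1 9 = kT 1 9 := by (clear * -; decide +kernel)
lemma kc_1_10 : kcomp 1 10 = kT 1 10 := by (clear * -; decide +kernel)
lemma kc_1_11 : kcomp 1 11 = kT 1 11 := by (clear * -; decide +kernel)
lemma kc_3_3 : kcomp 3 3 = kT 3 3 := by (clear * -; decide +kernel)
lemma kc_3_4 : kcomp 3 4 = kT 3 4 := by (clear * -; decide +kernel)
lemma kc_3_5 : kcomp 3 5 = kT 3 5 := by (clear * -; decide +kernel)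
lemma kc_3_6 : kcomp 3 6 = kT 3 6 := by (clear * -; decide +kernel)
lemma kc_3_7 : kcomp 3 7 = kT 3 7 := by (clear * -; decide +kernel)
lemma kc_3_8 : kcomp 3 8 = kT 3 8 := by (clear * -; decide +kernel)
lemma kc_3_9 : kcomp 3 9 = kT 3 9 := by (clear * -; decide +kernel)
lemma kc_3_10 : kcomp 3 10 = kT 3 10 := by (clear * -; decide +kernel)
lemma kc_3_11 : kcomp 3 11 = kT 3 11 := by (clear * -; decide +kernel)
lemma kc_7_7 : kcomp 7 7 = kT 7 7 := by (clear * -; decide +kernel)
lemma kc_7_8 : kcomp 7 8 = kT 7 8 := by (clear * -; decide +kernel)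
lemma kc_7_9 : kcomp 7 9 = kT 7 9 := by (clear * -; decide +kernel)
lemma kc_7_10 : kcomp 7 10 = kT 7 10 := by (clear * -; decide +kernel)
lemma kc_7_11 : kcomp 7 11 = kT 7 11 := by (clear * -; decide +kernel)
lemma kc_8_8 : kcomp 8 8 = kT 8 8 := by (clear * -; decide +kernel)
lemma kc_8_9 : kcomp 8 9 = kT 8 9 := by (clear * -; decide +kernel)
lemma kc_8_10 : kcomp 8 10 = kT 8 10 := by (clear * -; decide +kernel)
lemma kc_8_11 : kcomp 8 11 = kT 8 11 := by (clear * -; decide +kernel)
lemma kc_9_9 : kcomp 9 9 = kT 9 9 := by (clear * -; decide +kernel)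
lemma kc_9_10 : kcomp 9 10 = kT 9 10 := by (clear * -; decide +kernel)
lemma kc_9_11 : kcomp 9 11 = kT 9 11 := by (clear * -; decide +kernel)
lemma kc_10_10 : kcomp 10 10 = kT 10 10 := by (clear * -; decide +kernel)
lemma kc_10_11 : kcomp 10 11 = kT 10 11 := by (clear * -; decide +kernel)
lemma kc_11_11 : kcomp 11 11 = kT 11 11 := by (clear * -; decide +kernel)

end Vale.Agent.P359
end
end

section

section

/-!
Kernel verification of the level lists (generated file).
-/

namespace Vale.Agent.P359

lemma kc_2_2 : kcomp 2 2 = kT 2 2 := by (clear * -; decide +kernel)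
lemma kc_2_3 : kcomp 2 3 = kT 2 3 := by (clear * -; decide +kernel)
lemma kc_2_4 : kcomp 2 4 = kT 2 4 := by (clear * -; decide +kernel)
lemma kc_2_5 : kcomp 2 5 = kT 2 5 := by (clear * -; decide +kernel)
lemma kc_2_6 : kcomp 2 6 = kT 2 6 := by (clear * -; decide +kernel)
lemma kc_2_7 : kcomp 2 7 = kT 2 7 := by (clear * -; decide +kernel)
lemma kc_2_8 : kcomp 2 8 = kT 2 8 := by (clear * -; decide +kernel)
lemma kc_2_9 : kcomp 2 9 = kT 2 9 := by (clear * -; decide +kernel)
lemma kc_2_10 : kcomp 2 10 = kT 2 10 := by (clear * -; decide +kernel)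
lemma kc_2_11 : kcomp 2 11 = kT 2 11 := by (clear * -; decide +kernel)

end Vale.Agent.P359
end
end

section

section

/-!
Kernel verification of the level lists (generated file).
-/

namespace Vale.Agent.P359

lemma kc_4_4 : kcomp 4 4 = kT 4 4 := by (clear * -; decide +kernel)
lemma kc_4_5 : kcomp 4 5 = kT 4 5 := by (clear * -; decide +kernel)
lemma kc_4_6 : kcomp 4 6 = kT 4 6 := by (clear * -; decide +kernel)
lemma kc_4_7 : kcomp 4 7 = kT 4 7 := by (clear * -; decide +kernel)
lemma kc_4_8 : kcomp 4 8 = kT 4 8 := by (clear * -; decide +kernel)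
lemma kc_4_9 : kcomp 4 9 = kT 4 9 := by (clear * -; decide +kernel)
lemma kc_4_10 : kcomp 4 10 = kT 4 10 := by (clear * -; decide +kernel)
lemma kc_4_11 : kcomp 4 11 = kT 4 11 := by (clear * -; decide +kernel)

end Vale.Agent.P359
end
end

section

section

/-!
Kernel verification of the level lists (generated file).
-/

namespace Vale.Agent.P359

lemma kc_5_5 : kcomp 5 5 = kT 5 5 := by (clear * -; decide +kernel)
lemma kc_5_6 : kcomp 5 6 = kT 5 6 := by (clear * -; decide +kernel)
lemma kc_5_7 : kcomp 5 7 = kT 5 7 := by (clear * -; decide +kernel)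
lemma kc_5_8 : kcomp 5 8 = kT 5 8 := by (clear * -; decide +kernel)
lemma kc_5_9 : kcomp 5 9 = kT 5 9 := by (clear * -; decide +kernel)
lemma kc_5_10 : kcomp 5 10 = kT 5 10 := by (clear * -; decide +kernel)
lemma kc_5_11 : kcomp 5 11 = kT 5 11 := by (clear * -; decide +kernel)
lemma kc_6_6 : kcomp 6 6 = kT 6 6 := by (clear * -; decide +kernel)
lemma kc_6_7 : kcomp 6 7 = kT 6 7 := by (clear * -; decide +kernel)
lemma kc_6_8 : kcomp 6 8 = kT 6 8 := by (clear * -; decide +kernel)
lemma kc_6_9 : kcomp 6 9 = kT 6 9 := by (clear * -; decide +kernel)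
lemma kc_6_10 : kcomp 6 10 = kT 6 10 := by (clear * -; decide +kernel)
lemma kc_6_11 : kcomp 6 11 = kT 6 11 := by (clear * -; decide +kernel)

end Vale.Agent.P359
end
end

section

section

/-!
All level lists (generated file).
-/

namespace Vale.Agent.P359

lemma kcm_0 : ∀ m' < 12, 0 ≤ m' → kcomp 0 m' = kT 0 m' := by
  intro m' h1 h2
  interval_cases m'
  · exact kc_0_0
  · exact kc_0_1
  · exact kc_0_2
  · exact kc_0_3
  · exact kc_0_4
  · exact kc_0_5
  · exact kc_0_6
  · exact kc_0_7
  · exact kc_0_8
  · exact kc_0_9
  · exact kc_0_10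
  · exact kc_0_11

lemma kcm_1 : ∀ m' < 12, 1 ≤ m' → kcomp 1 m' = kT 1 m' := by
  intro m' h1 h2
  interval_cases m'
  · exact kc_1_1
  · exact kc_1_2
  · exact kc_1_3
  · exact kc_1_4
  · exact kc_1_5
  · exact kc_1_6
  · exact kc_1_7
  · exact kc_1_8
  · exact kc_1_9
  · exact kc_1_10
  · exact kc_1_11

lemma kcm_2 : ∀ m' < 12, 2 ≤ m' → kcomp 2 m' = kT 2 m' := by
  intro m' h1 h2
  interval_cases m'
  · exact kc_2_2
  · exact kc_2_3
  · exact kc_2_4
  · exact kc_2_5
  · exact kc_2_6
  · exact kc_2_7
  · exact kc_2_8
  · exact kc_2_9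
  · exact kc_2_10
  · exact kc_2_11

lemma kcm_3 : ∀ m' < 12, 3 ≤ m' → kcomp 3 m' = kT 3 m' := by
  intro m' h1 h2
  interval_cases m'
  · exact kc_3_3
  · exact kc_3_4
  · exact kc_3_5
  · exact kc_3_6
  · exact kc_3_7
  · exact kc_3_8
  · exact kc_3_9
  · exact kc_3_10
  · exact kc_3_11

lemma kcm_4 : ∀ m' < 12, 4 ≤ m' → kcomp 4 m' = kT 4 m' := by
  intro m' h1 h2
  interval_cases m'
  · exact kc_4_4
  · exact kc_4_5
  · exact kc_4_6
  · exact kc_4_7
  · exact kc_4_8
  · exact kc_4_9
  · exact kc_4_10
  · exact kc_4_11

lemma kcm_5 : ∀ m' < 12, 5 ≤ m' → kcomp 5 m' = kT 5 m' := by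
  intro m' h1 h2
  interval_cases m'
  · exact kc_5_5
  · exact kc_5_6
  · exact kc_5_7
  · exact kc_5_8
  · exact kc_5_9
  · exact kc_5_10
  · exact kc_5_11

lemma kcm_6 : ∀ m' < 12, 6 ≤ m' → kcomp 6 m' = kT 6 m' := by
  intro m' h1 h2
  interval_cases m'
  · exact kc_6_6
  · exact kc_6_7
  · exact kc_6_8
  · exact kc_6_9
  · exact kc_6_10
  · exact kc_6_11

lemma kcm_7 : ∀ m' < 12, 7 ≤ m' → kcomp 7 m' = kT 7 m' := by
  intro m' h1 h2
  interval_cases m'
  · exact kc_7_7
  · exact kc_7_8
  · exact kc_7_9
  · exact kc_7_10
  · exact kc_7_11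

lemma kcm_8 : ∀ m' < 12, 8 ≤ m' → kcomp 8 m' = kT 8 m' := by
  intro m' h1 h2
  interval_cases m'
  · exact kc_8_8
  · exact kc_8_9
  · exact kc_8_10
  · exact kc_8_11

lemma kcm_9 : ∀ m' < 12, 9 ≤ m' → kcomp 9 m' = kT 9 m' := by
  intro m' h1 h2
  interval_cases m'
  · exact kc_9_9
  · exact kc_9_10
  · exact kc_9_11

lemma kcm_10 : ∀ m' < 12, 10 ≤ m' → kcomp 10 m' = kT 10 m' := by
  intro m' h1 h2
  interval_cases m'
  · exact kc_10_10
  · exact kc_10_11

lemma kcm_11 : ∀ m' < 12, 11 ≤ m' → kcomp 11 m' = kT 11 m' := by
  intro m' h1 h2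
  interval_cases m'
  · exact kc_11_11

lemma kcomp_ok : ∀ m < 12, ∀ m' < 12, m ≤ m' → kcomp m m' = kT m m' := by
  intro m hm m' hm' h
  interval_cases m
  · exact kcm_0 m' hm' h
  · exact kcm_1 m' hm' h
  · exact kcm_2 m' hm' h
  · exact kcm_3 m' hm' h
  · exact kcm_4 m' hm' h
  · exact kcm_5 m' hm' h
  · exact kcm_6 m' hm' h
  · exact kcm_7 m' hm' h
  · exact kcm_8 m' hm' h
  · exact kcm_9 m' hm' h
  · exact kcm_10 m' hm' h
  · exact kcm_11 m' hm' h

end Vale.Agent.P359
end
end

section

section

/-!
The energy inequality in terms of channel weights.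
-/

namespace Vale.Agent.P359

open Finset MvPolynomial

/-- coefficients of `∑_s w_s (1 + x)^s` -/
def horner : List ℤ → List ℤ
  | [] => []
  | w :: ws => addL [w] (mulLin 1 0 (horner ws))

/-- multiply by alternating signs -/
def altL : ℤ → List ℤ → List ℤ
  | _, [] => []
  | s, a :: l => (s * a) :: altL (-s) l

lemma getD_mulLin (r p : ℤ) (l : List ℤ) (k : ℕ) :
    (mulLin r p l).getD k 0 = l.getD k 0 + r * (if k = 0 then p else l.getD (k - 1) 0) := by
  induction l generalizing p k with
  | nil =>
    cases k with
    | zero => simp [mulLin]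
    | succ k => simp only [mulLin, List.getD_eq_getElem?_getD, List.length_cons, List.length_nil, zero_add, Order.lt_one_iff, Nat.add_eq_zero_iff, one_ne_zero, and_false, not_false_eq_true, getElem?_neg, Option.getD_none, not_lt_zero, ↓reduceIte, add_tsub_cancel_right, mul_zero, add_zero]
  | cons a l ih =>
    cases k with
    | zero => simp [mulLin]
    | succ k =>
      rw [mulLin, List.getD_cons_succ, ih, List.getD_cons_succ, if_neg (Nat.succ_ne_zero k),
        Nat.add_sub_cancel]
      cases k with
      | zero => simp only [List.getD_eq_getElem?_getD, ↓reduceIte, List.length_cons, lt_add_iff_pos_left, Order.lt_add_one_iff, zero_le, getElem?_pos, List.getElem_cons_zero, Option.getD_some]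
      | succ k => simp only [List.getD_eq_getElem?_getD, Nat.add_eq_zero_iff, one_ne_zero, and_false, ↓reduceIte, add_tsub_cancel_right, List.getElem?_cons_succ]

lemma getD_altL (s : ℤ) (l : List ℤ) (k : ℕ) :
    (altL s l).getD k 0 = s * (-1) ^ k * l.getD k 0 := by
  induction l generalizing s k with
  | nil => simp only [altL, List.getD_eq_getElem?_getD, List.length_nil, not_lt_zero, not_false_eq_true, getElem?_neg, Option.getD_none, Int.reduceNeg, mul_zero]
  | cons a l ih =>
    cases k with
    | zero => simp [altL]
    | succ k => rw [altL, List.getD_cons_succ, ih, List.getD_cons_succ, pow_succ]; ring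

lemma getD_horner (ws : List ℤ) (m : ℕ) :
    (horner ws).getD m 0 = ∑ s ∈ range ws.length, ws.getD s 0 * (s.choose m : ℤ) := by
  induction ws generalizing m with
  | nil => simp only [horner, List.getD_eq_getElem?_getD, List.length_nil, not_lt_zero, not_false_eq_true, getElem?_neg, Option.getD_none, range_zero, zero_mul, sum_const_zero]
  | cons w ws ih =>
    rw [horner, getD_addL, getD_mulLin, List.length_cons, sum_range_succ']
    simp only [List.getD_cons_succ, List.getD_cons_zero]
    cases m with
    | zero => rw [ih]; simp only [List.getD_eq_getElem?_getD, List.length_cons, List.length_nil, zero_add, Order.lt_one_iff, getElem?_pos, List.getElem_cons_zero, Option.getD_some, Nat.choose_zero_right, Nat.cast_one, mul_one, ↓reduceIte, mul_zero, add_zero, Nat.choose_self]; ring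
    | succ m =>
      rw [if_neg (Nat.succ_ne_zero m), Nat.add_sub_cancel, ih, ih, List.getD_cons_succ]
      simp only [Nat.choose_succ_succ, Nat.choose_zero_succ, Nat.cast_zero, mul_zero, add_zero,
        Nat.cast_add, mul_add, sum_add_distrib, one_mul]
      simp only [List.getD_eq_getElem?_getD, List.length_nil, not_lt_zero, not_false_eq_true, getElem?_neg, Option.getD_none, zero_add, Nat.succ_eq_add_one]
      ring

/-- the weights `(s - 1) 3^(81 - s)`, `2 ≤ s ≤ 80` -/
def w1l : List ℤ := (List.range 81).map fun s : ℕ => if 2 ≤ s then ((s : ℤ) - 1) * 3 ^ (81 - s) else 0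

/-- the weights `(s + 1) 3^(80 - s)`, `1 ≤ s ≤ 80` -/
def w2l : List ℤ := (List.range 81).map fun s : ℕ => if 1 ≤ s then ((s : ℤ) + 1) * 3 ^ (80 - s) else 0

/-- the weights `2^(80 - s)`, `s ≤ 80` -/
def w3l : List ℤ := (List.range 81).map fun s : ℕ => 2 ^ (80 - s)

/-- numerators of the three-body energy coefficients -/
def tZl : List ℤ := [-73904414707172961658041605103191648880,
  -369522073535864808290208025515958237440, 831424665455695818652968057410905781400,
  -665139732364556654922374445928717652640, 457283566000632700259132431575855359760,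
  -290998632909493536528538820091570112488, 176677741409335361463755712170758167420,
  -103928083181961977331621006858347094840, 59758647829628136965682076120484352408,
  -33776627034137642632776802406996990748, 18836965076730608391356123998710995256,
  -10392808318196197733160888381399945984, 5683567049013545635315783471800918360,
  -3085364969464496201993132954422683024, 1664473207211109793005770826781379034,
  -893131964844985741795927793507413308, 477013663042208290593333082411497132,
  -253730671830961843801225484300662650, 134477256070409730617998593680789472,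
  -71044588112669134613639586559385472, 37425274095066281374434107191318464,
  -19664127066897770764144550646661536, 10307808543127840789359112571351760,
  -5391776776394748342524592582248736, 2814824640591815787958661623656096,
  -1466880446445174166425094009279056, 763174286193683799824658304848288,
  -396454174371080399009141343171840, 205660602414587262162433342168752,
  -106547058075502861002049020071952, 55131906178244589687402441603108,
  -28495139532853025313606847888056, 14712159671187929861768853739800,
  -7588369875760058748268934730660, 3910323049436168474058473620560,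
  -2013221350410579487201689531840, 1035628870949216645420292067680,
  -532309399199725862553708414000, 273385980119492451088037169000,
  -140290985594292007362187861200, 71926236470209147385124287760, -36835558093973171551185705000,
  18837280668988907259289098000, -9613608712644299151937416960, 4891903913095415439842978160,
  -2478682638138773585309111040, 1248351171956026053797842980, -623485665862704141534471000,
  307948877633981822236323000, -149933569151637664513040100, 71706080417796168526695264,
  -33561074027852485000752000, 15314201208398705917663680, -6787369147392475062583584,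
  2911204967635260368623824, -1204168626112372057669152, 478732818221303182174752,
  -182349172772694169801680, 66341716259464027735296, -22985198069953145650176,
  7561623406741069752312, -2355123084265530605208, 692386571065714154970, -191548959048467368428,
  49704614805903696348, -12055668290710237146, 2722865669558815704, -570292883970391200,
  110253366025215504, -19571589099563304, 3170876889400188, -465581026516152, 61440003184920,
  -7213960100892, 744332846712, -66435220992, 5024865336, -313132080, 15434754, -564204, 13596,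
  -162]

/-- numerators of the pair energy coefficients -/
def dZl : List ℤ := [2417851639229258349412351, 2417851639229258349412270,
  2417851639229258349409030, 2417851639229258349323710, 2417851639229258347659970,
  2417851639229258322038374, 2417851639229257997498158, 2417851639229254520281558,
  2417851639229222356028008, 2417851639228961468193658, 2417851639227083075786338,
  2417851639214958906611818, 2417851639144234586427118, 2417851638768851656216018,
  2417851636945563138047818, 2417851628801541090229858, 2417851595207450142980773,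
  2417851466759455344675448, 2417851010055473839589848, 2417849495721219375358648,
  2417844801285030536241928, 2417831165065624860712408, 2417793975376336654722808,
  2417698575738597343706008, 2417468026614060675415408, 2416942374610117071712840,
  2415810201063161617584232, 2413503921615659766581512, 2409056096966906196790552,
  2400927313988149672689832, 2386837423491638364248584, 2363657281061893953587176,
  2327438308515418311928726, 2273658622007015086435876, 2197734358701034062210676,
  2095778919404430972536836, 1965502524747660357953596, 1807058260975912313190196,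
  1623596481871782998200996, 1421318110039025035520596, 1208925819614629174706176,
  996533529190233313891756, 794255157357475351211356, 610793378253346036222156,
  452349114481597991458756, 322072719824827376875516, 220117280528224287201676,
  144193017222243262976476, 90413330713840037483626, 54194358167364395825176,
  31014215737619985163768, 16924325241108676722520, 8795542262352152621800,
  4347717613598582830840, 2041438166096731828120, 909264619141277699512, 383612615197673996944,
  153063490661005706344, 57663852921694689544, 20474163633488699944, 6837944227813170424,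
  2143508038974053704, 629173784509822504, 172469803004736904, 44021808206431579,
  10427717259182494, 2283695211364534, 460406693196334, 85023762985234, 14299442800534,
  2175273626014, 296881218694, 35993384344, 3829130794, 351914194, 27373978, 1752382, 88642, 3322,
  82, 1]

lemma tZl_eq : tZl = altL 1 (addL (horner w1l)
    (smulL (-1) (addL (horner w2l) (smulL (-2) (0 :: horner w2l))))) := by (clear * -; decide +kernel)

lemma dZl_eq : dZl = horner w3l := by (clear * -; decide +kernel)

lemma getD_map_range (f : ℕ → ℤ) (n s : ℕ) (h : s < n) : ((List.range n).map f).getD s 0 = f s := by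
  rw [List.getD_eq_getElem?_getD, List.getElem?_map, List.getElem?_range h]; rfl

lemma getD_horner_map (f : ℕ → ℤ) (n m : ℕ) :
    (horner ((List.range n).map f)).getD m 0 = ∑ s ∈ range n, f s * (s.choose m : ℤ) := by
  rw [getD_horner, List.length_map, List.length_range]
  apply sum_congr rfl; intro s hs
  rw [getD_map_range f n s (mem_range.1 hs)]

noncomputable section

/-- three-body energy coefficients -/
def tcoef (m : ℕ) : ℝ := (tZl.getD m 0 : ℝ) / 3 ^ 81

/-- pair energy coefficients -/
def dcoef (l : ℕ) : ℝ := (dZl.getD l 0 : ℝ) / (2 ^ 80 * (l.factorial : ℝ))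

lemma dcoef_nonneg (l : ℕ) (_ : l < 81) : 0 ≤ dcoef l := by
  have h : dZl.getD l 0 = ∑ s ∈ range 81, (2 ^ (80 - s) : ℤ) * (s.choose l : ℤ) := by
    rw [dZl_eq, w3l, getD_horner_map]
  have h2 : 0 ≤ dZl.getD l 0 := by
    rw [h]; apply sum_nonneg; intro s _
    exact mul_nonneg (pow_nonneg (by norm_num) _) (Int.natCast_nonneg _)
  have h3 : (0 : ℝ) ≤ (dZl.getD l 0 : ℝ) := by exact_mod_cast h2
  unfold dcoef; exact div_nonneg h3 (by positivity)

lemma dcoef_ge (l : ℕ) (h : l ≤ 20) : 19999 / 10000 / (l.factorial : ℝ) ≤ dcoef l := by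
  have h1 : ∀ l < 21, 19999 * 2 ^ 80 ≤ 10000 * dZl.getD l 0 := by (clear * -; decide +kernel)
  have h2 : (19999 : ℝ) * 2 ^ 80 ≤ 10000 * (dZl.getD l 0 : ℝ) := by
    exact_mod_cast h1 l (by omega)
  unfold dcoef
  rw [← div_div]
  apply div_le_div_of_nonneg_right _ (by positivity)
  rw [div_le_div_iff₀ (by norm_num) (by positivity)]
  linarith only [h2]

variable {lam : ℝ} (st : PlanarState lam)

lemma sum_Icc_range (a : ℕ) (f : ℕ → ℝ) :
    ∑ s ∈ Icc a 80, f s = ∑ s ∈ range 81, if a ≤ s then f s else 0 := by
  rw [← sum_filter]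
  apply sum_congr _ (fun _ _ => rfl)
  ext s
  rw [mem_Icc, mem_filter, mem_range]
  omega

lemma tcoef_eq (m : ℕ) : tcoef m
    = ∑ s ∈ range 81, (if 2 ≤ s then ((s : ℝ) - 1) * ((-1) ^ m * (s.choose m : ℝ) / 3 ^ s) else 0)
      - ∑ s ∈ range 81, (if 1 ≤ s then (-1) ^ m * ((s : ℝ) + 1) / 3 ^ (s + 1) *
          ((s.choose m : ℝ) - (if m = 0 then 0 else 2 * (s.choose (m - 1) : ℝ))) else 0) := by
  have h : tZl.getD m 0 = (-1) ^ m * (∑ s ∈ range 81,
      (if 2 ≤ s then ((s : ℤ) - 1) * 3 ^ (81 - s) else 0) * (s.choose m : ℤ)
      - ∑ s ∈ range 81, (if 1 ≤ s then ((s : ℤ) + 1) * 3 ^ (80 - s) else 0) *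
        ((s.choose m : ℤ) - (if m = 0 then 0 else 2 * (s.choose (m - 1) : ℤ)))) := by
    rw [tZl_eq, getD_altL, getD_addL, getD_smulL, getD_addL, getD_smulL, w1l, w2l,
      getD_horner_map, getD_horner_map]
    cases m with
    | zero => simp only [Int.reduceNeg, pow_zero, mul_one, Nat.choose_zero_right, Nat.cast_one, List.getD_eq_getElem?_getD, List.length_cons, lt_add_iff_pos_left, Order.lt_add_one_iff, zero_le, getElem?_pos, List.getElem_cons_zero, Option.getD_some, mul_zero, add_zero, neg_mul, one_mul, ↓reduceIte, sub_zero]; ring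
    | succ m =>
      rw [List.getD_cons_succ, getD_horner_map]
      simp only [if_neg (Nat.succ_ne_zero m), Nat.add_sub_cancel, mul_sub, sum_sub_distrib]
      rw [mul_sum (range 81) _ (-2 : ℤ)]
      have : ∀ s ∈ range 81, (-2 : ℤ) * ((if 1 ≤ s then ((s : ℤ) + 1) * 3 ^ (80 - s) else 0)
          * (s.choose m : ℤ)) = - ((if 1 ≤ s then ((s : ℤ) + 1) * 3 ^ (80 - s) else 0)
          * (2 * (s.choose m : ℤ))) := by intro s _; ring
      rw [sum_congr rfl this, sum_neg_distrib]
      ring
  rw [tcoef, h]
  push_cast
  rw [mul_sub, sub_div, mul_sum, mul_sum, sum_div, sum_div]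
  congr 1
  · apply sum_congr rfl; intro s hs
    rw [mem_range] at hs
    split_ifs with h2
    · have e : (3 : ℝ) ^ 81 = 3 ^ (81 - s) * 3 ^ s := by rw [← pow_add]; congr 1; omega
      rw [e]; (clear * -; field_simp)
    · simp only [zero_mul, mul_zero, zero_div]
  · apply sum_congr rfl; intro s hs
    rw [mem_range] at hs
    have e : (3 : ℝ) ^ 81 = 3 ^ (80 - s) * 3 ^ (s + 1) := by rw [← pow_add]; congr 1; omega
    rw [e]
    by_cases h2 : 1 ≤ s
    · rw [if_pos h2, if_pos h2]; field_simp
    · rw [if_neg h2, if_neg h2]; simp only [zero_mul, mul_zero, zero_div]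

lemma dcoef_eq (l : ℕ) : dcoef l
    = ∑ s ∈ range 81, (s.choose l : ℝ) / 2 ^ s / (l.factorial : ℝ) := by
  have h : dZl.getD l 0 = ∑ s ∈ range 81, (2 ^ (80 - s) : ℤ) * (s.choose l : ℤ) := by
    rw [dZl_eq, w3l, getD_horner_map]
  rw [dcoef, h]
  push_cast
  rw [sum_div]
  apply sum_congr rfl; intro s hs
  rw [mem_range] at hs
  have e : (2 : ℝ) ^ 80 = 2 ^ (80 - s) * 2 ^ s := by rw [← pow_add]; congr 1; omega
  rw [e]; field_simp

theorem energy_side :
    999 / 1000 + ∑ m ∈ range 82, tcoef m * gh st m + ∑ l ∈ range 81, dcoef l * ph st l ≤ lam := by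
  have h := st.energy
  rw [sum_Icc_range, sum_Icc_range, sum_Icc_range] at h
  -- three-body sums
  have t1 : ∑ s ∈ range 81, (if 1 ≤ s then st.g3 (0, s + 1) (s, 1) / (s.factorial : ℝ) else 0)
      = ∑ m ∈ range 82, (∑ s ∈ range 81, (if 1 ≤ s then (-1) ^ m * ((s : ℝ) + 1) / 3 ^ (s + 1) *
          ((s.choose m : ℝ) - (if m = 0 then 0 else 2 * (s.choose (m - 1) : ℝ))) else 0))
            * gh st m := by
    have e1 : ∀ s ∈ range 81,
        (if 1 ≤ s then st.g3 (0, s + 1) (s, 1) / (s.factorial : ℝ) else 0)
        = ∑ m ∈ range 82, (if 1 ≤ s then (-1) ^ m * ((s : ℝ) + 1) / 3 ^ (s + 1) *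
          ((s.choose m : ℝ) - (if m = 0 then 0 else 2 * (s.choose (m - 1) : ℝ))) else 0)
            * gh st m := by
      intro s hs
      rw [mem_range] at hs
      split_ifs with h1
      · have : st.g3 (0, s + 1) (s, 1) = B3 st (X 1 ^ (s + 1)) (X 0 ^ s * X 1) := by
          rw [← B3_m3, m3_eq, m3_eq]; simp only [Fin.isValue, pow_zero, one_mul, pow_one]
        rw [this, e3_second]
        apply sum_subset
        · intro m hm; rw [mem_range] at hm ⊢; omega
        · intro m _ hm
          rw [mem_range, not_lt] at hm
          rw [Nat.choose_eq_zero_of_lt (by omega : s < m),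
            Nat.choose_eq_zero_of_lt (by omega : s < m - 1)]
          simp only [CharP.cast_eq_zero, mul_zero, ite_self, sub_self, zero_mul]
      · simp
    rw [sum_congr rfl e1, sum_comm]
    apply sum_congr rfl; intro m _
    rw [sum_mul]
  have t2 : ∑ s ∈ range 81, (if 2 ≤ s then
      ((s : ℝ) - 1) / (s.factorial : ℝ) * st.g3 (0, s) (s, 0) else 0)
      = ∑ m ∈ range 82, (∑ s ∈ range 81,
          (if 2 ≤ s then ((s : ℝ) - 1) * ((-1) ^ m * (s.choose m : ℝ) / 3 ^ s) else 0))
            * gh st m := by
    have e1 : ∀ s ∈ range 81, (if 2 ≤ s then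
        ((s : ℝ) - 1) / (s.factorial : ℝ) * st.g3 (0, s) (s, 0) else 0)
        = ∑ m ∈ range 82, (if 2 ≤ s then ((s : ℝ) - 1) * ((-1) ^ m * (s.choose m : ℝ) / 3 ^ s)
            else 0) * gh st m := by
      intro s hs
      rw [mem_range] at hs
      split_ifs with h1
      · have h0 : st.g3 (0, s) (s, 0) = B3 st (X 1 ^ s) (X 0 ^ s) := by
          rw [← B3_m3, m3_eq, m3_eq]; simp only [Fin.isValue, pow_zero, one_mul, mul_one]
        have h2 : ((s : ℝ) - 1) / (s.factorial : ℝ) * st.g3 (0, s) (s, 0)
            = ((s : ℝ) - 1) * (B3 st (X 1 ^ s) (X 0 ^ s) / (s.factorial : ℝ)) := by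
          rw [h0]; ring
        rw [h2, e3_first, mul_sum]
        have h3 : ∀ m ∈ range (s + 1), ((s : ℝ) - 1) * ((-1) ^ m * (s.choose m : ℝ) / 3 ^ s * gh st m)
            = ((s : ℝ) - 1) * ((-1) ^ m * (s.choose m : ℝ) / 3 ^ s) * gh st m := by
          intro m _; ring
        rw [sum_congr rfl h3]
        apply sum_subset
        · intro m hm; rw [mem_range] at hm ⊢; omega
        · intro m _ hm
          rw [mem_range, not_lt] at hm
          rw [Nat.choose_eq_zero_of_lt (by omega : s < m)]
          simp only [CharP.cast_eq_zero, mul_zero, zero_div, zero_mul]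
      · simp
    rw [sum_congr rfl e1, sum_comm]
    apply sum_congr rfl; intro m _
    rw [sum_mul]
  have t3 : ∑ s ∈ range 81, (if 0 ≤ s then
      (2 : ℝ) ^ s / (s.factorial : ℝ) * (1 / 4) * pairSq st.g4 s else 0)
      = ∑ l ∈ range 81, (∑ s ∈ range 81, (s.choose l : ℝ) / 2 ^ s / (l.factorial : ℝ))
          * ph st l := by
    have e1 : ∀ s ∈ range 81, (if 0 ≤ s then
        (2 : ℝ) ^ s / (s.factorial : ℝ) * (1 / 4) * pairSq st.g4 s else 0)
        = ∑ l ∈ range 81, (s.choose l : ℝ) / 2 ^ s / (l.factorial : ℝ) * ph st l := by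
      intro s hs
      rw [mem_range] at hs
      rw [if_pos (Nat.zero_le s), ← B4_pp_sq, e4_first]
      apply sum_subset
      · intro m hm; rw [mem_range] at hm ⊢; omega
      · intro m _ hm
        rw [mem_range, not_lt] at hm
        rw [Nat.choose_eq_zero_of_lt (by omega : s < m)]
        simp only [CharP.cast_eq_zero, zero_div, zero_mul]
    rw [sum_congr rfl e1, sum_comm]
    apply sum_congr rfl; intro m _
    rw [sum_mul]
  rw [t1, t2, t3] at h
  have e2 : ∑ m ∈ range 82, tcoef m * gh st m
      = ∑ m ∈ range 82, (∑ s ∈ range 81,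
          (if 2 ≤ s then ((s : ℝ) - 1) * ((-1) ^ m * (s.choose m : ℝ) / 3 ^ s) else 0))
            * gh st m
        - ∑ m ∈ range 82, (∑ s ∈ range 81, (if 1 ≤ s then (-1) ^ m * ((s : ℝ) + 1) / 3 ^ (s + 1) *
          ((s.choose m : ℝ) - (if m = 0 then 0 else 2 * (s.choose (m - 1) : ℝ))) else 0))
            * gh st m := by
    rw [← sum_sub_distrib]
    apply sum_congr rfl; intro m _
    rw [tcoef_eq]; ring
  have e3 : ∑ l ∈ range 81, dcoef l * ph st l
      = ∑ l ∈ range 81, (∑ s ∈ range 81, (s.choose l : ℝ) / 2 ^ s / (l.factorial : ℝ))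
          * ph st l := by
    apply sum_congr rfl; intro l _; rw [dcoef_eq]
  rw [e2, e3]
  linarith only [h]

end

end Vale.Agent.P359
end
end

section

section

namespace Vale.Agent.P359

open Finset Filter

theorem fockH_eigenvalue_nonneg (Q : ℕ) (mu : ℝ) (h : Module.End.HasEigenvalue (fockH Q) mu) :
    0 ≤ mu := by
  obtain ⟨v, hv⟩ := h.exists_hasEigenvector
  have h1 : fockH Q v = mu • v := hv.apply_eq_smul
  have h2 : fockEnergy Q v = inner ℝ v (fockH Q v) := by
    rw [fockEnergy_eq]
  have h3 : 0 ≤ fockEnergy Q v := by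
    unfold fockEnergy
    (clear * -; positivity)
  rw [h2, h1, inner_smul_right, real_inner_self_eq_norm_sq] at h3
  have h4 : 0 < ‖v‖ ^ 2 := by
    have := norm_pos_iff.mpr hv.2
    (clear * - this; positivity)
  by_contra hneg
  push Not at hneg
  have : mu * ‖v‖ ^ 2 < 0 := mul_neg_of_neg_of_pos hneg h4
  linarith only [h3, this]

/-- a lower bound for planar states gives an eventual lower bound for the nonzero eigenvalues -/
theorem eigenvalue_bound_of_planar
    (hF : ∀ (Q : ℕ) (lam : ℝ), 1 ≤ Q → lam ≠ 0 → Module.End.HasEigenvalue (fockH Q) lam →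
      Nonempty (FinState Q lam))
    (d0 : ℝ) (hP : ∀ lam, Nonempty (PlanarState lam) → d0 < lam) :
    ∃ Q0 : ℕ, ∀ Q : ℕ, Q0 ≤ Q → ∀ mu : ℝ, mu ≠ 0 → Module.End.HasEigenvalue (fockH Q) mu →
      d0 ≤ mu := by
  by_contra hcon
  push Not at hcon
  choose Qs hQs mu hmu hev hlt using hcon
  let Q' : ℕ → ℕ := fun i => Qs (i + 1)
  let la : ℕ → ℝ := fun i => mu (i + 1)
  have hst : ∀ i, Nonempty (FinState (Q' i) (la i)) := by
    intro i
    have hi : i + 1 ≤ Qs (i + 1) := hQs (i + 1)
    exact hF _ _ (by show 1 ≤ Qs (i + 1); omega) (hmu (i + 1)) (hev (i + 1))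
  have htend : Tendsto Q' atTop atTop := by
    apply tendsto_atTop_mono (f := fun i : ℕ => i)
    · intro i
      have hi : i + 1 ≤ Qs (i + 1) := hQs (i + 1)
      show i ≤ Qs (i + 1)
      omega
    · exact tendsto_id
  obtain ⟨lam, hle, hne⟩ := exists_planar Q' la (fun i => (hst i).some) htend d0
    (fun i => fockH_eigenvalue_nonneg _ _ (hev (i + 1))) (fun i => (hlt (i + 1)).le)
  have := hP lam hne
  linarith

/-- from the planar bound to the Fock space gap -/
theorem fock_gap_of_planar
    (hF : ∀ (Q : ℕ) (lam : ℝ), 1 ≤ Q → lam ≠ 0 → Module.End.HasEigenvalue (fockH Q) lam →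
      Nonempty (FinState Q lam))
    (d0 : ℝ) (hP : ∀ lam, Nonempty (PlanarState lam) → d0 < lam) :
    ∃ Q0 : ℕ, ∀ Q : ℕ, Q0 ≤ Q → ∀ (N : ℕ) (Φ : Fock (Q + 1)),
      (∀ S : Finset (Fin (Q + 1)), S.card ≠ N → Φ S = 0) →
      ∃ Φ₀ : Fock (Q + 1), (∀ S : Finset (Fin (Q + 1)), S.card ≠ N → Φ₀ S = 0) ∧
        (∀ s < 2 * Q - 1, pairAnn Q s Φ₀ = 0) ∧ d0 * ‖Φ - Φ₀‖ ^ 2 ≤ fockEnergy Q Φ := by
  obtain ⟨Q0, hQ0⟩ := eigenvalue_bound_of_planar hF d0 hP
  exact ⟨Q0, fun Q hQ N Φ hΦ => gap_of_eigenvalues Q (hQ0 Q hQ) N Φ hΦ⟩

end Vale.Agent.P359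
end
end

section

section

/-!
The Fock representation satisfies the scaled canonical anticommutation relations, and a nonzero
eigenvalue of the Hamiltonian gives a normalised rotation invariant functional.
-/

set_option linter.unusedSectionVars false

namespace Vale.Agent.P359

open Finset

/-- scaled annihilators on Fock space -/
noncomputable def fockC (Q : ℕ) (a : ℕ) : Module.End ℝ (Fock (Q + 1)) :=
  if h : a < Q + 1 then Real.sqrt (nu Q a) • ann ⟨a, h⟩ else 0

theorem fockC_of_lt {Q a : ℕ} (h : a < Q + 1) :
    fockC Q a = Real.sqrt (nu Q a) • (ann ⟨a, h⟩ : Module.End ℝ (Fock (Q + 1))) := by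
  unfold fockC
  rw [dif_pos h]

theorem fockC_of_ge {Q a : ℕ} (h : Q < a) : fockC Q a = 0 := by
  unfold fockC
  rw [dif_neg (by omega)]

theorem fockC_coe (Q : ℕ) (a : Fin (Q + 1)) :
    fockC Q a = Real.sqrt (nu Q a) • (ann a : Module.End ℝ (Fock (Q + 1))) :=
  fockC_of_lt a.2

theorem ann_mul_ann {n : ℕ} (a b : Fin n) :
    (ann a : Module.End ℝ (Fock n)) * ann b = -(ann b * ann a) := by
  apply LinearMap.ext
  intro Φ
  have h := ann_ann a b Φ
  rw [LinearMap.neg_apply, Module.End.mul_apply, Module.End.mul_apply]
  exact eq_neg_of_add_eq_zero_left h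

theorem star_ann {n : ℕ} (a : Fin n) : star (ann a : Module.End ℝ (Fock n)) = cre a := by
  rw [LinearMap.star_eq_adjoint]
  rfl

theorem ann_mul_star {n : ℕ} (a b : Fin n) :
    (ann a : Module.End ℝ (Fock n)) * star (ann b : Module.End ℝ (Fock n))
      = (if a = b then (1 : ℝ) else 0) • (1 : Module.End ℝ (Fock n))
        - star (ann b : Module.End ℝ (Fock n)) * ann a := by
  rw [star_ann]
  apply LinearMap.ext
  intro Φ
  have h := ann_cre a b Φ
  rw [LinearMap.sub_apply, Module.End.mul_apply, Module.End.mul_apply, LinearMap.smul_apply,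
    Module.End.one_apply, eq_sub_iff_add_eq, h]
  split_ifs <;> simp

theorem scaledCAR_fockC (Q : ℕ) : ScaledCAR Q (fockC Q) where
  anti a b := by
    by_cases ha : a < Q + 1
    · by_cases hb : b < Q + 1
      · rw [fockC_of_lt ha, fockC_of_lt hb, smul_mul_smul_comm, smul_mul_smul_comm, ann_mul_ann,
          smul_neg, mul_comm (Real.sqrt (nu Q a))]
      · rw [fockC_of_ge (a := b) (by omega)]
        simp
    · rw [fockC_of_ge (a := a) (by omega)]
      simp
  cross a b := by
    by_cases ha : a < Q + 1
    · by_cases hb : b < Q + 1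
      · rw [fockC_of_lt ha, fockC_of_lt hb, star_smul, star_trivial, smul_mul_smul_comm,
          smul_mul_smul_comm, ann_mul_star, smul_sub, smul_smul,
          mul_comm (Real.sqrt (nu Q b))]
        congr 2
        by_cases hab : a = b
        · subst hab
          simp only [if_true, mul_one]
          exact Real.mul_self_sqrt (nu_nonneg Q a)
        · have h1 : (⟨a, ha⟩ : Fin (Q + 1)) ≠ ⟨b, hb⟩ := fun h => hab (Fin.mk.inj_iff.mp h)
          rw [if_neg hab, if_neg h1, mul_zero]
      · have hab : a ≠ b := by omega
        rw [fockC_of_ge (a := b) (by omega), if_neg hab]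
        simp only [star_zero, mul_zero, zero_smul, zero_mul, sub_self]
    · rw [fockC_of_ge (a := a) (by omega)]
      by_cases hab : a = b
      · rw [if_pos hab, nu_gt Q a (by omega)]
        simp only [zero_mul, zero_smul, mul_zero, sub_self]
      · rw [if_neg hab]
        simp only [zero_mul, zero_smul, mul_zero, sub_self]
  zero a ha := fockC_of_ge ha

/-! ### pair operators -/

theorem pairOp_eq_fin (Q s : ℕ) :
    pairOp Q (fockC Q) s = ∑ a : Fin (Q + 1), ∑ b : Fin (Q + 1),
      if (a : ℕ) + b = s + 1 then bcoef Q s a b • (fockC Q a * fockC Q b) else 0 := by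
  unfold pairOp
  have e1 : ∑ a : Fin (Q + 1), ∑ b : Fin (Q + 1),
      (if (a : ℕ) + b = s + 1 then bcoef Q s a b • (fockC Q a * fockC Q b) else 0)
      = ∑ ab ∈ range (Q + 1) ×ˢ range (Q + 1),
        if ab.1 + ab.2 = s + 1 then bcoef Q s ab.1 ab.2 • (fockC Q ab.1 * fockC Q ab.2)
        else 0 := by
    rw [sum_product, sum_range]
    refine sum_congr rfl fun a _ => ?_
    rw [sum_range]
  rw [e1, ← sum_filter]
  symm
  apply sum_subset
  · intro ab hab
    rw [HasAntidiagonal.mem_antidiagonal]
    exact (mem_filter.mp hab).2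
  · intro ab hab hnot
    rw [HasAntidiagonal.mem_antidiagonal] at hab
    have : Q < ab.1 ∨ Q < ab.2 := by
      by_contra hcon
      apply hnot
      rw [mem_filter, mem_product, mem_range, mem_range]
      exact ⟨⟨by omega, by omega⟩, hab⟩
    rcases this with h | h
    · rw [bcoef_gt_left Q s _ _ h, zero_smul]
    · rw [bcoef_gt_right Q s _ _ h, zero_smul]

theorem coef_identity (Q s a b : ℕ) (hQ : 1 ≤ Q) (ha : a ≤ Q) (hb : b ≤ Q)
    (hab : a + b = s + 1) :
    2 * bcoef Q s a b * (Real.sqrt (nu Q a) * Real.sqrt (nu Q b))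
      = Real.sqrt (rsq Q s) * beta Q a b := by
  have hab' : a + b - 1 = s := by omega
  unfold beta
  rw [hab']
  rcases Nat.eq_zero_or_pos ((2 * Q - 2).choose s) with hD | hD
  · unfold bcoef rsq
    rw [hD]
    simp only [CharP.cast_eq_zero, mul_zero, div_zero, zero_mul, Real.sqrt_zero]
  · have hQ' : (0 : ℝ) < (Q : ℝ) := by positivity
    have hD' : (0 : ℝ) < ((2 * Q - 2).choose s : ℝ) := by exact_mod_cast hD
    have hca : (0 : ℝ) < (Q.choose a : ℝ) := by exact_mod_cast Nat.choose_pos ha
    have hcb : (0 : ℝ) < (Q.choose b : ℝ) := by exact_mod_cast Nat.choose_pos hb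
    have key : (Q.choose a : ℝ) * (Q.choose b : ℝ) / ((Q : ℝ) * ((2 * Q - 2).choose s : ℝ))
        * (Real.sqrt (nu Q a) * Real.sqrt (nu Q b))
        = Real.sqrt (rsq Q s) * Real.sqrt ((Q.choose a : ℝ) * (Q.choose b : ℝ)
          / ((Q : ℝ) * ((2 * Q - 2).choose s : ℝ))) := by
      have h1 : (Q.choose a : ℝ) * (Q.choose b : ℝ) / ((Q : ℝ) * ((2 * Q - 2).choose s : ℝ))
          = Real.sqrt (((Q.choose a : ℝ) * (Q.choose b : ℝ)
            / ((Q : ℝ) * ((2 * Q - 2).choose s : ℝ))) ^ 2) := (Real.sqrt_sq (by (clear * - hca hcb hQ hD; positivity))).symm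
      have h2 : (Q : ℝ) ^ a * (Q : ℝ) ^ b = (Q : ℝ) ^ s * Q := by
        rw [← pow_add, hab, pow_succ]
      nth_rewrite 1 [h1]
      rw [← Real.sqrt_mul (nu_nonneg Q a), ← Real.sqrt_mul (by (clear * - hca hcb hQ hD; positivity)),
        ← Real.sqrt_mul (rsq_nonneg Q s)]
      congr 1
      unfold nu rsq
      rw [div_mul_div_comm, h2]
      (clear * - hQ hD hcb hca; field_simp)
    calc 2 * bcoef Q s a b * (Real.sqrt (nu Q a) * Real.sqrt (nu Q b))
        = ((b : ℝ) - a) * ((Q.choose a : ℝ) * (Q.choose b : ℝ)
          / ((Q : ℝ) * ((2 * Q - 2).choose s : ℝ))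
          * (Real.sqrt (nu Q a) * Real.sqrt (nu Q b))) := by
          unfold bcoef
          (clear * - hD hQ hcb hca; field_simp)
      _ = _ := by
          rw [key]
          ring

theorem pairOp_fockC (Q s : ℕ) (hQ : 1 ≤ Q) :
    pairOp Q (fockC Q) s
      = Real.sqrt (rsq Q s) • (pairAnn Q s : Module.End ℝ (Fock (Q + 1))) := by
  rw [pairOp_eq_fin]
  set g : Fin (Q + 1) → Fin (Q + 1) → Module.End ℝ (Fock (Q + 1)) := fun a b =>
    if (a : ℕ) + b = s + 1 then bcoef Q s a b • (fockC Q a * fockC Q b) else 0 with hg
  have hsymm : ∀ a b, g a b = g b a := by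
    intro a b
    simp only [hg]
    rw [add_comm (b : ℕ) (a : ℕ), bcoef_antisymm Q s a b, (scaledCAR_fockC Q).anti a b]
    simp only [smul_neg, neg_smul, neg_neg]
  have hdiag : ∀ a, g a a = 0 := by
    intro a
    have h1 : bcoef Q s a a = 0 := by
      unfold bcoef
      simp only [sub_self, zero_mul, zero_div]
    simp only [hg, h1, zero_smul, ite_self]
  have hsplit : ∀ a b, g a b = (if a < b then g a b else 0) + (if b < a then g a b else 0) := by
    intro a b
    rcases lt_trichotomy a b with h | h | h
    · rw [if_pos h, if_neg (not_lt.mpr h.le), add_zero]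
    · subst h
      rw [if_neg (lt_irrefl a), hdiag, add_zero]
    · rw [if_neg (not_lt.mpr h.le), if_pos h, zero_add]
  have e1 : ∑ a, ∑ b, g a b = ∑ a, ∑ b, (if a < b then (2 : ℝ) • g a b else 0) := by
    calc ∑ a, ∑ b, g a b
        = ∑ a, ∑ b, (if a < b then g a b else 0) + ∑ a, ∑ b, (if b < a then g a b else 0) := by
          rw [← sum_add_distrib]
          refine sum_congr rfl fun a _ => ?_
          rw [← sum_add_distrib]
          exact sum_congr rfl fun b _ => hsplit a b
      _ = ∑ a, ∑ b, (if a < b then g a b else 0) + ∑ a, ∑ b, (if a < b then g a b else 0) := by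
          congr 1
          rw [sum_comm]
          refine sum_congr rfl fun a _ => sum_congr rfl fun b _ => ?_
          rw [hsymm b a]
      _ = _ := by
          rw [← sum_add_distrib]
          refine sum_congr rfl fun a _ => ?_
          rw [← sum_add_distrib]
          refine sum_congr rfl fun b _ => ?_
          split_ifs
          · rw [two_smul]
          · rw [add_zero]
  rw [e1]
  unfold pairAnn
  rw [smul_sum]
  refine sum_congr rfl fun a _ => ?_
  rw [sum_filter, smul_sum]
  refine sum_congr rfl fun b _ => ?_
  by_cases hab : a < b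
  · by_cases hs : (a : ℕ) + b = s + 1
    · rw [if_pos hab, if_pos ⟨hab, hs⟩]
      simp only [hg, if_pos hs]
      have h1 := coef_identity Q s a b hQ (Nat.lt_succ_iff.mp a.2) (Nat.lt_succ_iff.mp b.2) hs
      rw [fockC_coe, fockC_coe, smul_mul_smul_comm, smul_smul, smul_smul, h1, ← smul_smul]
      rfl
    · rw [if_pos hab, if_neg (fun h => hs h.2)]
      simp only [hg, if_neg hs, smul_zero]
  · rw [if_neg hab, if_neg (fun h => hab h.1), smul_zero]

theorem ham_fockC (Q : ℕ) (hQ : 1 ≤ Q) : ham Q (fockC Q) = fockH Q := by
  unfold ham fockH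
  refine sum_congr rfl fun s hs => ?_
  have hs' : s ≤ 2 * Q - 2 := by
    have := mem_range.mp hs
    omega
  have h1 := rsq_pos Q s hQ hs'
  rw [pairOp_fockC Q s hQ, star_smul, star_trivial, smul_mul_smul_comm, smul_smul,
    Real.mul_self_sqrt h1.le, inv_mul_cancel₀ h1.ne', one_smul, LinearMap.star_eq_adjoint]
  rfl

/-! ### the functional attached to an eigenvalue -/

section Trace

variable {E : Type*} [NormedAddCommGroup E] [InnerProductSpace ℝ E] [FiniteDimensional ℝ E]

theorem trace_star (T : Module.End ℝ E) :
    LinearMap.trace ℝ E (star T) = LinearMap.trace ℝ E T := by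
  rw [LinearMap.trace_eq_sum_inner _ (stdOrthonormalBasis ℝ E),
    LinearMap.trace_eq_sum_inner _ (stdOrthonormalBasis ℝ E)]
  refine sum_congr rfl fun i _ => ?_
  rw [LinearMap.star_eq_adjoint, LinearMap.adjoint_inner_right, real_inner_comm]

theorem trace_star_mul_self_nonneg (T : Module.End ℝ E) :
    0 ≤ LinearMap.trace ℝ E (star T * T) := by
  rw [LinearMap.trace_eq_sum_inner _ (stdOrthonormalBasis ℝ E)]
  refine sum_nonneg fun i _ => ?_
  rw [LinearMap.star_eq_adjoint, Module.End.mul_apply, LinearMap.adjoint_inner_right]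
  exact real_inner_self_nonneg

variable (H : Module.End ℝ E) (lam : ℝ)

/-- orthogonal projection onto an eigenspace -/
noncomputable def eigProj : Module.End ℝ E :=
  ((Module.End.eigenspace H lam).starProjection : E →L[ℝ] E)

theorem eigProj_mem (x : E) : eigProj H lam x ∈ Module.End.eigenspace H lam := by
  simp only [eigProj, ContinuousLinearMap.coe_coe, Submodule.starProjection_apply_mem]

theorem eigProj_of_mem {x : E} (hx : x ∈ Module.End.eigenspace H lam) : eigProj H lam x = x := by
  simpa only [eigProj, ContinuousLinearMap.coe_coe] using Submodule.starProjection_eq_self_iff.mpr hx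

theorem eigProj_mul_self : eigProj H lam * eigProj H lam = eigProj H lam := by
  apply LinearMap.ext
  intro x
  exact eigProj_of_mem H lam (eigProj_mem H lam x)

theorem star_eigProj : star (eigProj H lam) = eigProj H lam := by
  rw [LinearMap.star_eq_adjoint]
  symm
  rw [LinearMap.eq_adjoint_iff]
  intro x y
  exact Submodule.inner_starProjection_left_eq_right _ x y

theorem mul_eigProj : H * eigProj H lam = lam • eigProj H lam := by
  apply LinearMap.ext
  intro x
  exact Module.End.mem_eigenspace_iff.mp (eigProj_mem H lam x)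

theorem commute_eigProj (T : Module.End ℝ E) (hT : T * H = H * T) (hT' : star T * H = H * star T) :
    T * eigProj H lam = eigProj H lam * T := by
  have key : ∀ S : Module.End ℝ E, S * H = H * S →
      eigProj H lam * (S * eigProj H lam) = S * eigProj H lam := by
    intro S hS
    apply LinearMap.ext
    intro x
    refine eigProj_of_mem H lam ?_
    rw [Module.End.mem_eigenspace_iff]
    have h1 : H (S (eigProj H lam x)) = S (H (eigProj H lam x)) := by
      have := congrArg (fun f => f (eigProj H lam x)) hS
      exact this.symm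
    rw [Module.End.mul_apply, h1, Module.End.mem_eigenspace_iff.mp (eigProj_mem H lam x), map_smul]
  have h1 := key T hT
  have h2 := congrArg star (key (star T) hT')
  simp only [star_mul, star_star, star_eigProj] at h2
  rw [← h1, ← mul_assoc, h2]

end Trace

section State

variable (Q : ℕ) (lam : ℝ)

/-- unnormalised functional -/
noncomputable def preOm : Module.End ℝ (Fock (Q + 1)) →ₗ[ℝ] ℝ :=
  (LinearMap.trace ℝ (Fock (Q + 1))) ∘ₗ (LinearMap.mulLeft ℝ (eigProj (fockH Q) lam))

theorem preOm_apply (x : Module.End ℝ (Fock (Q + 1))) :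
    preOm Q lam x = LinearMap.trace ℝ (Fock (Q + 1)) (eigProj (fockH Q) lam * x) := rfl

theorem preOm_star (x : Module.End ℝ (Fock (Q + 1))) : preOm Q lam (star x) = preOm Q lam x := by
  rw [preOm_apply, preOm_apply, ← trace_star (eigProj (fockH Q) lam * x), star_mul, star_eigProj,
    LinearMap.trace_mul_comm]

theorem preOm_pos (x : Module.End ℝ (Fock (Q + 1))) : 0 ≤ preOm Q lam (star x * x) := by
  have h : preOm Q lam (star x * x)
      = LinearMap.trace ℝ (Fock (Q + 1))
        (star (x * eigProj (fockH Q) lam) * (x * eigProj (fockH Q) lam)) := by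
    calc preOm Q lam (star x * x)
        = LinearMap.trace ℝ (Fock (Q + 1)) (eigProj (fockH Q) lam *
            (eigProj (fockH Q) lam * (star x * x))) := by
          rw [preOm_apply, ← mul_assoc (eigProj (fockH Q) lam) (eigProj (fockH Q) lam),
            eigProj_mul_self]
      _ = LinearMap.trace ℝ (Fock (Q + 1)) ((eigProj (fockH Q) lam * (star x * x))
            * eigProj (fockH Q) lam) := LinearMap.trace_mul_comm _ _ _
      _ = _ := by
          rw [star_mul, star_eigProj]
          simp only [mul_assoc]
  rw [h]
  exact trace_star_mul_self_nonneg _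

theorem preOm_comm (T : Module.End ℝ (Fock (Q + 1))) (hT : T * fockH Q = fockH Q * T)
    (hT' : star T * fockH Q = fockH Q * star T) (x : Module.End ℝ (Fock (Q + 1))) :
    preOm Q lam (T * x) = preOm Q lam (x * T) := by
  have h := commute_eigProj (fockH Q) lam T hT hT'
  calc preOm Q lam (T * x)
      = LinearMap.trace ℝ (Fock (Q + 1)) (T * (eigProj (fockH Q) lam * x)) := by
        rw [preOm_apply, ← mul_assoc, ← h, mul_assoc]
    _ = LinearMap.trace ℝ (Fock (Q + 1)) ((eigProj (fockH Q) lam * x) * T) :=
        LinearMap.trace_mul_comm _ _ _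
    _ = _ := by rw [preOm_apply, mul_assoc]

theorem preOm_eig (x : Module.End ℝ (Fock (Q + 1))) :
    preOm Q lam (x * fockH Q) = lam * preOm Q lam x := by
  calc preOm Q lam (x * fockH Q)
      = LinearMap.trace ℝ (Fock (Q + 1)) ((eigProj (fockH Q) lam * x) * fockH Q) := by
        rw [preOm_apply, mul_assoc]
    _ = LinearMap.trace ℝ (Fock (Q + 1)) (fockH Q * (eigProj (fockH Q) lam * x)) :=
        LinearMap.trace_mul_comm _ _ _
    _ = _ := by
        rw [← mul_assoc, mul_eigProj, smul_mul_assoc, map_smul, smul_eq_mul, preOm_apply]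

theorem ad_eq_zero_iff {R : Type*} [Ring R] (x y : R) : ad x y = 0 ↔ x * y = y * x := by
  unfold ad
  exact sub_eq_zero

theorem preOm_ladder (hQ : 1 ≤ Q) (x : Module.End ℝ (Fock (Q + 1))) :
    preOm Q lam (ladder Q (fockC Q) * x) = preOm Q lam (x * ladder Q (fockC Q)) := by
  have h1 := ad_ladder_ham (scaledCAR_fockC Q) hQ
  have h2 := ad_star_ladder_ham (scaledCAR_fockC Q) hQ
  rw [ham_fockC Q hQ, ad_eq_zero_iff] at h1 h2
  exact preOm_comm Q lam _ h1 h2 x

theorem preOm_star_ladder (hQ : 1 ≤ Q) (x : Module.End ℝ (Fock (Q + 1))) :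
    preOm Q lam (star (ladder Q (fockC Q)) * x) = preOm Q lam (x * star (ladder Q (fockC Q))) := by
  have h1 := ad_ladder_ham (scaledCAR_fockC Q) hQ
  have h2 := ad_star_ladder_ham (scaledCAR_fockC Q) hQ
  rw [ham_fockC Q hQ, ad_eq_zero_iff] at h1 h2
  refine preOm_comm Q lam _ h2 ?_ x
  rw [star_star]
  exact h1

theorem preOm_level (hQ : 1 ≤ Q) (x : Module.End ℝ (Fock (Q + 1))) :
    preOm Q lam (levelOp Q (fockC Q) * x) = preOm Q lam (x * levelOp Q (fockC Q)) := by
  have h1 := ad_levelOp_ham (scaledCAR_fockC Q) hQ
  rw [ham_fockC Q hQ, ad_eq_zero_iff] at h1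
  refine preOm_comm Q lam _ h1 ?_ x
  rw [OmegaState.star_level]
  exact h1

/-- `omega (B_s^* B_s) = r_s^2 omega (B_0^* B_0)` -/
theorem preOm_pair (hQ : 1 ≤ Q) (s : ℕ) (hs : s ≤ 2 * Q - 2) :
    br (preOm Q lam) (pairOp Q (fockC Q) s) (pairOp Q (fockC Q) s)
      = rsq Q s * br (preOm Q lam) (pairOp Q (fockC Q) 0) (pairOp Q (fockC Q) 0) := by
  have hcar := scaledCAR_fockC Q
  induction s with
  | zero => rw [rsq_zero, one_mul]
  | succ s ih =>
    have h1 := ih (by omega)
    set w := br (preOm Q lam) (pairOp Q (fockC Q) 0) (pairOp Q (fockC Q) 0) with hw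
    have h2 : br (preOm Q lam) (ad (ladder Q (fockC Q)) (pairOp Q (fockC Q) (s + 1)))
        (pairOp Q (fockC Q) s) = br (preOm Q lam) (pairOp Q (fockC Q) (s + 1))
        (ad (star (ladder Q (fockC Q))) (pairOp Q (fockC Q) s)) := by
      have := OmegaState.br_of_comm (om := preOm Q lam) (star (ladder Q (fockC Q)))
        (preOm_star_ladder Q lam hQ) (pairOp Q (fockC Q) (s + 1)) (pairOp Q (fockC Q) s)
      rwa [star_star] at this
    rw [ad_ladder_pair hcar hQ s hs, ad_star_ladder_pair hcar hQ s (by omega), br_neg_left,
      br_neg_right, br_smul_left, br_smul_right, h1] at h2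
    have h3 := rsq_ratio Q s hQ (by omega)
    have h4 : rsq Q s ≠ 0 := (rsq_pos Q s hQ (by omega)).ne'
    have h5 : rsq Q (s + 1) ≠ 0 := (rsq_pos Q (s + 1) hQ hs).ne'
    have hQ' : (Q : ℝ) ≠ 0 := by positivity
    have h6 : (2 * (Q : ℝ) - 2 - s) ≠ 0 := by
      have : ((s : ℕ) : ℝ) < ((2 * Q - 2 : ℕ) : ℝ) := by exact_mod_cast hs
      rw [cast_two_Q Q hQ] at this
      linarith only [this]
    have h7 : ((s : ℝ) + 1) * rsq Q s = (2 * (Q : ℝ) - 2 - s) / Q * rsq Q (s + 1) := by
      field_simp at h3 ⊢
      linarith only [h3]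
    have h8 : (2 * (Q : ℝ) - 2 - s) / Q ≠ 0 := div_ne_zero h6 hQ'
    have h9 : (2 * (Q : ℝ) - 2 - s) / Q
        * br (preOm Q lam) (pairOp Q (fockC Q) (s + 1)) (pairOp Q (fockC Q) (s + 1))
        = (2 * (Q : ℝ) - 2 - s) / Q * (rsq Q (s + 1) * w) := by
      have h10 : ((s : ℝ) + 1) * (rsq Q s * w)
          = (2 * (Q : ℝ) - 2 - s) / Q * (rsq Q (s + 1) * w) := by
        rw [← mul_assoc, h7, mul_assoc]
      linarith only [h2, h10]
    exact mul_left_cancel₀ h8 h9

theorem preOm_ham (hQ : 1 ≤ Q) :
    preOm Q lam (fockH Q) = (2 * (Q : ℝ) - 1)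
      * br (preOm Q lam) (pairOp Q (fockC Q) 0) (pairOp Q (fockC Q) 0) := by
  rw [← ham_fockC Q hQ]
  unfold ham
  rw [map_sum]
  have h1 : ∀ s ∈ range (2 * Q - 1), preOm Q lam ((rsq Q s)⁻¹ •
      (star (pairOp Q (fockC Q) s) * pairOp Q (fockC Q) s))
      = br (preOm Q lam) (pairOp Q (fockC Q) 0) (pairOp Q (fockC Q) 0) := by
    intro s hs
    have hs' : s ≤ 2 * Q - 2 := by
      have := mem_range.mp hs
      omega
    have h2 := preOm_pair Q lam hQ s hs'
    have h3 := (rsq_pos Q s hQ hs').ne'
    rw [map_smul, smul_eq_mul]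
    change (rsq Q s)⁻¹ * br (preOm Q lam) (pairOp Q (fockC Q) s) (pairOp Q (fockC Q) s) = _
    rw [h2, inv_mul_cancel_left₀ h3]
  rw [sum_congr rfl h1, sum_const, card_range, nsmul_eq_mul]
  congr 1
  rw [Nat.cast_sub (by omega)]
  push_cast
  ring

theorem preOm_one_pos (he : Module.End.HasEigenvalue (fockH Q) lam) :
    0 < preOm Q lam 1 := by
  obtain ⟨v, hv⟩ := he.exists_hasEigenvector
  have h0 : preOm Q lam 1 = ∑ i, ‖eigProj (fockH Q) lam
      ((stdOrthonormalBasis ℝ (Fock (Q + 1))) i)‖ ^ 2 := by
    rw [preOm_apply, mul_one, ← eigProj_mul_self]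
    nth_rewrite 1 [← star_eigProj]
    rw [LinearMap.trace_eq_sum_inner _ (stdOrthonormalBasis ℝ (Fock (Q + 1)))]
    refine sum_congr rfl fun i _ => ?_
    rw [LinearMap.star_eq_adjoint, Module.End.mul_apply, LinearMap.adjoint_inner_right,
      real_inner_self_eq_norm_sq, eigProj_mul_self]
  have h1 : 0 ≤ preOm Q lam 1 := by
    rw [h0]
    exact sum_nonneg fun _ _ => by (clear * -; positivity)
  refine lt_of_le_of_ne h1 fun h2 => ?_
  rw [h0, eq_comm, sum_eq_zero_iff_of_nonneg (fun _ _ => by (clear * -; positivity))] at h2
  have h3 : eigProj (fockH Q) lam = 0 := by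
    apply (stdOrthonormalBasis ℝ (Fock (Q + 1))).toBasis.ext
    intro i
    have := h2 i (mem_univ i)
    simpa only [OrthonormalBasis.coe_toBasis, LinearMap.zero_apply, ne_eq, OfNat.ofNat_ne_zero, not_false_eq_true,     pow_eq_zero_iff, norm_eq_zero] using this
  have h4 := eigProj_of_mem (fockH Q) lam hv.1
  rw [h3, LinearMap.zero_apply] at h4
  exact hv.2 h4.symm

/-- a nonzero eigenvalue of the Hamiltonian gives a normalised invariant functional -/
theorem exists_omegaState (hQ : 1 ≤ Q) (h0 : lam ≠ 0)
    (he : Module.End.HasEigenvalue (fockH Q) lam) :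
    ∃ om : Module.End ℝ (Fock (Q + 1)) →ₗ[ℝ] ℝ, OmegaState Q (fockC Q) om lam := by
  set w := br (preOm Q lam) (pairOp Q (fockC Q) 0) (pairOp Q (fockC Q) 0) with hw
  have hw0 : 0 ≤ w := preOm_pos Q lam _
  have h1 : lam * preOm Q lam 1 = (2 * (Q : ℝ) - 1) * w := by
    rw [← preOm_eig, one_mul, preOm_ham Q lam hQ]
  have h2 := preOm_one_pos Q lam he
  have hwne : w ≠ 0 := by
    intro hz
    rw [hz, mul_zero] at h1
    rcases mul_eq_zero.mp h1 with h | h
    · exact h0 h
    · exact h2.ne' h
  have hwpos : 0 < w := lt_of_le_of_ne hw0 (Ne.symm hwne)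
  refine ⟨w⁻¹ • preOm Q lam, ?_⟩
  refine
    { hQ := hQ
      car := scaledCAR_fockC Q
      om_star := fun x => ?_
      om_pos := fun x => ?_
      om_ladder := fun x => ?_
      om_level := fun x => ?_
      om_eig := fun x => ?_
      om_norm := ?_ }
  · rw [LinearMap.smul_apply, LinearMap.smul_apply, preOm_star]
  · rw [LinearMap.smul_apply, smul_eq_mul]
    exact mul_nonneg (inv_nonneg.mpr hw0) (preOm_pos Q lam x)
  · rw [LinearMap.smul_apply, LinearMap.smul_apply, preOm_ladder Q lam hQ]
  · rw [LinearMap.smul_apply, LinearMap.smul_apply, preOm_level Q lam hQ]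
  · rw [LinearMap.smul_apply, LinearMap.smul_apply, ham_fockC Q hQ, preOm_eig, smul_eq_mul,
      smul_eq_mul]
    ring
  · rw [LinearMap.smul_apply, smul_eq_mul]
    exact inv_mul_cancel₀ hwne

end State

end Vale.Agent.P359
end
end

section

section

namespace Vale.Agent.P359

open Finset

/-- the complexification of a real antisymmetric zero state is a multiple of the Laughlin vector -/
theorem real_kernel {N : ℕ} (Φ : (Fin N → Fin (3 * (N - 1) + 1)) → ℝ) (hΦ : IsAnti Φ)
    (h0 : ∀ s, s < 2 * (3 * (N - 1)) - 1 → ∀ i j, i < j → ∀ x, contr s Φ i j x = 0) :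
    ∃ c : ℂ, ∀ x, ((Φ x : ℝ) : ℂ) = c * laughlin N x := by
  let Ψ : Tensors N (3 * (N - 1)) := WithLp.toLp 2 fun x => ((Φ x : ℝ) : ℂ)
  have hΨ : Ψ ∈ Fermions N (3 * (N - 1)) := by
    intro σ x
    show ((Φ (x ∘ σ) : ℝ) : ℂ) = ((Equiv.Perm.sign σ : ℤ) : ℂ) * ((Φ x : ℝ) : ℂ)
    rw [hΦ σ x]
    push_cast
    ring
  have hnull : PairNull Ψ := by
    intro i j hij x s hs
    have h1 := h0 s hs i j hij x
    have hs2 : Real.sqrt 2 ≠ 0 := (Real.sqrt_pos.mpr (by norm_num)).ne'
    have h2 : (∑ p : Fin (3 * (N - 1) + 1),
        ∑ q ∈ univ.filter (fun q : Fin (3 * (N - 1) + 1) => (p : ℕ) + q = s + 1),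
          beta (3 * (N - 1)) p q * Φ (Function.update (Function.update x i p) j q)) = 0 := by
      have h3 : (∑ p : Fin (3 * (N - 1) + 1),
        ∑ q ∈ univ.filter (fun q : Fin (3 * (N - 1) + 1) => (p : ℕ) + q = s + 1),
          beta (3 * (N - 1)) p q * Φ (Function.update (Function.update x i p) j q))
          = Real.sqrt 2 * contr s Φ i j x := by
        unfold contr
        rw [mul_sum]
        refine sum_congr rfl fun p _ => ?_
        rw [mul_sum, sum_filter]
        refine sum_congr rfl fun q _ => ?_
        by_cases hpq : (p : ℕ) + q = s + 1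
        · rw [if_pos hpq, if_pos hpq]
          (clear * - hs2; field_simp)
        · rw [if_neg hpq, if_neg hpq, mul_zero]
      rw [h3, h1, mul_zero]
    have h4 := congrArg (fun r : ℝ => (r : ℂ)) h2
    simp only [Complex.ofReal_sum, Complex.ofReal_mul, Complex.ofReal_zero] at h4
    exact h4
  obtain ⟨c, hc⟩ := eq_smul_laughlin Ψ hΨ hnull
  refine ⟨c, fun x => ?_⟩
  have : Ψ x = (c • laughlin N) x := by rw [← hc]
  rw [PiLp.smul_apply, smul_eq_mul] at this
  exact this

theorem exists_finState (Q : ℕ) (lam : ℝ) (hQ : 1 ≤ Q) (h0 : lam ≠ 0)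
    (he : Module.End.HasEigenvalue (fockH Q) lam) : Nonempty (FinState Q lam) := by
  obtain ⟨om, h⟩ := exists_omegaState Q lam hQ h0 he
  exact ⟨h.toFin⟩

/-- the spectral gap of the spherical Laughlin Hamiltonian from the planar bound -/
theorem laughlin_gap_of_planar (d0 : ℝ) (hd0 : 0 < d0)
    (hP : ∀ lam, Nonempty (PlanarState lam) → d0 < lam) :
    ∃ N0 : ℕ, ∀ N : ℕ, N0 ≤ N → ∀ Ψ ∈ Fermions N (3 * (N - 1)),
      d0 * ‖Ψ - (Submodule.span ℂ {laughlin N}).starProjection Ψ‖ ^ 2 ≤
        (inner ℂ Ψ (hamiltonian N (3 * (N - 1)) Ψ)).re := by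
  obtain ⟨Q0, hQ0⟩ := fock_gap_of_planar exists_finState d0 hP
  refine ⟨Q0 + 2, fun N hN Ψ hΨ => ?_⟩
  refine gap_assembly hd0 (laughlin N) (hQ0 (3 * (N - 1)) (by omega) N)
    real_kernel (betaVec (3 * (N - 1))) (fun s _ p => rfl) (fun ψ => pairProj_ge _ (by omega) ψ) hΨ

end Vale.Agent.P359
end
end

section

section

/-!
The pair vectors span the total-spin `Q - 1` component of `U_Q ⊗ U_Q`.
-/

namespace Vale.Agent.P359

open Finset

/-- row action of `J_+`, complex version -/
theorem sum_Jp_c {Q : ℕ} (a : Fin (Q + 1)) (F : ℕ → ℂ) :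
    ∑ c : Fin (Q + 1), Jp Q a c * F c
      = ((Real.sqrt (((a : ℕ) + 1 : ℝ) * ((Q : ℝ) - ((a : ℕ) : ℝ))) : ℝ) : ℂ)
        * F ((a : ℕ) + 1) := by
  unfold Jp
  by_cases ha : (a : ℕ) + 1 < Q + 1
  · rw [Finset.sum_eq_single (⟨(a : ℕ) + 1, ha⟩ : Fin (Q + 1))]
    · simp only [Matrix.of_apply, if_true]
      push_cast
      congr 3
      ring_nf
    · intro c _ hc
      have : ¬ ((c : ℕ) = (a : ℕ) + 1) := by
        intro h
        exact hc (Fin.ext h)
      simp only [Nat.cast_nonneg, Real.sqrt_mul, Complex.ofReal_mul, Matrix.of_apply, this, ↓reduceIte, zero_mul]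
    · simp only [mem_univ, not_true_eq_false, Nat.cast_nonneg, Real.sqrt_mul, Complex.ofReal_mul, Matrix.of_apply, Nat.add_left_cancel_iff, ↓reduceIte, Nat.cast_add, Nat.cast_one, mul_eq_zero, Complex.ofReal_eq_zero, IsEmpty.forall_iff]
  · have haQ : (a : ℕ) = Q := by omega
    rw [Finset.sum_eq_zero]
    · rw [haQ]; simp
    · intro c _
      have : ¬ ((c : ℕ) = (a : ℕ) + 1) := by omega
      simp only [Nat.cast_nonneg, Real.sqrt_mul, Complex.ofReal_mul, Matrix.of_apply, this, ↓reduceIte, zero_mul]

/-- row action of `J_-`, complex version -/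
theorem sum_Jm_c {Q : ℕ} (a : Fin (Q + 1)) (F : ℕ → ℂ) :
    ∑ c : Fin (Q + 1), Jm Q a c * F c
      = ((Real.sqrt (((a : ℕ) : ℝ) * ((Q : ℝ) - ((a : ℕ) : ℝ) + 1)) : ℝ) : ℂ)
        * F ((a : ℕ) - 1) := by
  unfold Jm Jp
  by_cases ha : (a : ℕ) = 0
  · rw [Finset.sum_eq_zero]
    · rw [ha]; simp
    · intro c _
      have : ¬ ((a : ℕ) = (c : ℕ) + 1) := by omega
      simp only [Nat.cast_nonneg, Real.sqrt_mul, Complex.ofReal_mul, Matrix.conjTranspose_apply, Matrix.of_apply, this, ↓reduceIte, star_zero, zero_mul]
  · have ha' : (a : ℕ) - 1 < Q + 1 := by omega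
    rw [Finset.sum_eq_single (⟨(a : ℕ) - 1, ha'⟩ : Fin (Q + 1))]
    · have h1 : (a : ℕ) = (a : ℕ) - 1 + 1 := by omega
      simp only [Matrix.conjTranspose_apply, Matrix.of_apply]
      rw [if_pos h1]
      simp only [Nat.cast_nonneg, Real.sqrt_mul, Complex.ofReal_mul, star_mul', RCLike.star_def, Complex.conj_ofReal]
    · intro c _ hc
      have : ¬ ((a : ℕ) = (c : ℕ) + 1) := by
        intro h
        apply hc
        apply Fin.ext
        simp only
        omega
      simp only [Nat.cast_nonneg, Real.sqrt_mul, Complex.ofReal_mul, Matrix.conjTranspose_apply, Matrix.of_apply, this, ↓reduceIte, star_zero, zero_mul]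
    · simp only [mem_univ, not_true_eq_false, Nat.cast_nonneg, Real.sqrt_mul, Complex.ofReal_mul, Matrix.conjTranspose_apply, Matrix.of_apply, RCLike.star_def, mul_eq_zero, map_eq_zero, ite_eq_right_iff, Complex.ofReal_eq_zero, Real.sqrt_eq_zero, Nat.cast_eq_zero, Fin.val_eq_zero_iff, IsEmpty.forall_iff]

/-- restriction of a function on `ℕ × ℕ` -/
def restr (Q : ℕ) (G : ℕ → ℕ → ℂ) : Fin (Q + 1) × Fin (Q + 1) → ℂ := fun p => G p.1 p.2

/-- extension by zero to `ℕ × ℕ` -/
def extz {Q : ℕ} (v : Fin (Q + 1) × Fin (Q + 1) → ℂ) : ℕ → ℕ → ℂ := fun a b =>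
  if h : a < Q + 1 ∧ b < Q + 1 then v (⟨a, h.1⟩, ⟨b, h.2⟩) else 0

theorem restr_extz {Q : ℕ} (v : Fin (Q + 1) × Fin (Q + 1) → ℂ) : restr Q (extz v) = v := by
  funext ⟨a, b⟩
  have h : (a : ℕ) < Q + 1 ∧ (b : ℕ) < Q + 1 := ⟨a.2, b.2⟩
  simp only [restr, extz]
  rw [dif_pos h]

/-- coefficient of `J_+` -/
noncomputable def up (Q a : ℕ) : ℂ :=
  ((Real.sqrt (((a : ℝ) + 1) * ((Q : ℝ) - (a : ℝ))) : ℝ) : ℂ)

/-- coefficient of `J_-` -/
noncomputable def dn (Q a : ℕ) : ℂ :=
  ((Real.sqrt ((a : ℝ) * ((Q : ℝ) - (a : ℝ) + 1)) : ℝ) : ℂ)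

theorem total_Jp_restr (Q : ℕ) (G : ℕ → ℕ → ℂ) :
    (total (Jp Q)).mulVec (restr Q G)
      = restr Q fun a b => up Q a * G (a + 1) b + up Q b * G a (b + 1) := by
  funext ⟨a, b⟩
  rw [total_mulVec]
  exact congrArg₂ (· + ·) (sum_Jp_c a (fun c => G c b)) (sum_Jp_c b (fun c => G a c))

theorem total_Jm_restr (Q : ℕ) (G : ℕ → ℕ → ℂ) :
    (total (Jm Q)).mulVec (restr Q G)
      = restr Q fun a b => dn Q a * G (a - 1) b + dn Q b * G a (b - 1) := by
  funext ⟨a, b⟩
  rw [total_mulVec]
  exact congrArg₂ (· + ·) (sum_Jm_c a (fun c => G c b)) (sum_Jm_c b (fun c => G a c))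

theorem total_Jz_restr (Q : ℕ) (G : ℕ → ℕ → ℂ) :
    (total (Jz Q)).mulVec (restr Q G)
      = restr Q fun a b => ((Q : ℂ) - (a : ℂ) - (b : ℂ)) * G a b := by
  funext ⟨a, b⟩
  rw [total_mulVec, sum_Jz a (fun c => restr Q G (c, b)), sum_Jz b (fun c => restr Q G (a, c))]
  simp only [restr]
  ring

theorem up_sq {Q a : ℕ} (ha : a ≤ Q) : up Q a * up Q a = ((a : ℂ) + 1) * ((Q : ℂ) - (a : ℂ)) := by
  unfold up
  rw [← Complex.ofReal_mul, Real.mul_self_sqrt]
  · push_cast; ring
  · have : (a : ℝ) ≤ Q := by exact_mod_cast ha
    have : (0 : ℝ) ≤ (Q : ℝ) - (a : ℝ) := by linarith only [this]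
    positivity

theorem dn_sq {Q a : ℕ} (ha : a ≤ Q) : dn Q a * dn Q a = (a : ℂ) * ((Q : ℂ) - (a : ℂ) + 1) := by
  unfold dn
  rw [← Complex.ofReal_mul, Real.mul_self_sqrt]
  · push_cast; ring
  · have : (a : ℝ) ≤ Q := by exact_mod_cast ha
    have : (0 : ℝ) ≤ (Q : ℝ) - (a : ℝ) + 1 := by linarith only [this]
    positivity

theorem up_ne_zero {Q a : ℕ} (ha : a < Q) : up Q a ≠ 0 := by
  intro h
  have h2 := up_sq ha.le
  rw [h, mul_zero] at h2
  have h3 : ((a : ℂ) + 1) ≠ 0 := by exact_mod_cast Nat.succ_ne_zero a
  have h4 : ((Q : ℂ) - (a : ℂ)) ≠ 0 := by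
    rw [sub_ne_zero]
    exact_mod_cast ha.ne'
  exact (mul_ne_zero h3 h4) h2.symm

theorem dn_ne_zero {Q a : ℕ} (ha : a ≤ Q) (h0 : 0 < a) : dn Q a ≠ 0 := by
  intro h
  have h2 := dn_sq ha
  rw [h, mul_zero] at h2
  have h3 : (a : ℂ) ≠ 0 := by exact_mod_cast h0.ne'
  have h4 : ((Q : ℂ) - (a : ℂ) + 1) ≠ 0 := by
    intro h5
    have h6 : ((Q + 1 : ℕ) : ℂ) = ((a : ℕ) : ℂ) := by
      push_cast
      linear_combination h5
    have h7 : Q + 1 = a := by exact_mod_cast h6
    omega
  exact (mul_ne_zero h3 h4) h2.symm

theorem dn_zero (Q : ℕ) : dn Q 0 = 0 := by simp [dn]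

theorem up_self (Q : ℕ) : up Q Q = 0 := by simp [up]

theorem dn_succ (Q a : ℕ) : dn Q (a + 1) = up Q a := by
  unfold dn up
  congr 2
  push_cast
  ring

/-- the matrix of the total spin squared -/
theorem spinSq_restr (Q : ℕ) (G : ℕ → ℕ → ℂ) (a b : Fin (Q + 1)) :
    (spinSq Q).mulVec (restr Q G) (a, b)
      = (((Q : ℂ) - ((a : ℕ) : ℂ) - ((b : ℕ) : ℂ)) ^ 2
          + (((a : ℕ) : ℂ) + 1) * ((Q : ℂ) - ((a : ℕ) : ℂ)) / 2
          + (((b : ℕ) : ℂ) + 1) * ((Q : ℂ) - ((b : ℕ) : ℂ)) / 2
          + ((a : ℕ) : ℂ) * ((Q : ℂ) - ((a : ℕ) : ℂ) + 1) / 2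
          + ((b : ℕ) : ℂ) * ((Q : ℂ) - ((b : ℕ) : ℂ) + 1) / 2) * G a b
        + up Q a * dn Q b * G ((a : ℕ) + 1) ((b : ℕ) - 1)
        + up Q b * dn Q a * G ((a : ℕ) - 1) ((b : ℕ) + 1) := by
  unfold spinSq
  rw [Matrix.add_mulVec, ← Matrix.mulVec_mulVec, total_Jz_restr, total_Jz_restr,
    Matrix.smul_mulVec, Matrix.add_mulVec, ← Matrix.mulVec_mulVec, ← Matrix.mulVec_mulVec,
    total_Jm_restr, total_Jp_restr, total_Jp_restr, total_Jm_restr]
  simp only [Pi.add_apply, Pi.smul_apply, restr, smul_eq_mul, Nat.add_sub_cancel]
  have haQ : (a : ℕ) ≤ Q := by omega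
  have hbQ : (b : ℕ) ≤ Q := by omega
  have ua := up_sq haQ
  have ub := up_sq hbQ
  have da := dn_sq haQ
  have db := dn_sq hbQ
  have ea : dn Q a * (up Q ((a : ℕ) - 1) * G ((a : ℕ) - 1 + 1) b + up Q b * G ((a : ℕ) - 1) (b + 1))
      = dn Q a * (dn Q a * G a b + up Q b * G ((a : ℕ) - 1) (b + 1)) := by
    rcases Nat.eq_zero_or_pos (a : ℕ) with h | h
    · rw [h, dn_zero]; simp only [zero_tsub, zero_add, zero_mul]
    · have h1 : (a : ℕ) - 1 + 1 = a := by omega
      have h2 : up Q ((a : ℕ) - 1) = dn Q a := by rw [← dn_succ, h1]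
      rw [h1, h2]
  have eb : dn Q b * (up Q a * G (a + 1) ((b : ℕ) - 1) + up Q ((b : ℕ) - 1) * G a ((b : ℕ) - 1 + 1))
      = dn Q b * (up Q a * G (a + 1) ((b : ℕ) - 1) + dn Q b * G a b) := by
    rcases Nat.eq_zero_or_pos (b : ℕ) with h | h
    · rw [h, dn_zero]; simp
    · have h1 : (b : ℕ) - 1 + 1 = b := by omega
      have h2 : up Q ((b : ℕ) - 1) = dn Q b := by rw [← dn_succ, h1]
      rw [h1, h2]
  rw [ea, eb, dn_succ, dn_succ]
  linear_combination (1 / 2 * G a b) * ua + (1 / 2 * G a b) * ub + (1 / 2 * G a b) * da
    + (1 / 2 * G a b) * db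

/-- an eigenvector vanishing at the first point of every antidiagonal vanishes -/
theorem eigen_zero {Q : ℕ} (lam : ℂ) (v : Fin (Q + 1) × Fin (Q + 1) → ℂ)
    (hv : (spinSq Q).mulVec v = lam • v) (h0 : ∀ b, v (0, b) = 0)
    (hQ : ∀ a, v (a, Fin.last Q) = 0) : v = 0 := by
  have key : ∀ n : ℕ, n ≤ Q → ∀ (a b : Fin (Q + 1)), (a : ℕ) ≤ n → v (a, b) = 0 := by
    intro n
    induction n with
    | zero =>
      intro _ a b ha
      have : a = 0 := Fin.ext (by simpa only [Fin.coe_ofNat_eq_mod, Nat.zero_mod, Fin.val_eq_zero_iff, nonpos_iff_eq_zero] using ha)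
      rw [this]; exact h0 b
    | succ n ih =>
      intro hn a b ha
      by_cases ha' : (a : ℕ) ≤ n
      · exact ih (by omega) a b ha'
      · have han : (a : ℕ) = n + 1 := by omega
        by_cases hb : b = Fin.last Q
        · rw [hb]; exact hQ a
        · have hbQ : (b : ℕ) < Q := by
            have := b.2
            have h2 : (b : ℕ) ≠ Q := fun h => hb (Fin.ext h)
            omega
          -- equation at `(n, b + 1)`
          have hn1 : n < Q + 1 := by omega
          have hb1 : (b : ℕ) + 1 < Q + 1 := by omega
          have e := congrFun hv (⟨n, hn1⟩, ⟨(b : ℕ) + 1, hb1⟩)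
          rw [← restr_extz v, spinSq_restr] at e
          simp only [Pi.smul_apply, restr, smul_eq_mul] at e
          have z1 : extz v n ((b : ℕ) + 1) = 0 := by
            simp only [extz]
            rw [dif_pos ⟨hn1, hb1⟩]
            exact ih (by omega) _ _ le_rfl
          have z2 : dn Q n * extz v (n - 1) ((b : ℕ) + 1 + 1) = 0 := by
            rcases Nat.eq_zero_or_pos n with h | h
            · rw [h, dn_zero, zero_mul]
            · simp only [extz]
              split_ifs with h2
              · rw [ih (by omega) ⟨n - 1, h2.1⟩ ⟨(b : ℕ) + 1 + 1, h2.2⟩ (by simp only [tsub_le_iff_right, le_add_iff_nonneg_right, zero_le]), mul_zero]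
              · rw [mul_zero]
          have z3 : extz v (n + 1) ((b : ℕ) + 1 - 1) = v (a, b) := by
            simp only [extz, Nat.add_sub_cancel]
            rw [dif_pos ⟨by omega, b.2⟩]
            congr 1
            exact Prod.ext (Fin.ext han.symm) rfl
          rw [z1, z3, mul_assoc (up Q ((b : ℕ) + 1)), z2] at e
          simp only [mul_zero, zero_add, add_zero] at e
          have c1 : up Q n ≠ 0 := up_ne_zero (by omega)
          have c2 : dn Q ((b : ℕ) + 1) ≠ 0 := dn_ne_zero (by omega) (by omega)
          exact (mul_eq_zero.1 e).resolve_left (mul_ne_zero c1 c2)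
  funext ⟨a, b⟩
  exact key Q le_rfl a b (by omega)

theorem mem_spinComponent_iff {Q : ℕ} {J : ℂ}
    (v : EuclideanSpace ℂ (Fin (Q + 1) × Fin (Q + 1))) :
    v ∈ spinComponent Q J ↔ (spinSq Q).mulVec v.ofLp = (J * (J + 1)) • v.ofLp := by
  unfold spinComponent
  rw [LinearMap.mem_ker]
  have h : Matrix.toEuclideanLin (spinSq Q - (J * (J + 1)) • (1 : Matrix _ _ ℂ)) v
      = WithLp.toLp 2 ((spinSq Q - (J * (J + 1)) • (1 : Matrix _ _ ℂ)).mulVec v.ofLp) := by
    rw [Matrix.toLpLin_apply]
  rw [h, Matrix.sub_mulVec, Matrix.smul_mulVec, Matrix.one_mulVec]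
  constructor
  · intro h2
    have h3 := congrArg WithLp.ofLp h2
    simp only [WithLp.ofLp_zero] at h3
    exact sub_eq_zero.1 h3
  · intro h2
    rw [h2, sub_self]
    rfl

/-- first point of the antidiagonal `n`: value of the unnormalized pair vector -/
theorem wAmp_first_ne_zero {Q n : ℕ} (h1 : 1 ≤ n) (h2 : n < 2 * Q) :
    wAmp Q n (n - Q) (n - (n - Q)) ≠ 0 := by
  unfold wAmp
  rw [if_pos (by omega)]
  have hc1 : 0 < Nat.choose Q (n - Q) := Nat.choose_pos (by omega)
  have hc2 : 0 < Nat.choose Q (n - (n - Q)) := Nat.choose_pos (by omega)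
  refine mul_ne_zero ?_ (mul_ne_zero ?_ ?_)
  · rw [sub_ne_zero]
    have : n - (n - Q) ≠ n - Q := by omega
    exact_mod_cast this
  · exact (Real.sqrt_pos.2 (by exact_mod_cast hc1)).ne'
  · exact (Real.sqrt_pos.2 (by exact_mod_cast hc2)).ne'

/-- every element of the spin `Q - 1` component is a combination of the pair vectors -/
theorem spinComponent_le_span (Q : ℕ) (hQ : 1 ≤ Q) :
    spinComponent Q ((Q : ℂ) - 1) ≤
      Submodule.span ℂ (Set.range fun s : Fin (2 * Q - 1) => betaVec Q s) := by
  intro v hv
  have hv' := (mem_spinComponent_iff v).1 hv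
  have hlam : ((Q : ℂ) - 1) * ((Q : ℂ) - 1 + 1) = (Q : ℂ) * ((Q : ℂ) - 1) := by ring
  rw [hlam] at hv'
  -- subtract the pair vectors
  let c : ℕ → ℂ := fun s => extz v.ofLp (s + 1 - Q) (s + 1 - (s + 1 - Q))
    / ((wAmp Q (s + 1) (s + 1 - Q) (s + 1 - (s + 1 - Q)) : ℝ) : ℂ)
  let u : Fin (Q + 1) × Fin (Q + 1) → ℂ := v.ofLp - ∑ s ∈ range (2 * Q - 1), c s • wVec Q (s + 1)
  have hu : (spinSq Q).mulVec u = ((Q : ℂ) * ((Q : ℂ) - 1)) • u := by
    simp only [u]
    rw [Matrix.mulVec_sub, hv', smul_sub, Matrix.mulVec_sum, Finset.smul_sum]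
    congr 1
    refine Finset.sum_congr rfl fun s _ => ?_
    rw [Matrix.mulVec_smul, spinSq_wVec, smul_comm]
  have hval : ∀ a b : Fin (Q + 1), ((a : ℕ) = 0 ∨ (b : ℕ) = Q) → u (a, b) = 0 := by
    intro a b hab
    by_cases hmid : 1 ≤ (a : ℕ) + b ∧ (a : ℕ) + b < 2 * Q
    · simp only [u, Pi.sub_apply, Finset.sum_apply, Pi.smul_apply, smul_eq_mul, wVec]
      rw [Finset.sum_eq_single ((a : ℕ) + b - 1)]
      · have e1 : (a : ℕ) + b - 1 + 1 = (a : ℕ) + b := by omega
        have e2 : (a : ℕ) + b - Q = a := by omega
        have e3 : (a : ℕ) + b - a = b := by omega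
        simp only [c, e1, e2, e3]
        have hne := wAmp_first_ne_zero hmid.1 hmid.2
        rw [e2, e3] at hne
        have hne' : ((wAmp Q ((a : ℕ) + b) a b : ℝ) : ℂ) ≠ 0 := by exact_mod_cast hne
        rw [div_mul_cancel₀ _ hne']
        simp only [extz]
        rw [dif_pos ⟨a.2, b.2⟩]
        simp
      · intro s _ hs
        have : wAmp Q (s + 1) a b = 0 := by
          unfold wAmp
          rw [if_neg (by omega)]
        rw [this]; simp
      · intro hs
        exact absurd (Finset.mem_range.2 (by (clear * - hQ hmid; omega))) hs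
    · -- corner points
      have e := congrFun hu (a, b)
      rw [← restr_extz u, spinSq_restr] at e
      simp only [Pi.smul_apply, restr, smul_eq_mul] at e
      rcases Nat.lt_or_ge ((a : ℕ) + b) 1 with h | h
      · have ha : (a : ℕ) = 0 := by omega
        have hb : (b : ℕ) = 0 := by omega
        rw [ha, hb, dn_zero] at e
        simp only [Nat.cast_zero, mul_zero, zero_mul, add_zero] at e
        have e4 : extz u 0 0 = 0 := by
          have h5 : (2 * (Q : ℂ)) * extz u 0 0 = 0 := by linear_combination e
          have h6 : (2 * (Q : ℂ)) ≠ 0 := by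
            have : (Q : ℂ) ≠ 0 := by exact_mod_cast (by omega : Q ≠ 0)
            exact mul_ne_zero two_ne_zero this
          exact (mul_eq_zero.1 h5).resolve_left h6
        have e5 : extz u a b = u (a, b) := by
          simp only [extz]
          rw [dif_pos ⟨a.2, b.2⟩]
        rw [← e5, ha, hb, e4]
      · have ha : (a : ℕ) = Q := by omega
        have hb : (b : ℕ) = Q := by omega
        rw [ha, hb, up_self] at e
        simp only [zero_mul, add_zero] at e
        have e4 : extz u Q Q = 0 := by
          have h5 : (2 * (Q : ℂ)) * extz u Q Q = 0 := by linear_combination e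
          have h6 : (2 * (Q : ℂ)) ≠ 0 := by
            have : (Q : ℂ) ≠ 0 := by exact_mod_cast (by omega : Q ≠ 0)
            exact mul_ne_zero two_ne_zero this
          exact (mul_eq_zero.1 h5).resolve_left h6
        have e5 : extz u a b = u (a, b) := by
          simp only [extz]
          rw [dif_pos ⟨a.2, b.2⟩]
        rw [← e5, ha, hb, e4]
  have hu0 : u = 0 := eigen_zero _ u hu (fun b => hval 0 b (Or.inl rfl))
    (fun a => hval a (Fin.last Q) (Or.inr rfl))
  have hv2 : v = ∑ s ∈ range (2 * Q - 1),
      c s • (WithLp.toLp 2 (wVec Q (s + 1)) : EuclideanSpace ℂ (Fin (Q + 1) × Fin (Q + 1))) := by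
    have h3 : v.ofLp = ∑ s ∈ range (2 * Q - 1), c s • wVec Q (s + 1) := sub_eq_zero.1 hu0
    ext p
    have h4 := congrFun h3 p
    rw [h4]
    simp only [Finset.sum_apply, Pi.smul_apply, smul_eq_mul, WithLp.ofLp_sum, WithLp.ofLp_smul]
  rw [hv2]
  refine Submodule.sum_mem _ fun s hs => Submodule.smul_mem _ _ ?_
  have hs' : s < 2 * Q - 1 := Finset.mem_range.1 hs
  have hpos : (0 : ℝ) < 2 * (Q : ℝ) * (Nat.choose (2 * Q - 2) s : ℝ) := by
    have : 0 < Nat.choose (2 * Q - 2) s := Nat.choose_pos (by omega)
    have hQ' : (0 : ℝ) < Q := by exact_mod_cast (by omega : 0 < Q)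
    (clear * - hQ this; positivity)
  have hw : (WithLp.toLp 2 (wVec Q (s + 1)) : EuclideanSpace ℂ (Fin (Q + 1) × Fin (Q + 1)))
      = ((Real.sqrt (2 * (Q : ℝ) * (Nat.choose (2 * Q - 2) s : ℝ)) : ℝ) : ℂ) • betaVec Q s := by
    rw [betaVec_eq_smul, smul_smul, ← Complex.ofReal_mul,
      mul_inv_cancel₀ (Real.sqrt_pos.2 hpos).ne']
    simp
  rw [hw]
  exact Submodule.smul_mem _ _ (Submodule.subset_span ⟨⟨s, hs'⟩, rfl⟩)

/-- the pair projection kills `ψ` iff all the pair amplitudes of `ψ` vanish -/
theorem pairProj_eq_zero_iff (Q : ℕ) (hQ : 1 ≤ Q)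
    (ψ : EuclideanSpace ℂ (Fin (Q + 1) × Fin (Q + 1))) :
    pairProj Q ψ = 0 ↔ ∀ s < 2 * Q - 1, inner ℂ (betaVec Q s) ψ = 0 := by
  constructor
  · intro h s _
    rw [← inner_betaVec_pairProj, h, inner_zero_right]
  · intro h
    have h1 : pairProj Q ψ ∈ spinComponent Q ((Q : ℂ) - 1) := by
      unfold pairProj
      exact Submodule.starProjection_apply_mem _ _
    have h2 : ∀ w ∈ Submodule.span ℂ (Set.range fun s : Fin (2 * Q - 1) => betaVec Q s),
        inner ℂ w (pairProj Q ψ) = 0 := by
      intro w hw
      induction hw using Submodule.span_induction with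
      | mem x hx =>
        obtain ⟨s, rfl⟩ := hx
        simp only
        rw [inner_betaVec_pairProj]
        exact h s s.2
      | zero => simp
      | add x y _ _ hx hy => rw [inner_add_left, hx, hy, add_zero]
      | smul a x _ hx => rw [inner_smul_left, hx, mul_zero]
    exact inner_self_eq_zero.1 (h2 _ (spinComponent_le_span Q hQ h1))

end Vale.Agent.P359
end
end

section

section

/-!
The Laughlin vector is a nonzero fermionic zero state of the Hamiltonian.
-/

namespace Vale.Agent.P359

open MvPolynomial Finset

section vander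

variable {N : ℕ}

/-- the Vandermonde polynomial -/
noncomputable def vdm (N : ℕ) : MvPolynomial (Fin N) ℂ :=
  ∏ i : Fin N, ∏ j ∈ Finset.Ioi i, (X j - X i)

theorem vdm_eq_det (N : ℕ) : vdm N = (Matrix.vandermonde (fun i : Fin N => (X i :
    MvPolynomial (Fin N) ℂ))).det := by
  rw [Matrix.det_vandermonde, vdm]

theorem rename_vdm (σ : Equiv.Perm (Fin N)) :
    rename σ (vdm N) = C (((Equiv.Perm.sign σ : ℤ) : ℂ)) * vdm N := by
  have h1 : rename σ (vdm N) = (Matrix.vandermonde (fun i : Fin N => (X (σ i) :
      MvPolynomial (Fin N) ℂ))).det := by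
    rw [Matrix.det_vandermonde, vdm, map_prod]
    apply Finset.prod_congr rfl
    intro i _
    rw [map_prod]
    apply Finset.prod_congr rfl
    intro j _
    rw [map_sub, rename_X, rename_X]
  have h2 : Matrix.vandermonde (fun i : Fin N => (X (σ i) : MvPolynomial (Fin N) ℂ))
      = (Matrix.vandermonde (fun i : Fin N => (X i : MvPolynomial (Fin N) ℂ))).submatrix σ id := by
    ext i j
    simp [Matrix.vandermonde_apply]
  rw [h1, h2, Matrix.det_permute, vdm_eq_det]
  congr 1

theorem dehom_eq (N : ℕ) : dehom N (laughlinPoly N) = vdm N ^ 3 := by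
  rw [laughlinPoly, vdm, map_prod, ← Finset.prod_pow]
  apply Finset.prod_congr rfl
  intro i _
  rw [map_prod, ← Finset.prod_pow]
  apply Finset.prod_congr rfl
  intro j _
  simp [dehom]

theorem coeff_expn_comp (f : MvPolynomial (Fin N) ℂ) {Q : ℕ} (σ : Equiv.Perm (Fin N))
    (x : Fin N → Fin (Q + 1)) : coeff (expn (x ∘ σ)) f = coeff (expn x) (rename σ f) := by
  have h1 : Finsupp.mapDomain σ (expn (x ∘ σ)) = expn x := by
    ext i
    obtain ⟨j, rfl⟩ := σ.surjective i
    rw [Finsupp.mapDomain_apply σ.injective]
    simp
  rw [← coeff_rename_mapDomain σ σ.injective, h1]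

theorem laughlin_mem (N : ℕ) : laughlin N ∈ Fermions N (3 * (N - 1)) := by
  intro σ x
  simp only [laughlin]
  rw [← coeff_dehom, ← coeff_dehom, coeff_expn_comp, dehom_eq, map_pow, rename_vdm, mul_pow,
    ← C_pow, coeff_C_mul]
  have h2 : ∏ i, ((Real.sqrt (Nat.choose (3 * (N - 1)) ((x ∘ σ) i : ℕ)) : ℝ) : ℂ)
      = ∏ i, ((Real.sqrt (Nat.choose (3 * (N - 1)) (x i : ℕ)) : ℝ) : ℂ) :=
    Equiv.prod_comp σ (fun i => ((Real.sqrt (Nat.choose (3 * (N - 1)) (x i : ℕ)) : ℝ) : ℂ))
  rw [h2, ← mul_div_assoc]
  congr 2
  rcases Int.units_eq_one_or (Equiv.Perm.sign σ) with h | h <;> rw [h] <;> norm_num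

theorem degreeOf_dehom (k : Fin N) : degreeOf k (dehom N (laughlinPoly N)) ≤ 3 * (N - 1) := by
  obtain ⟨ε, hε, hε'⟩ := dehom_laughlinPoly N
  have h0 : ε ≠ 0 := by
    rintro rfl
    simp at hε
  rw [hε', degreeOf_mul_eq (by simpa using h0) (vand3_ne_zero N), degreeOf_C, degreeOf_vand3,
    zero_add]

theorem exists_expn {Q : ℕ} (m : Fin N →₀ ℕ) (hm : ∀ k, m k ≤ Q) :
    ∃ x : Fin N → Fin (Q + 1), expn x = m := by
  refine ⟨fun k => ⟨m k, Nat.lt_succ_of_le (hm k)⟩, ?_⟩
  ext k; simp

theorem genPoly_laughlin (N : ℕ) : genPoly (laughlin N) = dehom N (laughlinPoly N) := by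
  ext m
  by_cases hm : ∀ k, m k ≤ 3 * (N - 1)
  · obtain ⟨x, rfl⟩ := exists_expn m hm
    rw [coeff_genPoly, coeff_dehom]
    have hw : ∏ i, rb (3 * (N - 1)) (x i) ≠ 0 :=
      Finset.prod_ne_zero_iff.mpr fun i _ => rb_ne_zero _
    simp only [laughlin]
    exact div_mul_cancel₀ _ hw
  · push Not at hm
    obtain ⟨k, hk⟩ := hm
    have aux : ∀ f : MvPolynomial (Fin N) ℂ, degreeOf k f ≤ 3 * (N - 1) → coeff m f = 0 := by
      intro f hf
      by_contra h
      have := monomial_le_degreeOf k (mem_support_iff.mpr h)
      omega
    rw [aux _ (degreeOf_genPoly _ k), aux _ (degreeOf_dehom k)]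

theorem laughlin_ne_zero (N : ℕ) : laughlin N ≠ 0 := by
  intro h
  have h1 := genPoly_laughlin N
  obtain ⟨ε, hε, hε'⟩ := dehom_laughlinPoly N
  have h0 : ε ≠ 0 := by
    rintro rfl
    simp at hε
  have h2 : genPoly (laughlin N) = 0 := by
    rw [h, genPoly]
    apply Finset.sum_eq_zero
    intro x _
    simp only [PiLp.zero_apply, zero_mul, monomial_zero]
  rw [h2, hε'] at h1
  rcases mul_eq_zero.mp h1.symm with h3 | h3
  · exact h0 (by simpa using h3)
  · exact vand3_ne_zero N h3

end vander

section null

variable {N Q : ℕ}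

/-- merged exponent -/
noncomputable def mer (i j : Fin N) (y : Fin N → Fin (Q + 1)) : Fin N →₀ ℕ :=
  Finsupp.equivFunOnFinite.symm fun k =>
    if k = i then (y i : ℕ) + (y j : ℕ) else if k = j then 0 else (y k : ℕ)

theorem mer_apply (i j : Fin N) (y : Fin N → Fin (Q + 1)) (k : Fin N) :
    mer i j y k = if k = i then (y i : ℕ) + (y j : ℕ) else if k = j then 0 else (y k : ℕ) := rfl

theorem idn_monomial' {i j : Fin N} (hij : i ≠ j) (y : Fin N → Fin (Q + 1)) (c : ℂ) :
    idn i j (monomial (expn y) c) = monomial (mer i j y) c := by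
  rw [idn_monomial hij, monomial_eq, Finsupp.prod_fintype _ _ (by intro; simp)]
  congr 1
  rw [← Finset.mul_prod_erase univ _ (Finset.mem_univ i),
    ← Finset.mul_prod_erase (univ.erase i) _ (Finset.mem_erase.mpr ⟨hij.symm, Finset.mem_univ j⟩)]
  rw [mer_apply, mer_apply, if_pos rfl, if_neg hij.symm, if_pos rfl, pow_zero, one_mul]
  congr 1
  apply Finset.prod_congr rfl
  intro k hk
  rw [Finset.mem_erase, Finset.mem_erase] at hk
  rw [mer_apply, if_neg hk.2.1, if_neg hk.1]

theorem sum_mer {Φ : Tensors N Q} {i j : Fin N} (hne : i ≠ j) :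
    X i * idn i j (pderiv i (genPoly Φ) - pderiv j (genPoly Φ))
      = ∑ y : Fin N → Fin (Q + 1), monomial (mer i j y)
        ((((y i : ℕ) : ℂ) - ((y j : ℕ) : ℂ)) * (Φ y * ∏ k, rb Q (y k))) := by
  have hi : idn i j (X i) = X i := by rw [idn_X, if_neg hne]
  have hj : idn i j (X j) = X i := by rw [idn_X, if_pos rfl]
  rw [map_sub, mul_sub]
  conv_lhs =>
    congr
    · rw [← hi, ← map_mul]
    · rw [← hj, ← map_mul]
  rw [genPoly, map_sum, map_sum, Finset.mul_sum, Finset.mul_sum, map_sum, map_sum,
    ← Finset.sum_sub_distrib]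
  apply Finset.sum_congr rfl
  intro y _
  rw [X_mul_pderiv_monomial, X_mul_pderiv_monomial, expn_apply, expn_apply, map_nsmul, map_nsmul,
    idn_monomial' hne, smul_monomial, smul_monomial, ← map_sub]
  congr 1
  rw [nsmul_eq_mul, nsmul_eq_mul]
  ring

theorem pair_sum_zero {Φ : Tensors N Q} {i j : Fin N} (hne : i ≠ j)
    (h : idn i j (pderiv i (genPoly Φ) - pderiv j (genPoly Φ)) = 0) (x : Fin N → Fin (Q + 1))
    (m : ℕ) : ∑ p : Fin (Q + 1), ∑ q ∈ univ.filter (fun q : Fin (Q + 1) => (p : ℕ) + q = m),
      (((p : ℕ) : ℂ) - ((q : ℕ) : ℂ)) * (rb Q p * rb Q q)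
        * Φ (Function.update (Function.update x i p) j q) = 0 := by
  let y : Fin (Q + 1) × Fin (Q + 1) → (Fin N → Fin (Q + 1)) := fun pq =>
    Function.update (Function.update x i pq.1) j pq.2
  have hyi : ∀ pq, y pq i = pq.1 := by
    intro pq
    simp only [y]
    rw [Function.update_of_ne hne, Function.update_self]
  have hyj : ∀ pq, y pq j = pq.2 := fun pq => Function.update_self _ _ _
  have hyk : ∀ pq k, k ≠ i → k ≠ j → y pq k = x k := by
    intro pq k h1 h2
    simp only [y]
    rw [Function.update_of_ne h2, Function.update_of_ne h1]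
  let e : Fin N →₀ ℕ := Finsupp.equivFunOnFinite.symm fun k =>
    if k = i then m else if k = j then 0 else (x k : ℕ)
  have he : ∀ k, e k = if k = i then m else if k = j then 0 else (x k : ℕ) := fun k => rfl
  let W : ℂ := ∏ k ∈ (univ.erase i).erase j, rb Q (x k)
  have hW : W ≠ 0 := Finset.prod_ne_zero_iff.mpr fun k _ => rb_ne_zero _
  have h1 := sum_mer (Φ := Φ) hne
  rw [h, mul_zero] at h1
  have h2 := congrArg (coeff e) h1
  rw [coeff_zero, coeff_sum] at h2
  simp only [coeff_monomial] at h2
  rw [← Finset.sum_filter] at h2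
  have h3 : ∑ y' ∈ univ.filter (fun y' : Fin N → Fin (Q + 1) => mer i j y' = e),
      (((y' i : ℕ) : ℂ) - ((y' j : ℕ) : ℂ)) * (Φ y' * ∏ k, rb Q (y' k))
      = ∑ pq ∈ univ.filter (fun pq : Fin (Q + 1) × Fin (Q + 1) => (pq.1 : ℕ) + pq.2 = m),
        ((((pq.1 : ℕ) : ℂ) - ((pq.2 : ℕ) : ℂ)) * (rb Q pq.1 * rb Q pq.2) * Φ (y pq)) * W := by
    symm
    apply Finset.sum_bij' (fun pq _ => y pq) (fun y' _ => (y' i, y' j))
    · intro pq hpq
      rw [Finset.mem_filter] at hpq ⊢
      refine ⟨Finset.mem_univ _, ?_⟩
      ext k
      rw [mer_apply, he, hyi, hyj, hpq.2]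
      by_cases h1 : k = i
      · rw [if_pos h1, if_pos h1]
      · rw [if_neg h1, if_neg h1]
        by_cases h2 : k = j
        · rw [if_pos h2, if_pos h2]
        · rw [if_neg h2, if_neg h2, hyk pq k h1 h2]
    · intro y' hy'
      rw [Finset.mem_filter] at hy' ⊢
      refine ⟨Finset.mem_univ _, ?_⟩
      have := DFunLike.congr_fun hy'.2 i
      rw [mer_apply, he, if_pos rfl, if_pos rfl] at this
      exact this
    · intro pq _
      simp only [hyi, hyj]
    · intro y' hy'
      rw [Finset.mem_filter] at hy'
      funext k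
      by_cases h1 : k = i
      · rw [h1, hyi]
      · by_cases h2 : k = j
        · rw [h2, hyj]
        · rw [hyk _ k h1 h2]
          have := DFunLike.congr_fun hy'.2 k
          rw [mer_apply, he, if_neg h1, if_neg h1, if_neg h2, if_neg h2] at this
          exact (Fin.ext this).symm
    · intro pq _
      rw [hyi, hyj]
      rw [← Finset.mul_prod_erase univ (fun k => rb Q (y pq k)) (Finset.mem_univ i),
        ← Finset.mul_prod_erase (univ.erase i) _
          (Finset.mem_erase.mpr ⟨hne.symm, Finset.mem_univ j⟩), hyi, hyj]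
      have h4 : ∏ k ∈ (univ.erase i).erase j, rb Q (y pq k) = W := by
        apply Finset.prod_congr rfl
        intro k hk
        rw [Finset.mem_erase, Finset.mem_erase] at hk
        rw [hyk pq k hk.2.1 hk.1]
      rw [h4]
      ring
  rw [h3, ← Finset.sum_mul] at h2
  have h4 := (mul_eq_zero.mp h2.symm).resolve_right hW
  rw [Finset.sum_filter, Fintype.sum_prod_type] at h4
  rw [← h4]
  apply Finset.sum_congr rfl
  intro p _
  rw [Finset.sum_filter]

theorem laughlin_idn {i j : Fin N} (hij : i < j) :
    idn i j (pderiv i (genPoly (laughlin N)) - pderiv j (genPoly (laughlin N))) = 0 := by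
  obtain ⟨ε, hε, hε'⟩ := dehom_laughlinPoly N
  have hd : (X i - X j : MvPolynomial (Fin N) ℂ) ^ 3 ∣ genPoly (laughlin N) := by
    rw [genPoly_laughlin, hε', vand3_eq]
    refine Dvd.dvd.mul_left ?_ _
    exact Finset.dvd_prod_of_mem (fun p : Fin N × Fin N =>
      (X p.1 - X p.2 : MvPolynomial (Fin N) ℂ) ^ 3) (a := (i, j))
      (Finset.mem_filter.mpr ⟨Finset.mem_univ _, hij⟩)
  obtain ⟨g, hg⟩ := hd
  have h0 : idn i j (X i - X j) = 0 := (X_sub_X_dvd_iff i j _).mp dvd_rfl
  rw [hg, Derivation.leibniz, Derivation.leibniz, Derivation.leibniz_pow, Derivation.leibniz_pow]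
  simp only [smul_eq_mul, nsmul_eq_mul, map_sub, map_add, map_mul, map_pow]
  rw [← map_sub, h0]
  simp only [ne_eq, OfNat.ofNat_ne_zero, not_false_eq_true, zero_pow, zero_mul, Nat.cast_ofNat, Nat.add_one_sub_one, pderiv_X, Pi.single_eq_same, map_one, mul_zero, add_zero, sub_self]

/-- the pair amplitudes of the Laughlin vector vanish -/
theorem laughlin_pairNull (N : ℕ) : PairNull (laughlin N) := by
  intro i j hij x s hs
  have h1 := pair_sum_zero hij.ne (laughlin_idn hij) x (s + 1)
  have h2 : ∑ p : Fin (3 * (N - 1) + 1), ∑ q ∈ univ.filter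
      (fun q : Fin (3 * (N - 1) + 1) => (p : ℕ) + q = s + 1),
      (((p : ℕ) : ℂ) - ((q : ℕ) : ℂ)) * (rb (3 * (N - 1)) p * rb (3 * (N - 1)) q)
        * laughlin N (Function.update (Function.update x i p) j q)
      = -((Real.sqrt (((3 * (N - 1) : ℕ) : ℝ)
          * (Nat.choose (2 * (3 * (N - 1)) - 2) s : ℝ)) : ℝ) : ℂ)
        * ∑ p : Fin (3 * (N - 1) + 1), ∑ q ∈ univ.filter
      (fun q : Fin (3 * (N - 1) + 1) => (p : ℕ) + q = s + 1),
      (beta (3 * (N - 1)) p q : ℂ) * laughlin N (Function.update (Function.update x i p) j q) := by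
    rw [Finset.mul_sum]
    apply Finset.sum_congr rfl
    intro p _
    rw [Finset.mul_sum]
    apply Finset.sum_congr rfl
    intro q hq
    rw [Finset.mem_filter] at hq
    rw [beta_eq hs hq.2, mul_assoc]
  rw [h2] at h1
  refine (mul_eq_zero.mp h1).resolve_left ?_
  have hQ : (0 : ℝ) < ((3 * (N - 1) : ℕ) : ℝ) := by
    have : 0 < 3 * (N - 1) := by omega
    exact_mod_cast this
  have hB : (0 : ℝ) < (Nat.choose (2 * (3 * (N - 1)) - 2) s : ℝ) := by
    have : 0 < Nat.choose (2 * (3 * (N - 1)) - 2) s := Nat.choose_pos (by omega)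
    exact_mod_cast this
  rw [neg_eq_zero, Complex.ofReal_eq_zero]
  exact (Real.sqrt_pos.mpr (mul_pos hQ hB)).ne'

theorem slice_laughlin {i j : Fin N} (hij : i < j) (x : Fin N → Fin (3 * (N - 1) + 1)) :
    pairProj (3 * (N - 1)) (slice i j (laughlin N) x) = 0 := by
  have hN : 1 ≤ 3 * (N - 1) := by
    have := i.2
    have := j.2
    have : (i : ℕ) < j := hij
    omega
  rw [pairProj_eq_zero_iff _ hN]
  intro s hs
  have h1 := laughlin_pairNull N i j hij x s hs
  rw [PiLp.inner_apply]
  simp only [betaVec, slice, RCLike.inner_apply]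
  rw [Fintype.sum_prod_type]
  have h2 := congrArg (fun z : ℂ => ((Real.sqrt 2 : ℝ) : ℂ)⁻¹ * z) h1
  simp only [mul_zero] at h2
  rw [← h2, Finset.mul_sum]
  apply Finset.sum_congr rfl
  intro p _
  rw [Finset.mul_sum, Finset.sum_filter]
  apply Finset.sum_congr rfl
  intro q _
  split_ifs with hpq
  · rw [Complex.conj_ofReal]
    push_cast
    ring
  · simp

/-- the Laughlin vector is a zero state of the Hamiltonian -/
theorem hamiltonian_laughlin (N : ℕ) : hamiltonian N (3 * (N - 1)) (laughlin N) = 0 := by
  rw [hamiltonian]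
  apply Finset.sum_eq_zero
  intro i _
  apply Finset.sum_eq_zero
  intro j hj
  ext x
  simp only [pairTerm]
  rw [slice_laughlin (Finset.mem_Ioi.mp hj)]
  rfl

end null

end Vale.Agent.P359
end
end

section

section

/-!
Soundness of the level certificates.
-/

namespace Vale.Agent.P359

open Finset MvPolynomial

/-- the residual of a level certificate -/
def resid (S : ℕ → ℕ → ℤ) (nus : List (ℤ × List ℤ)) (ls : ℤ) (L : List (List ℤ)) (i j : ℕ) : ℤ :=
  S i j + lsum nus (fun q => q.1 * (q.2.getD i 0 * q.2.getD j 0))
    - ls * lsum L (fun l => l.getD i 0 * l.getD j 0)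

noncomputable section

variable {lam : ℝ} (st : PlanarState lam)

/-- the Gram matrix in the odd basis -/
def gm (e i j : ℕ) : ℝ := B4 st (pb e i) (pb e j)

lemma gm_quad (e n : ℕ) (u : ℕ → ℝ) :
    0 ≤ ∑ i ∈ range n, ∑ j ∈ range n, u i * u j * gm st e i j := by
  have h := B4_nonneg st (∑ i ∈ range n, u i • pb e i)
  rw [map_sum] at h
  refine h.trans_eq ?_
  rw [sum_comm]
  apply sum_congr rfl; intro j _
  rw [map_smul, map_sum (B4 st), LinearMap.sum_apply, smul_eq_mul, mul_sum]
  apply sum_congr rfl; intro i _
  rw [map_smul, LinearMap.smul_apply, smul_eq_mul, gm]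
  ring

lemma gm_two (e i j : ℕ) (a b : ℝ) :
    0 ≤ a ^ 2 * gm st e i i + 2 * a * b * gm st e i j + b ^ 2 * gm st e j j := by
  have h := B4_nonneg st (a • pb e i + b • pb e j)
  simp only [map_add, map_smul, LinearMap.add_apply, LinearMap.smul_apply, smul_eq_mul] at h
  have hs := B4_symm st (pb e j) (pb e i)
  unfold gm
  rw [hs] at h
  linarith

lemma sum_sum_lsum {α : Type*} (n : ℕ) (l : List α) (c : α → ℝ) (u : α → ℕ → ℝ) (g : ℕ → ℕ → ℝ) :
    ∑ i ∈ range n, ∑ j ∈ range n, lsum l (fun q => c q * (u q i * u q j)) * g i j
      = lsum l fun q => c q * ∑ i ∈ range n, ∑ j ∈ range n, u q i * u q j * g i j := by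
  have h1 : ∀ i ∈ range n, ∑ j ∈ range n, lsum l (fun q => c q * (u q i * u q j)) * g i j
      = lsum l fun q => ∑ j ∈ range n, c q * (u q i * u q j) * g i j := by
    intro i _
    rw [← lsum_sum]
    apply sum_congr rfl; intro j _
    rw [lsum_mul_right]
  rw [sum_congr rfl h1, lsum_sum]
  apply lsum_congr; intro q _
  rw [mul_sum]
  apply sum_congr rfl; intro i _
  rw [mul_sum]
  apply sum_congr rfl; intro j _
  ring

theorem cert_sound (e n : ℕ) (S : ℕ → ℕ → ℤ) (nus : List (ℤ × List ℤ)) (ls : ℤ)
    (L : List (List ℤ)) (tau : List ℕ) (hls : 0 ≤ ls)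
    (hnu : ∀ q ∈ nus, ∀ j, ∑ i ∈ range n, (q.2.getD i 0 : ℝ) * gm st e i j = 0)
    (hsym : ∀ i < n, ∀ j < n, resid S nus ls L i j = resid S nus ls L j i)
    (htau : ∀ i < n, 0 < tau.getD i 0)
    (hdd : ∀ i < n, ∑ j ∈ range n, (if j = i then 0 else |resid S nus ls L i j| * (tau.getD j 0 : ℤ))
      ≤ resid S nus ls L i i * (tau.getD i 0 : ℤ)) :
    0 ≤ ∑ i ∈ range n, ∑ j ∈ range n, (S i j : ℝ) * gm st e i j := by
  have h1 := dd_nonneg n (gm st e) (fun i j => ((resid S nus ls L i j : ℤ) : ℝ))
    (fun i => (tau.getD i 0 : ℝ)) (gm_two st e)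
    (fun i hi j hj => by exact_mod_cast hsym i hi j hj)
    (fun i hi => by exact_mod_cast htau i hi)
    (fun i hi => by
      have := hdd i hi
      have h2 : ((∑ j ∈ range n, (if j = i then 0 else
          |resid S nus ls L i j| * (tau.getD j 0 : ℤ)) : ℤ) : ℝ)
          ≤ ((resid S nus ls L i i * (tau.getD i 0 : ℤ) : ℤ) : ℝ) := by exact_mod_cast this
      push_cast at h2
      exact h2)
  have h2 : ∑ i ∈ range n, ∑ j ∈ range n, ((resid S nus ls L i j : ℤ) : ℝ) * gm st e i j
      = ∑ i ∈ range n, ∑ j ∈ range n, (S i j : ℝ) * gm st e i j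
        + lsum nus (fun q => (q.1 : ℝ) * ∑ i ∈ range n, ∑ j ∈ range n,
            (q.2.getD i 0 : ℝ) * (q.2.getD j 0 : ℝ) * gm st e i j)
        - (ls : ℝ) * lsum L (fun l => 1 * ∑ i ∈ range n, ∑ j ∈ range n,
            (l.getD i 0 : ℝ) * (l.getD j 0 : ℝ) * gm st e i j) := by
    rw [← sum_sum_lsum n nus (fun q => (q.1 : ℝ)) (fun q i => (q.2.getD i 0 : ℝ)),
      ← sum_sum_lsum n L (fun _ => (1 : ℝ)) (fun l i => (l.getD i 0 : ℝ)), mul_sum,
      ← sum_add_distrib, ← sum_sub_distrib]
    apply sum_congr rfl; intro i _
    rw [mul_sum, ← sum_add_distrib, ← sum_sub_distrib]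
    apply sum_congr rfl; intro j _
    have e1 : ((lsum nus (fun q => q.1 * (q.2.getD i 0 * q.2.getD j 0)) : ℤ) : ℝ)
        = lsum nus (fun q => (q.1 : ℝ) * ((q.2.getD i 0 : ℝ) * (q.2.getD j 0 : ℝ))) := by
      have hc := map_lsum (Int.castRingHom ℝ) nus (fun q => q.1 * (q.2.getD i 0 * q.2.getD j 0))
      simp only [eq_intCast, Int.cast_mul] at hc
      exact hc
    have e2 : ((lsum L (fun l => l.getD i 0 * l.getD j 0) : ℤ) : ℝ)
        = lsum L (fun l => (1 : ℝ) * ((l.getD i 0 : ℝ) * (l.getD j 0 : ℝ))) := by
      have hc := map_lsum (Int.castRingHom ℝ) L (fun l => l.getD i 0 * l.getD j 0)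
      simp only [eq_intCast, Int.cast_mul] at hc
      simp only [one_mul]
      exact hc
    rw [resid, Int.cast_sub, Int.cast_add, Int.cast_mul, e1, e2]
    ring
  have h3 : lsum nus (fun q => (q.1 : ℝ) * ∑ i ∈ range n, ∑ j ∈ range n,
            (q.2.getD i 0 : ℝ) * (q.2.getD j 0 : ℝ) * gm st e i j) = 0 := by
    rw [lsum_congr nus _ (fun _ => (0 : ℝ)), lsum_zero]
    intro q hq
    have : ∑ i ∈ range n, ∑ j ∈ range n, (q.2.getD i 0 : ℝ) * (q.2.getD j 0 : ℝ) * gm st e i j
        = ∑ j ∈ range n, (q.2.getD j 0 : ℝ) * ∑ i ∈ range n, (q.2.getD i 0 : ℝ) * gm st e i j := by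
      rw [sum_comm]
      apply sum_congr rfl; intro j _
      rw [mul_sum]
      apply sum_congr rfl; intro i _; ring
    rw [this, sum_eq_zero, mul_zero]
    intro j _
    rw [hnu q hq j, mul_zero]
  have h4 : 0 ≤ lsum L (fun l => 1 * ∑ i ∈ range n, ∑ j ∈ range n,
            (l.getD i 0 : ℝ) * (l.getD j 0 : ℝ) * gm st e i j) := by
    have : ∀ l ∈ L, 0 ≤ (1 : ℝ) * ∑ i ∈ range n, ∑ j ∈ range n,
            (l.getD i 0 : ℝ) * (l.getD j 0 : ℝ) * gm st e i j := by
      intro l _
      rw [one_mul]
      exact gm_quad st e n (fun i => (l.getD i 0 : ℝ))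
    clear h1 h2 h3 hsym hdd
    induction L with
    | nil => simp only [List.getD_eq_getElem?_getD, one_mul, lsum_nil, Std.le_refl]
    | cons a L ih =>
      rw [lsum_cons]
      exact add_nonneg (this a (by simp)) (ih (fun l hl => this l (by simp [hl])))
  have h5 : (0 : ℝ) ≤ ls := by exact_mod_cast hls
  rw [h2, h3] at h1
  nlinarith only [h1, h5, h4]

/-- null vectors from the vanishing channels -/
lemma nu_null (e m : ℕ) (hme : m ≤ e) (hm : gam st m = 0) (j : ℕ) :
    ∑ i ∈ range ((e + 1) / 2), ((odds (thl 2 (-1) (e - m) m)).getD i 0 : ℝ) * gm st e i j = 0 := by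
  have h := B4_evH st e (thl 2 (-1) (e - m) m) (by rw [thl_length]; omega) (pb e j)
  rw [show evH v4 w4 (thl 2 (-1) (e - m) m) = psi (e - m) m from rfl, psi_null st _ _ hm] at h
  rw [h]
  apply sum_congr rfl; intro i _
  rw [getD_odds, gm]

/-- null vectors from the odd pair relative momenta -/
lemma nu_even (e : ℕ) (he : Even e) (he0 : e ≠ 0) (j : ℕ) :
    ∑ i ∈ range ((e + 1) / 2), (([1] : List ℤ).getD i 0 : ℝ) * gm st e i j = 0 := by
  rw [sum_eq_single 0]
  · have : gm st e 0 j = 0 := by
      rw [gm, pb]
      simp only [mul_zero, zero_add, pow_one]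
      apply B4_odd_pair
      obtain ⟨k, hk⟩ := he
      exact ⟨k - 1, by omega⟩
    rw [this, mul_zero]
  · intro i _ hi
    obtain ⟨i, rfl⟩ : ∃ k, i = k + 1 := ⟨i - 1, by omega⟩
    simp only [List.getD_eq_getElem?_getD, List.length_cons, List.length_nil, zero_add, Order.lt_one_iff, Nat.add_eq_zero_iff, one_ne_zero, and_false, not_false_eq_true, getElem?_neg, Option.getD_none, Int.cast_zero, zero_mul]
  · intro h
    rw [mem_range, not_lt] at h
    obtain ⟨k, hk⟩ := he
    omega

/-- the integer vector of a channel at level `e` -/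
def fz (e m : ℕ) : List ℤ :=
  if m ≤ e then smulL (6 ^ m) (odds (thl 2 (-1) (e - m) m)) else []

lemma B4_rel_fz (e m m' : ℕ) (hm : m ≤ e) (hm' : m' ≤ e) :
    B4 st (rel (e - m) m) (rel (e - m') m')
      = (1 / 36) ^ e * ∑ i ∈ range ((e + 1) / 2), ∑ j ∈ range ((e + 1) / 2),
          ((fz e m).getD i 0 : ℝ) * ((fz e m').getD j 0 : ℝ) * gm st e i j := by
  rw [rel_psi, rel_psi, map_smul, map_smul, LinearMap.smul_apply, smul_eq_mul, smul_eq_mul]
  have h1 : ∀ q, B4 st (psi (e - m) m) q = ∑ i ∈ range ((e + 1) / 2),
      ((odds (thl 2 (-1) (e - m) m)).getD i 0 : ℝ) * B4 st (pb e i) q := by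
    intro q
    rw [psi, B4_evH st e _ (by rw [thl_length]; omega)]
    apply sum_congr rfl; intro i _; rw [getD_odds]
  have h2 : ∀ q, B4 st (psi (e - m') m') q = ∑ i ∈ range ((e + 1) / 2),
      ((odds (thl 2 (-1) (e - m') m')).getD i 0 : ℝ) * B4 st (pb e i) q := by
    intro q
    rw [psi, B4_evH st e _ (by rw [thl_length]; omega)]
    apply sum_congr rfl; intro i _; rw [getD_odds]
  rw [h1, mul_sum, mul_sum, mul_sum]
  apply sum_congr rfl; intro i _
  rw [B4_symm, h2, mul_sum, mul_sum, mul_sum, mul_sum]
  apply sum_congr rfl; intro j _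
  rw [B4_symm st (pb e j) (pb e i), fz, if_pos hm, fz, if_pos hm', getD_smulL, getD_smulL, gm]
  have e1 : ((1 : ℝ) / 6) ^ (e - m) = (1 / 6) ^ e * 6 ^ m := by
    have : ((1 : ℝ) / 6) ^ e = (1 / 6) ^ (e - m) * (1 / 6) ^ m := by
      rw [← pow_add]; congr 1; omega
    rw [this, mul_assoc, ← mul_pow]; norm_num
  have e2 : ((1 : ℝ) / 6) ^ (e - m') = (1 / 6) ^ e * 6 ^ m' := by
    have : ((1 : ℝ) / 6) ^ e = (1 / 6) ^ (e - m') * (1 / 6) ^ m' := by
      rw [← pow_add]; congr 1; omega
    rw [this, mul_assoc, ← mul_pow]; norm_num
  have e3 : ((1 : ℝ) / 36) ^ e = (1 / 6) ^ e * (1 / 6) ^ e := by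
    rw [← mul_pow]; norm_num
  rw [e1, e2, e3]
  push_cast
  ring

/-- the integer level matrix -/
def smat (e M : ℕ) (K : ℕ → ℕ → ℤ) (i j : ℕ) : ℤ :=
  ∑ m ∈ range M, ∑ m' ∈ range M, K m m' * ((fz e m).getD i 0 * (fz e m').getD j 0)

lemma level_form (e M : ℕ) (K : ℕ → ℕ → ℤ)
    (hK : ∀ m < M, ∀ m' < M, ¬ (m ≤ e ∧ m' ≤ e) → K m m' = 0) :
    ∑ m ∈ range M, ∑ m' ∈ range M, (K m m' : ℝ) * B4 st (rel (e - m) m) (rel (e - m') m')
      = (1 / 36) ^ e * ∑ i ∈ range ((e + 1) / 2), ∑ j ∈ range ((e + 1) / 2),
          (smat e M K i j : ℝ) * gm st e i j := by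
  have h1 : ∀ m ∈ range M, ∀ m' ∈ range M,
      (K m m' : ℝ) * B4 st (rel (e - m) m) (rel (e - m') m')
      = ∑ i ∈ range ((e + 1) / 2), ∑ j ∈ range ((e + 1) / 2), (1 / 36) ^ e *
          ((K m m' : ℝ) * (((fz e m).getD i 0 : ℝ) * ((fz e m').getD j 0 : ℝ)) * gm st e i j) := by
    intro m hm m' hm'
    rw [mem_range] at hm hm'
    by_cases h : m ≤ e ∧ m' ≤ e
    · rw [B4_rel_fz st e m m' h.1 h.2, ← mul_assoc, mul_sum]
      apply sum_congr rfl; intro i _
      rw [mul_sum]
      apply sum_congr rfl; intro j _
      ring
    · rw [hK m hm m' hm' h]; simp only [Int.cast_zero, zero_mul, one_div, inv_pow, List.getD_eq_getElem?_getD, mul_zero, sum_const_zero]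
  rw [sum_congr rfl fun m hm => sum_congr rfl fun m' hm' => h1 m hm m' hm']
  have h2 : ∀ i j, (smat e M K i j : ℝ) = ∑ m ∈ range M, ∑ m' ∈ range M,
      (K m m' : ℝ) * (((fz e m).getD i 0 : ℝ) * ((fz e m').getD j 0 : ℝ)) := by
    intro i j; rw [smat]; push_cast; rfl
  rw [mul_sum]
  have h3 : ∀ m ∈ range M, ∑ m' ∈ range M, ∑ i ∈ range ((e + 1) / 2), ∑ j ∈ range ((e + 1) / 2),
      ((1 : ℝ) / 36) ^ e *
          ((K m m' : ℝ) * (((fz e m).getD i 0 : ℝ) * ((fz e m').getD j 0 : ℝ)) * gm st e i j)
      = ∑ i ∈ range ((e + 1) / 2), ∑ j ∈ range ((e + 1) / 2), ∑ m' ∈ range M,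
      ((1 : ℝ) / 36) ^ e *
          ((K m m' : ℝ) * (((fz e m).getD i 0 : ℝ) * ((fz e m').getD j 0 : ℝ)) * gm st e i j) := by
    intro m _
    rw [sum_comm]
    apply sum_congr rfl; intro i _
    rw [sum_comm]
  rw [sum_congr rfl h3, sum_comm]
  apply sum_congr rfl; intro i _
  rw [sum_comm, mul_sum]
  apply sum_congr rfl; intro j _
  rw [h2, sum_mul, mul_sum]
  apply sum_congr rfl; intro m _
  rw [sum_mul, mul_sum]

end

end Vale.Agent.P359
end
end

section

section

/-!
Kernel-friendly level certificates and their soundness.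
-/

namespace Vale.Agent.P359

open Finset MvPolynomial

/-- structural finite sum -/
def sumTo : ℕ → (ℕ → ℤ) → ℤ
  | 0, _ => 0
  | n + 1, f => sumTo n f + f n

/-- structural list sum -/
def isum {α : Type*} (f : α → ℤ) : List α → ℤ
  | [] => 0
  | x :: l => f x + isum f l

lemma sumTo_eq (n : ℕ) (f : ℕ → ℤ) : sumTo n f = ∑ i ∈ range n, f i := by
  induction n with
  | zero => simp [sumTo]
  | succ n ih => rw [sumTo, ih, sum_range_succ]

lemma isum_eq {α : Type*} (f : α → ℤ) (l : List α) : isum f l = lsum l f := by
  induction l with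
  | nil => simp only [isum, lsum_nil]
  | cons a l ih => rw [isum, ih, lsum_cons]

lemma lsum_range {R : Type*} [AddCommMonoid R] (n : ℕ) (f : ℕ → R) :
    lsum (List.range n) f = ∑ i ∈ range n, f i := by
  induction n with
  | zero => simp
  | succ n ih => rw [List.range_succ, lsum_append, ih, sum_range_succ]; simp

/-- structural version of `fz` -/
def fzS (e m : ℕ) : List ℤ :=
  if m ≤ e then smulL (6 ^ m) (odds (powL 2 (e - m) (powL (-1) m [1]))) else []

lemma fzS_eq (e m : ℕ) : fzS e m = fz e m := by rw [fzS, fz, thl_eq_powL]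

/-- partial contraction -/
def hvL (e M : ℕ) (K : ℕ → ℕ → ℤ) (m' : ℕ) : List ℤ :=
  lsumL (fun m => smulL (K m m') (fzS e m)) (List.range M)

/-- a row of the level matrix -/
def sRow (e M : ℕ) (K : ℕ → ℕ → ℤ) (i : ℕ) : List ℤ :=
  lsumL (fun m' => smulL ((hvL e M K m').getD i 0) (fzS e m')) (List.range M)

lemma getD_sRow (e M : ℕ) (K : ℕ → ℕ → ℤ) (i j : ℕ) :
    (sRow e M K i).getD j 0 = smat e M K i j := by
  rw [sRow, getD_lsumL, lsum_range, smat, sum_comm]
  apply sum_congr rfl; intro m' _
  rw [getD_smulL, hvL, getD_lsumL, lsum_range, sum_mul]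
  apply sum_congr rfl; intro m _
  rw [getD_smulL, fzS_eq, fzS_eq]
  ring

/-- the null vector with code `c`: `c = 0, 1, 3` three-body channels, `c = 2` pair parity -/
def nuOf (e c : ℕ) : List ℤ :=
  if c = 2 then [1] else odds (powL 2 (e - c) (powL (-1) c [1]))

/-- validity of a null-vector code at level `e` -/
def okCode (e c : ℕ) : Prop :=
  ((c = 0 ∨ c = 1 ∨ c = 3) ∧ c ≤ e) ∨ (c = 2 ∧ e % 2 = 0 ∧ e ≠ 0)

instance (e c : ℕ) : Decidable (okCode e c) := by unfold okCode; infer_instance

/-- data of a level certificate -/
structure Lvl where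
  S : List (List ℤ)
  d : ℤ
  nus : List (ℤ × ℕ)
  ls : ℤ
  L : List (List ℤ)
  tau : List ℕ

/-- the residual matrix, kernel-friendly -/
def residK (e : ℕ) (t : Lvl) (i j : ℕ) : ℤ :=
  (if i = 0 then if j = 0 then t.d else 0 else 0) + (t.S.getD i []).getD j 0
    + isum (fun q => q.1 * ((nuOf e q.2).getD i 0 * (nuOf e q.2).getD j 0)) t.nus
    - t.ls * isum (fun l => l.getD i 0 * l.getD j 0) t.L

/-- the level check -/
def lvlChk (e n : ℕ) (t : Lvl) : Prop :=
  0 ≤ t.ls ∧ (∀ q ∈ t.nus, okCode e q.2) ∧
  (∀ i < n, ∀ j < i, residK e t i j = residK e t j i) ∧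
  (∀ i < n, 0 < t.tau.getD i 0) ∧
  (∀ i < n, sumTo n (fun j => if j = i then 0 else
    ((residK e t i j).natAbs : ℤ) * ((t.tau.getD j 0 : ℕ) : ℤ))
      ≤ residK e t i i * ((t.tau.getD i 0 : ℕ) : ℤ))

instance (e n : ℕ) (t : Lvl) : Decidable (lvlChk e n t) := by unfold lvlChk; infer_instance

noncomputable section

variable {lam : ℝ} (st : PlanarState lam)

lemma nuOf_null (e c : ℕ) (h : okCode e c) (j : ℕ) :
    ∑ i ∈ range ((e + 1) / 2), ((nuOf e c).getD i 0 : ℝ) * gm st e i j = 0 := by
  rcases h with ⟨hc, he⟩ | ⟨hc, he, he0⟩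
  · have hg : gam st c = 0 := by
      rcases hc with rfl | rfl | rfl
      · exact gam0 st
      · exact gam1 st
      · exact gam3 st
    have := nu_null st e c he hg j
    have h2 : nuOf e c = odds (thl 2 (-1) (e - c) c) := by
      rw [nuOf, if_neg (by omega), thl_eq_powL]
    rw [h2]; exact this
  · have := nu_even st e (Nat.even_iff.2 he) he0 j
    rw [nuOf, if_pos hc]; exact this

theorem lvl_sound (e M : ℕ) (K : ℕ → ℕ → ℤ) (t : Lvl)
    (hS : (List.range ((e + 1) / 2)).map (sRow e M K) = t.S)
    (hchk : lvlChk e ((e + 1) / 2) t) :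
    0 ≤ (if e = 0 then 0 else (t.d : ℝ) * gm st e 0 0)
      + ∑ i ∈ range ((e + 1) / 2), ∑ j ∈ range ((e + 1) / 2), (smat e M K i j : ℝ) * gm st e i j := by
  obtain ⟨h1, h2, h3, h4, h5⟩ := hchk
  set n := (e + 1) / 2 with hn
  have hSij : ∀ i < n, ∀ j, (t.S.getD i []).getD j 0 = smat e M K i j := by
    intro i hi j
    have h0 : (List.map (sRow e M K) (List.range n)).getD i [] = sRow e M K i := by
      rw [List.getD_eq_getElem?_getD, List.getElem?_map, List.getElem?_range hi]
      rfl
    rw [← hS, h0]
    exact getD_sRow e M K i j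
  set S' : ℕ → ℕ → ℤ := fun i j => (if i = 0 then if j = 0 then t.d else 0 else 0) + smat e M K i j
    with hS'
  have hres : ∀ i < n, ∀ j, resid S' (t.nus.map fun q => (q.1, nuOf e q.2)) t.ls t.L i j
      = residK e t i j := by
    intro i hi j
    rw [resid, residK, isum_eq, isum_eq, lsum_map, hSij i hi j]
  have h := cert_sound st e n S' (t.nus.map fun q => (q.1, nuOf e q.2)) t.ls t.L t.tau h1
    (by
      intro q hq j
      rw [List.mem_map] at hq
      obtain ⟨r, hr, rfl⟩ := hq
      exact nuOf_null st e r.2 (h2 r hr) j)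
    (by
      intro i hi j hj
      rw [hres i hi j, hres j hj i]
      rcases lt_trichotomy i j with hij | rfl | hij
      · exact (h3 j hj i hij).symm
      · rfl
      · exact h3 i hi j hij)
    h4
    (by
      intro i hi
      have := h5 i hi
      rw [sumTo_eq] at this
      rw [hres i hi i]
      refine le_trans (le_of_eq ?_) this
      apply sum_congr rfl; intro j hj
      rw [hres i hi j, Int.natCast_natAbs])
  refine h.trans_eq ?_
  have e1 : ∀ i ∈ range n, ∑ j ∈ range n, (S' i j : ℝ) * gm st e i j
      = ∑ j ∈ range n, ((if i = 0 then if j = 0 then (t.d : ℝ) else 0 else 0) * gm st e i j)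
        + ∑ j ∈ range n, (smat e M K i j : ℝ) * gm st e i j := by
    intro i _
    rw [← sum_add_distrib]
    apply sum_congr rfl; intro j _
    rw [hS']
    push_cast
    ring
  rw [sum_congr rfl e1, sum_add_distrib]
  congr 1
  by_cases he : e = 0
  · have hn0 : n = 0 := by omega
    rw [if_pos he, hn0]; simp only [range_zero, ite_mul, zero_mul, sum_ite_irrel, sum_ite_eq', notMem_empty, ↓reduceIte, sum_const_zero, ite_self]
  · rw [if_neg he, sum_eq_single 0, sum_eq_single 0]
    · simp
    · intro j _ hj; rw [if_pos rfl, if_neg hj, zero_mul]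
    · intro hh; exact absurd (mem_range.2 (by omega)) hh
    · intro i _ hi
      apply sum_eq_zero; intro j _
      rw [if_neg hi, zero_mul]
    · intro hh; exact absurd (mem_range.2 (by omega)) hh

end

end Vale.Agent.P359
end
end

section

section

/-!
Level certificates (generated file).
-/

namespace Vale.Agent.P359

/-- the symmetric level coefficients -/
def kS (e m m' : ℕ) : ℤ := (if m ≤ m' then kT m m' else kT m' m).getD e 0

/-- level 0 -/
def lv0 : Lvl where
  S := []
  d := 0
  nus := []
  ls := 0
  L := []
  tau := []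

lemma lvS_0 : (List.range ((0 + 1) / 2)).map (sRow 0 12 (kS 0)) = lv0.S := by
  (clear * -; decide +kernel)

lemma lvC_0 : lvlChk 0 ((0 + 1) / 2) lv0 := by
  (clear * -; decide +kernel)

/-- level 1 -/
def lv1 : Lvl where
  S := [[0]]
  d := 23924907618932279287982913658691950057
  nus := [(5444517870735015415413993718908291383296, 0), (21778071482940061661655974875633165533184,
      1)]
  ls := 1361129467683753853853498429727072845824
  L := [[4]]
  tau := [100]

lemma lvS_1 : (List.range ((1 + 1) / 2)).map (sRow 1 12 (kS 1)) = lv1.S := by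
  (clear * -; decide +kernel)

lemma lvC_1 : lvlChk 1 ((1 + 1) / 2) lv1 := by
  (clear * -; decide +kernel)

/-- level 2 -/
def lv2 : Lvl where
  S := [[50198398077056129884358537085097869312]]
  d := 0
  nus := [(43556142965880123323311949751266331066368, 0),
      (696898287454081973172991196020261297061888, 1), (696898287454081973172991196020261297061888,
      2)]
  ls := 21778071482940061661655974875633165533184
  L := [[7]]
  tau := [100]

lemma lvS_2 : (List.range ((2 + 1) / 2)).map (sRow 2 12 (kS 2)) = lv2.S := by
  (clear * -; decide +kernel)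

lemma lvC_2 : lvlChk 2 ((2 + 1) / 2) lv2 := by
  (clear * -; decide +kernel)

/-- level 3 -/
def lv3 : Lvl where
  S := [[0, 0],
       [0, 2300823697657632106199742104135704510464]]
  d := 15503340137068116978612928050832383637507
  nus := [(174224571863520493293247799005065324265472, 0),
      (696898287454081973172991196020261297061888, 1), (1393796574908163946345982392040522594123776,
      3)]
  ls := 21778071482940061661655974875633165533184
  L := [[28, 7],
       [0, 23]]
  tau := [115, 100]

lemma lvS_3 : (List.range ((3 + 1) / 2)).map (sRow 3 12 (kS 3)) = lv3.S := by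
  (clear * -; decide +kernel)

lemma lvC_3 : lvlChk 3 ((3 + 1) / 2) lv3 := by
  (clear * -; decide +kernel)

/-- level 4 -/
def lv4 : Lvl where
  S := [[3384651721071704873525449635119096659968, -13620995972980347117025837741254717210624],
       [-13620995972980347117025837741254717210624, 44888457181632660410625282144049746149376]]
  d := 0
  nus := [(348449143727040986586495598010130648530944, 0),
      (5575186299632655785383929568162090376495104, 1), (22300745198530623141535718272648361505980416,
      3), (178405961588244985132285746181186892047843328, 2)]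
  ls := 348449143727040986586495598010130648530944
  L := [[27, -14],
       [0, 38]]
  tau := [200, 100]

lemma lvS_4 : (List.range ((4 + 1) / 2)).map (sRow 4 12 (kS 4)) = lv4.S := by
  (clear * -; decide +kernel)

lemma lvC_4 : lvlChk 4 ((4 + 1) / 2) lv4 := by
  (clear * -; decide +kernel)

/-- level 5 -/
def lv5 : Lvl where
  S := [[-222885005042228666118004616991606162063360, 248778561754699529869405515108320507068416,
      -231717541874596187967970230495340916637696],
       [248778561754699529869405515108320507068416, 190143280721114007402510206812794120044544,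
      -32201005626328081505588914839010569879552],
       [-231717541874596187967970230495340916637696, -32201005626328081505588914839010569879552,
      117777670149526069155101010675763274317824]]
  d := 1674360734803356633690196229489897432850785
  nus := [(696898287454081973172991196020261297061888, 0),
      (11150372599265311570767859136324180752990208, 1),
      (178405961588244985132285746181186892047843328, 3)]
  ls := 332306998946228968225951765070086144
  L := [[48930, 61734, -106994],
       [0, 110849, 88646],
       [0, 0, 4316]]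
  tau := [283, 100, 158]

lemma lvS_5 : (List.range ((5 + 1) / 2)).map (sRow 5 12 (kS 5)) = lv5.S := by
  (clear * -; decide +kernel)

lemma lvC_5 : lvlChk 5 ((5 + 1) / 2) lv5 := by
  (clear * -; decide +kernel)

/-- level 6 -/
def lv6 : Lvl where
  S := [[-1080316659981551953577808280200797164142592, 909641949390050841392242978006952061173760,
      1498026426965826160436466308773280753909760],
       [909641949390050841392242978006952061173760, 1323675993683364852121752416723520964263936,
      -4977826892393401514448199878536154700578816],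
       [1498026426965826160436466308773280753909760, -4977826892393401514448199878536154700578816,
      7021664618661416944802370065162825864577024]]
  d := 0
  nus := [(1393796574908163946345982392040522594123776, 0),
      (22300745198530623141535718272648361505980416, 1),
      (356811923176489970264571492362373784095686656, 3),
      (11417981541647679048466287755595961091061972992, 2)]
  ls := 1393796574908163946345982392040522594123776
  L := [[99, -8, 46],
       [0, 233, -143],
       [0, 0, 234]]
  tau := [400, 110, 100]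

lemma lvS_6 : (List.range ((6 + 1) / 2)).map (sRow 6 12 (kS 6)) = lv6.S := by
  (clear * -; decide +kernel)

lemma lvC_6 : lvlChk 6 ((6 + 1) / 2) lv6 := by
  (clear * -; decide +kernel)

/-- level 7 -/
def lv7 : Lvl where
  S := [[514701335471792471230340153505141737127936, -10100236913080359948198579694766703117336576,
      13010667556274378503299955851381253009833984, 3522702824317512581139543562298219732926464],
       [-10100236913080359948198579694766703117336576, 36666422689786007925252900013753605361238016,
      -24369955372079836248257723721733581872037888, -21374991331020530454638189163537570321137664],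
       [13010667556274378503299955851381253009833984, -24369955372079836248257723721733581872037888,
      12494925447867027152931155798870515041435648, 15284131007030782978112717113030325846409216],
       [3522702824317512581139543562298219732926464, -21374991331020530454638189163537570321137664,
      15284131007030782978112717113030325846409216, 28256716541851760605314331747887845795168256]]
  d := 72332383743505006575416477113963569099153950
  nus := [(2787593149816327892691964784081045188247552, 0),
      (44601490397061246283071436545296723011960832, 1),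
      (713623846352979940529142984724747568191373312, 3)]
  ls := 21267647932558653966460912964485513216
  L := [[33476, -954, 124057, -117268],
       [0, 202298, 5058, 1432],
       [0, 0, 260543, 74357],
       [0, 0, 0, 6011]]
  tau := [693, 155, 100, 229]

lemma lvS_7 : (List.range ((7 + 1) / 2)).map (sRow 7 12 (kS 7)) = lv7.S := by
  (clear * -; decide +kernel)

lemma lvC_7 : lvlChk 7 ((7 + 1) / 2) lv7 := by
  (clear * -; decide +kernel)

/-- level 8 -/
def lv8 : Lvl where
  S := [[8701622255432579231898016098921822547869696, -50028496978425683373748799275382923264524288,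
      87402383021811205819700311675292383482740736, 32767042712397567009471742878649181521575936],
       [-50028496978425683373748799275382923264524288, 86817560337281083506462039686893844922630144,
      -226057888739545734642794199507728653514440704, 232770751642589128620114215888509926622887936],
       [87402383021811205819700311675292383482740736, -226057888739545734642794199507728653514440704,
      854526224234352237378036243085280485350309888, -996800821848160737829181635329718004106657792],
       [32767042712397567009471742878649181521575936, 232770751642589128620114215888509926622887936,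
      -996800821848160737829181635329718004106657792, 1364996242157898316457221420377178766177206272]]
  d := 0
  nus := [(5575186299632655785383929568162090376495104, 0),
      (89202980794122492566142873090593446023921664, 1),
      (5708990770823839524233143877797980545530986496, 3),
      (365375409332725729550921208179070754913983135744, 2)]
  ls := 332306998946228968225951765070086144
  L := [[1411021, -367654, -63735, 767126],
       [0, 3952524, 5274966, -3005829],
       [0, 0, 5523817, 6312322],
       [0, 0, 0, 105933]]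
  tau := [1058, 200, 100, 132]

lemma lvS_8 : (List.range ((8 + 1) / 2)).map (sRow 8 12 (kS 8)) = lv8.S := by
  (clear * -; decide +kernel)

lemma lvC_8 : lvlChk 8 ((8 + 1) / 2) lv8 := by
  (clear * -; decide +kernel)

/-- level 9 -/
def lv9 : Lvl where
  S := [[-78559616472218035587673220741738582136324096, 438862562372993692868404921643817677252198400,
      -868293990797194477025414777239416472583798784, 718287904238837145717184175021947068044279808,
      38243407441964737420325787896994821862064128],
       [438862562372993692868404921643817677252198400, -71907381192762603608125824567857315038887936,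
      -1774470231221749043473682988872792099052847104, 1696153735244900760973455436523350877030842368,
      747878082374749334455307375376173313608908800],
       [-868293990797194477025414777239416472583798784, -1774470231221749043473682988872792099052847104,
      8335009764747477854651967267709900605376954368, -9059131036231177015154960889467431925896445952,
      -3697954888174672190952002459776214803138215936],
       [718287904238837145717184175021947068044279808, 1696153735244900760973455436523350877030842368,
      -9059131036231177015154960889467431925896445952,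
      15358664645668751731532882125478000823732535296, 3890410050513216721534051852954026054405586944],
       [38243407441964737420325787896994821862064128, 747878082374749334455307375376173313608908800,
      -3697954888174672190952002459776214803138215936, 3890410050513216721534051852954026054405586944,
      1358297142871737630147565862398651302640877568]]
  d := 1673978023778258723602495613208871170580420000
  nus := [(5575186299632655785383929568162090376495104, 0),
      (89202980794122492566142873090593446023921664, 1),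
      (2854495385411919762116571938898990272765493248, 3)]
  ls := 1329227995784915872903807060280344576
  L := [[437702, 1551750, -2529450, 5388323, -3326388],
       [0, 2746775, 9815854, -2931007, -447298],
       [0, 0, 4559893, 11467072, 1739313],
       [0, 0, 0, 2015040, -15259],
       [0, 0, 0, 0, 60542]]
  tau := [1600, 262, 107, 100, 300]

lemma lvS_9 : (List.range ((9 + 1) / 2)).map (sRow 9 12 (kS 9)) = lv9.S := by
  (clear * -; decide +kernel)

lemma lvC_9 : lvlChk 9 ((9 + 1) / 2) lv9 := by
  (clear * -; decide +kernel)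

/-- level 10 -/
def lv10 : Lvl where
  S := [[-577908500608068450537052910679533860920754176, 3062908533445849687499336805367459168728907776,
      -8741704083100995668365811424650325186746253312,
      10470064134220917555832230721178763935122194432,
      -6178038156211309527794870968529104890784382976],
       [3062908533445849687499336805367459168728907776, -12135426814108428951200369886273341211254194176,
      47925258596385857494690021703329088151723442176,
      -65945875829239936799306478518388089959533772800,
      51056886071340957473029630218827558647014359040],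
       [-8741704083100995668365811424650325186746253312, 47925258596385857494690021703329088151723442176,
      -122018193569021334437423667994048249621597126656,
      127763998469070064208329527748127217073904418816,
      -77454318013899086150400250847318869104169844736],
       [10470064134220917555832230721178763935122194432,
      -65945875829239936799306478518388089959533772800,
      127763998469070064208329527748127217073904418816,
      -91578183562434617229158188426898955685249155072,
      -10905300775072362812271794504560260952375689216],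
       [-6178038156211309527794870968529104890784382976, 51056886071340957473029630218827558647014359040,
      -77454318013899086150400250847318869104169844736,
      -10905300775072362812271794504560260952375689216,
      163555971258646996716805276495703229470154424320]]
  d := 0
  nus := [(11150372599265311570767859136324180752990208, 0),
      (178405961588244985132285746181186892047843328, 1),
      (11417981541647679048466287755595961091061972992, 3),
      (5846006549323611672814739330865132078623730171904, 2)]
  ls := 21267647932558653966460912964485513216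
  L := [[585176, 842467, -1908085, 2510990, -991345],
       [0, 2160273, 2436091, 5138878, -3190969],
       [0, 0, 9627727, 1221512, 610557],
       [0, 0, 0, 11195773, 5597752],
       [0, 0, 0, 0, 109868]]
  tau := [2771, 400, 138, 100, 173]

lemma lvS_10 : (List.range ((10 + 1) / 2)).map (sRow 10 12 (kS 10)) = lv10.S := by
  (clear * -; decide +kernel)

lemma lvC_10 : lvlChk 10 ((10 + 1) / 2) lv10 := by
  (clear * -; decide +kernel)

/-- level 11 -/
def lv11 : Lvl where
  S := [[-755342521722459535991325994814213978062848, 10532654597928643646349451184008442822554288128,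
      -29018968989995558820309958235905706684351250432,
      38990207807469853190773577849725669644919898112,
      -12365569599519322636734036933301939006127210496,
      4538850865102274321184577770275696736529809408],
       [10532654597928643646349451184008442822554288128,
      -48336158813400181170535268902900627284625981440,
      167832581744903651666255973796032254408480784384,
      -292204916593870047182051197382546747507739721728,
      29892811620229520528874492109710889585276354560,
      66325294458381289679793831128747582451326386176],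
       [-29018968989995558820309958235905706684351250432,
      167832581744903651666255973796032254408480784384,
      -162259258673595695189123879436891791041178370048,
      35327165140764068809304761483158859497483534336,
      434785023961991693289209752557546122714950926336,
      -171085122991340235924947042791819987522129231872],
       [38990207807469853190773577849725669644919898112,
      -292204916593870047182051197382546747507739721728,
      35327165140764068809304761483158859497483534336,
      547479798793912494833710374323184566004520845312,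
      -1049843443234105067211059075575712889266308644864,
      129729203244899538267738986929145914236057157632],
       [-12365569599519322636734036933301939006127210496,
      29892811620229520528874492109710889585276354560,
      434785023961991693289209752557546122714950926336,
      -1049843443234105067211059075575712889266308644864,
      1205928557340382521276223931747047575989740634112,
      22680196992378866692807460138615698686971215872],
       [4538850865102274321184577770275696736529809408, 66325294458381289679793831128747582451326386176,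
      -171085122991340235924947042791819987522129231872,
      129729203244899538267738986929145914236057157632,
      22680196992378866692807460138615698686971215872,
      150203072811329835380137082865787621315348267008]]
  d := 24105283542406925619875936830207744856358048006
  nus := [(11150372599265311570767859136324180752990208, 0),
      (178405961588244985132285746181186892047843328, 1),
      (11417981541647679048466287755595961091061972992, 3)]
  ls := 332306998946228968225951765070086144
  L := [[2467621, 32413454, -36988571, 3243161, 74632750, -49954624],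
       [0, 14246220, 139577532, 143507344, -74030780, -8232155],
       [0, 0, 47349191, 147853891, 105395685, 14491136],
       [0, 0, 0, 140355783, 188249782, 13485797],
       [0, 0, 0, 0, 3480434, 822547],
       [0, 0, 0, 0, 0, 385581]]
  tau := [4382, 566, 169, 100, 122, 454]

lemma lvS_11 : (List.range ((11 + 1) / 2)).map (sRow 11 12 (kS 11)) = lv11.S := by
  (clear * -; decide +kernel)

lemma lvC_11 : lvlChk 11 ((11 + 1) / 2) lv11 := by
  (clear * -; decide +kernel)

/-- level 12 -/
def lv12 : Lvl where
  S := [[-2269140813963854575854827271374403740721217536, 2818513396516155013623134201220858624513933312,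
      18522428822057111465460032396659371156550189056,
      -54220373180435123950302503888897233817872367616,
      11379448203232452673894881787702571927586471936,
      -26182350753292016366234438347141918966677504000],
       [2818513396516155013623134201220858624513933312, 275745050932489753759807193706971890578307940352,
      -194929582793038050250728333980259959560155955200,
      103437770628582144807804635859607227635110772736,
      -262862516294766932261705158326779104574381752320,
      563990489804471652804168609039148824325999558656],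
       [18522428822057111465460032396659371156550189056,
      -194929582793038050250728333980259959560155955200,
      2155056530551816763236858822205261827502336114688,
      -2011669995172739713690924464123012874896307912704,
      -3054675503017656264705218562928187033002985914368,
      2599242290275333904860096998235616394566663405568],
       [-54220373180435123950302503888897233817872367616,
      103437770628582144807804635859607227635110772736,
      -2011669995172739713690924464123012874896307912704,
      -341209180241316794908400394860091094178017050624,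
      9931540748946743818490621206380594087505415897088,
      -6766321607812190357353875678832011008911381364736],
       [11379448203232452673894881787702571927586471936,
      -262862516294766932261705158326779104574381752320,
      -3054675503017656264705218562928187033002985914368,
      9931540748946743818490621206380594087505415897088,
      -15476622829763201517663314784722422058561556185088,
      5966552581300344338878751918632338973898368352256],
       [-26182350753292016366234438347141918966677504000,
      563990489804471652804168609039148824325999558656,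
      2599242290275333904860096998235616394566663405568,
      -6766321607812190357353875678832011008911381364736,
      5966552581300344338878751918632338973898368352256,
      2153277401956549413355716808193152255254381723648]]
  d := 0
  nus := [(11150372599265311570767859136324180752990208, 0),
      (178405961588244985132285746181186892047843328, 1),
      (22835963083295358096932575511191922182123945984, 3),
      (46768052394588893382517914646921056628989841375232, 2)]
  ls := 5316911983139663491615228241121378304
  L := [[3126972, 6313009, -416093, -25184056, 40835519, -17505750],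
       [0, 19390902, 13702958, -41835417, 114253199, -57001081],
       [0, 0, 65416417, 166354119, -20164925, -5862404],
       [0, 0, 0, 76080660, 190045262, 55264278],
       [0, 0, 0, 0, 5113667, 2286689],
       [0, 0, 0, 0, 0, 922559]]
  tau := [6851, 800, 211, 105, 100, 214]

lemma lvS_12 : (List.range ((12 + 1) / 2)).map (sRow 12 12 (kS 12)) = lv12.S := by
  (clear * -; decide +kernel)

lemma lvC_12 : lvlChk 12 ((12 + 1) / 2) lv12 := by
  (clear * -; decide +kernel)

/-- level 13 -/
def lv13 : Lvl where
  S := [[-5920617452831387171008678183547778990694465536, 55627558622444057328655450587349956776020672512,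
      144696628113171568758090208769044831709385719808,
      -712178251612487751976632246422470424831975227392,
      1019580749985778853508204134329211251743554273280,
      -640627027073236394046602325552502010477707001856,
      223723945942312961747539447414011957199151038464],
       [55627558622444057328655450587349956776020672512,
      263733557372242788610403950747718581461291368448,
      -131383971441286009043631205421989264350146199552,
      1257803447192191077524935189948094454257713938432,
      -4186312059330979263524093562591681203364081696768,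
      2308698023170508406185766679951153404166363152384,
      251599264686451631430156134994713470758700449792],
       [144696628113171568758090208769044831709385719808,
      -131383971441286009043631205421989264350146199552,
      5231701949917286882220277470513497753534236459008,
      4982233961943631948643922650358321387253461417984,
      -23725300918168230091399132418013586932044214042624,
      15765757704974168476214125803334119004549014355968,
      1855463961224561646826856551192058677370258718720],
       [-712178251612487751976632246422470424831975227392,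
      1257803447192191077524935189948094454257713938432,
      4982233961943631948643922650358321387253461417984,
      -25687005657845071691642964135273356336468273922048,
      33821324648429076075506243585118003876517109563392,
      -15737222018252734284486353690126123485786389086208,
      -3952681187634557402945923698434007855576071012352],
       [1019580749985778853508204134329211251743554273280,
      -4186312059330979263524093562591681203364081696768,
      -23725300918168230091399132418013586932044214042624,
      33821324648429076075506243585118003876517109563392,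
      18322596227094125618325290845292599009200983506944,
      -30866148037225399687428621021932298183894808657920,
      3254730511220013650280239253217408377492942618624],
       [-640627027073236394046602325552502010477707001856,
      2308698023170508406185766679951153404166363152384,
      15765757704974168476214125803334119004549014355968,
      -15737222018252734284486353690126123485786389086208,
      -30866148037225399687428621021932298183894808657920,
      35134370685347254987942266388616451274241331953664,
      1110933561687335303515686973995849336007704969216],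
       [223723945942312961747539447414011957199151038464,
      251599264686451631430156134994713470758700449792,
      1855463961224561646826856551192058677370258718720,
      -3952681187634557402945923698434007855576071012352,
      3254730511220013650280239253217408377492942618624,
      1110933561687335303515686973995849336007704969216,
      4595384010824748946942580205409287491157906948096]]
  d := 236670056598177087904236470696585131316969925886
  nus := [(11150372599265311570767859136324180752990208, 0),
      (178405961588244985132285746181186892047843328, 1),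
      (22835963083295358096932575511191922182123945984, 3)]
  ls := 332306998946228968225951765070086144
  L := [[4567303, 127037526, 230023541, -900180323, 851032097, 110256027, -271281802],
       [0, 31724463, 329367221, 922599890, 441426502, -346673752, -60007966],
       [0, 0, 301124440, 1354372974, 608952594, -187950392, 23392359],
       [0, 0, 0, 501814320, 2003110960, 1310775824, 74606769],
       [0, 0, 0, 0, 67510422, 61489093, 1296359],
       [0, 0, 0, 0, 0, 18588243, 4155582],
       [0, 0, 0, 0, 0, 0, 1758355]]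
  tau := [11866, 1265, 298, 129, 100, 151, 668]

lemma lvS_13 : (List.range ((13 + 1) / 2)).map (sRow 13 12 (kS 13)) = lv13.S := by
  (clear * -; decide +kernel)

lemma lvC_13 : lvlChk 13 ((13 + 1) / 2) lv13 := by
  (clear * -; decide +kernel)

/-- level 14 -/
def lv14 : Lvl where
  S := [[3958602991144123166970031184901347654284345344, 86564829003965370487868576021244084471598153728,
      -522978565942043227367434489720083939821535363072,
      525789548763396861337555606402625319902763810816,
      379513317654538312954037740715727721740002918400,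
      -507406544783914119669282358389314431566162690048,
      278047536671082318504299436677364434588795928576],
       [86564829003965370487868576021244084471598153728,
      1220037141037526561219475674458514584549818630144,
      3609863397653153270120776425011960930912799031296,
      -5766307451665407052052213307299718563011334504448,
      2571521389243012807541340601384689400479630753792,
      -5691230156081919580755875734598062977269385658368,
      4276046327919335350697047486445185032773166956544],
       [-522978565942043227367434489720083939821535363072,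
      3609863397653153270120776425011960930912799031296,
      27337639843950298767895117637885563617013149990912,
      4360107139148736823792667733439936648914036326400,
      -70373255029816958814986678664301487958696105345024,
      -11655892387007254644564423445164472313892632002560,
      47670054207974455664586643056527106324832821706752],
       [525789548763396861337555606402625319902763810816,
      -5766307451665407052052213307299718563011334504448,
      4360107139148736823792667733439936648914036326400,
      85773414816976554446068743260832885633038841544704,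
      -159357619019925720009930820895858268209389951254528,
      64795158525888545414868212755730727248582896779264,
      29797040543247527911969135302486573064952658001920],
       [379513317654538312954037740715727721740002918400,
      2571521389243012807541340601384689400479630753792,
      -70373255029816958814986678664301487958696105345024,
      -159357619019925720009930820895858268209389951254528,
      422406005710838680097159311771320876205542117212160,
      -37063506510283461687561145292316395070088946909184,
      -211918358019987995933408292350467934440678502694912],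
       [-507406544783914119669282358389314431566162690048,
      -5691230156081919580755875734598062977269385658368,
      -11655892387007254644564423445164472313892632002560,
      64795158525888545414868212755730727248582896779264,
      -37063506510283461687561145292316395070088946909184,
      -111439858616152137728863887106525048586287555018752,
      125956448653507521198721858324603977356678132662272],
       [278047536671082318504299436677364434588795928576,
      4276046327919335350697047486445185032773166956544,
      47670054207974455664586643056527106324832821706752,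
      29797040543247527911969135302486573064952658001920,
      -211918358019987995933408292350467934440678502694912,
      125956448653507521198721858324603977356678132662272,
      44365672962558622358981570185723628659385491783680]]
  d := 0
  nus := [(5575186299632655785383929568162090376495104, 0),
      (178405961588244985132285746181186892047843328, 1),
      (22835963083295358096932575511191922182123945984, 3),
      (374144419156711147060143317175368453031918731001856, 2)]
  ls := 332306998946228968225951765070086144
  L := [[33927381, 28730796, 115899211, -234899754, -25477350, 361544974, -213251041],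
       [0, 193745442, 852077888, -1153990744, 100670952, 2104421520, -1502702785],
       [0, 0, 547252534, 3422610034, 2455099069, -2236008410, -429941233],
       [0, 0, 0, 605893126, 3523956331, 4093480443, 787185746],
       [0, 0, 0, 0, 166660632, 298020744, 53514152],
       [0, 0, 0, 0, 0, 56406763, 29916342],
       [0, 0, 0, 0, 0, 0, 15974872]]
  tau := [19133, 1876, 400, 153, 100, 117, 299]

lemma lvS_14 : (List.range ((14 + 1) / 2)).map (sRow 14 12 (kS 14)) = lv14.S := by
  (clear * -; decide +kernel)

lemma lvC_14 : lvlChk 14 ((14 + 1) / 2) lv14 := by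
  (clear * -; decide +kernel)

/-- level 15 -/
def lv15 : Lvl where
  S := [[4548522725274026592045839860579032032197214208, -70528549732553084129436262250894260219844493312,
      1528929295643909774600730799256091435363018473472,
      -1398207543674276013772095288761280921034725261312,
      -2352786004515845178560555763053835742730086514688,
      6391538561209867023515934897152539965803961778176,
      -8069390042208570268706436584242502862308187832320,
      2910535671750385798966495262587166514035615072256],
       [-70528549732553084129436262250894260219844493312,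
      2216392634296782936968094251819510521020649832448,
      6671206751258066655310127026521070782255747563520,
      -14615187069526568780122705949539756809806388658176,
      16995967668778558558474757842049852256032428916736,
      -27283297685854581269851618468723813814587115962368,
      19317721248562475553272095039580142759749414289408,
      1679626649624356791770630697539172977177863913472],
       [1528929295643909774600730799256091435363018473472,
      6671206751258066655310127026521070782255747563520,
      70594182036549096571438650793938384248190762221568,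
      76660932350919970244191902474238254485594670366720,
      -117067306530991909516231547756479572054137339117568,
      -314827121131224075877513969360205723352702551851008,
      266296187478786449238093407266929611293381550407680,
      11695176803783130144316317025232828208399878455296],
       [-1398207543674276013772095288761280921034725261312,
      -14615187069526568780122705949539756809806388658176,
      76660932350919970244191902474238254485594670366720,
      554021135098765690775536429020928017111302245711872,
      -817560372508622530189409184599632815889164074483712,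
      -345827372008666716206790549495779538195627928190976,
      578125015551369138615304902103767912764888039030784,
      53871357626774027958259954867051366192220882337792],
       [-2352786004515845178560555763053835742730086514688,
      16995967668778558558474757842049852256032428916736,
      -117067306530991909516231547756479572054137339117568,
      -817560372508622530189409184599632815889164074483712,
      769158212917848347564425078527394401351997329506304,
      1543410341442906398725637288721866183620117263286272,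
      -1445207736043846350607917333496121671429932441403392,
      -29070670954369958166701064029129803841395029442560],
       [6391538561209867023515934897152539965803961778176,
      -27283297685854581269851618468723813814587115962368,
      -314827121131224075877513969360205723352702551851008,
      -345827372008666716206790549495779538195627928190976,
      1543410341442906398725637288721866183620117263286272,
      -798378926970668850676155036663478202959168240877568,
      -143641512897123132950932027842046762846096208166912,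
      -133789231631825892064192595316341588365164819775488],
       [-8069390042208570268706436584242502862308187832320,
      19317721248562475553272095039580142759749414289408,
      266296187478786449238093407266929611293381550407680,
      578125015551369138615304902103767912764888039030784,
      -1445207736043846350607917333496121671429932441403392,
      -143641512897123132950932027842046762846096208166912,
      1012652173410142360722201915584434056952817909760000,
      18711304732185021531002761568685473729124564467712],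
       [2910535671750385798966495262587166514035615072256,
      1679626649624356791770630697539172977177863913472,
      11695176803783130144316317025232828208399878455296,
      53871357626774027958259954867051366192220882337792,
      -29070670954369958166701064029129803841395029442560,
      -133789231631825892064192595316341588365164819775488,
      18711304732185021531002761568685473729124564467712,
      65731252223273660237972253333156949116944847470592]]
  d := 1685298864567239043537859703421836979048313318398
  nus := [(5575186299632655785383929568162090376495104, 0),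
      (178405961588244985132285746181186892047843328, 1),
      (22835963083295358096932575511191922182123945984, 3)]
  ls := 332306998946228968225951765070086144
  L := [[5982884, 257057426, 1717226714, -1243072744, -4598635096, 7526679392, -2038874778, -1023455935],
       [0, 108719075, 932925077, 1309239760, 742404080, 1943861369, -1977385834, -457802205],
       [0, 0, 754164013, 6661000501, 10247223614, -3269386589, -3592804663, -56889435],
       [0, 0, 0, 920812748, 7299253306, 13204908226, 5413619698, 233272459],
       [0, 0, 0, 0, 566273020, 1575651908, 669896432, 16474867],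
       [0, 0, 0, 0, 0, 200094576, 145470149, 4106172],
       [0, 0, 0, 0, 0, 0, 84677045, 15421663],
       [0, 0, 0, 0, 0, 0, 0, 4812910]]
  tau := [30526, 2771, 539, 184, 104, 100, 180, 924]

lemma lvS_15 : (List.range ((15 + 1) / 2)).map (sRow 15 12 (kS 15)) = lv15.S := by
  (clear * -; decide +kernel)

lemma lvC_15 : lvlChk 15 ((15 + 1) / 2) lv15 := by
  (clear * -; decide +kernel)

/-- level 16 -/
def lv16 : Lvl where
  S := [[18437608326879652179185322402443545604379377664,
      129324662380818503133359137103088706375284424704,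
      -210727690280226577334663618093116706424166023168,
      -10311611361297720182021343970793456347515205976064,
      23999350740617742525065385458877947213616387194880,
      -22674602984475248619419333421046914356884354891776,
      13759511841445322543019332805489031242813775282176,
      -3127208198378444442753346679035455110824184512512],
       [129324662380818503133359137103088706375284424704,
      10165370583229782611704241298158472741777007706112,
      3167376890527943848184090192468680491180981485568,
      45273838576278980802689026403174099116384107626496,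
      -130589525960166405895012190259370407576624055713792,
      180252625504722875783235248013280301798967786602496,
      -228687900949563927241619365427390376758400497221632,
      106542842024494670284520287518784958343565308592128],
       [-210727690280226577334663618093116706424166023168,
      3167376890527943848184090192468680491180981485568,
      306883564371597954347780105674925471562143442665472,
      228682498113135759613050193332233967247332464394240,
      -191969455609160076546921750766280420234512130113536,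
      -1267708251601072548997868832173901664116547830939648,
      637660400877371093613819411205713154068614014304256,
      404853121100291572567317103006098675227905688076288],
       [-10311611361297720182021343970793456347515205976064,
      45273838576278980802689026403174099116384107626496,
      228682498113135759613050193332233967247332464394240,
      3093161833464978864589278677577175449129410969468928,
      -2092284294400607958284386402291333112978305405943808,
      -4700872488032325197579515943753160615387896431509504,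
      1706054849004438033162442649314307498532174091517952,
      1786280572559726962266059275827151195188234037493760],
       [23999350740617742525065385458877947213616387194880,
      -130589525960166405895012190259370407576624055713792,
      -191969455609160076546921750766280420234512130113536,
      -2092284294400607958284386402291333112978305405943808,
      3512928226601878299619689942333337021883942738853888,
      -1627799064096083561886883759321761378245637316804608,
      2708796698196223005227518217469077972162832966352896,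
      -2110536006796269838494459332368374524960886786883584],
       [-22674602984475248619419333421046914356884354891776,
      180252625504722875783235248013280301798967786602496,
      -1267708251601072548997868832173901664116547830939648,
      -4700872488032325197579515943753160615387896431509504,
      -1627799064096083561886883759321761378245637316804608,
      21306333547419367929589020522696070934229669642240000,
      -12652321431531173781798060637968907680853568771850240,
      -2027844225987585398375304785992539569807890701090816],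
       [13759511841445322543019332805489031242813775282176,
      -228687900949563927241619365427390376758400497221632,
      637660400877371093613819411205713154068614014304256,
      1706054849004438033162442649314307498532174091517952,
      2708796698196223005227518217469077972162832966352896,
      -12652321431531173781798060637968907680853568771850240,
      7751350363646098483020198981214155913969938903072768,
      516133984923147256100732512322175186142594879979520],
       [-3127208198378444442753346679035455110824184512512,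
      106542842024494670284520287518784958343565308592128,
      404853121100291572567317103006098675227905688076288,
      1786280572559726962266059275827151195188234037493760,
      -2110536006796269838494459332368374524960886786883584,
      -2027844225987585398375304785992539569807890701090816,
      516133984923147256100732512322175186142594879979520,
      1590122816847773091364931274301451506647889883430912]]
  d := 0
  nus := [(5575186299632655785383929568162090376495104, 0),
      (178405961588244985132285746181186892047843328, 1),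
      (22835963083295358096932575511191922182123945984, 3),
      (2993155353253689176481146537402947624255349848014848, 2)]
  ls := 1329227995784915872903807060280344576
  L := [[47550151, 12153118, 117955197, 64186731, -516589275, 416838688, 220338993, -254265931],
       [0, 190833575, 1900350082, 1574578351, -6737189995, 6643923210, 2643054030, -4102673018],
       [0, 0, 537756434, 6327958860, 15887921832, 2395657958, -8062624921, -1110290724],
       [0, 0, 0, 752442225, 6683282236, 16435758447, 11418729362, 1603926359],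
       [0, 0, 0, 0, 2379928310, 8280993503, 6448729330, 810660935],
       [0, 0, 0, 0, 0, 449358881, 479943444, 46880567],
       [0, 0, 0, 0, 0, 0, 144801546, 64869585],
       [0, 0, 0, 0, 0, 0, 0, 27545672]]
  tau := [52873, 4469, 800, 247, 124, 100, 140, 413]

lemma lvS_16 : (List.range ((16 + 1) / 2)).map (sRow 16 12 (kS 16)) = lv16.S := by
  (clear * -; decide +kernel)

lemma lvC_16 : lvlChk 16 ((16 + 1) / 2) lv16 := by
  (clear * -; decide +kernel)

/-- level 17 -/
def lv17 : Lvl where
  S := [[45315019141119980302906735168272428708269129728,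
      172721060506638876272307098848918722610408194048,
      2802881595850615308247194253713237666872602656768,
      18490002435694170927393123001859085780569435406336,
      -37574799408144894927158412341608531855287231971328,
      5380690407463150500991591732256401002208293814272,
      33531395907820554877645603037263208204371570458624,
      -45107598223464948092487503890664271801070443823104,
      21632603415918822972523724784957733514499984457728],
       [172721060506638876272307098848918722610408194048,
      7644896037550064189674302780615755788378221576192,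
      29969167251994073638010437301776897446110035968000,
      13046497313865184604560051343530320657106901925888,
      -71481143772116762793584699070810514377968065708032,
      135967503679685417536052326148814871097239236771840,
      -271921558731437834286236084184865099024805438423040,
      117370517237837722092656730004503009915430319947776,
      45957246858489777766997290753666851972395751702528],
       [2802881595850615308247194253713237666872602656768,
      29969167251994073638010437301776897446110035968000,
      514117155724789945870609266460906460920260260265984,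
      817130985657198697764884956269724356957653874769920,
      -269071151680501114257061672360102305130909607657472,
      -999546013028634027089485635788130514965907025952768,
      -3147085029613273325513390655256758856957967342764032,
      2797883853195858797444540868790063238355929712820224,
      236787331828555488984824393447190551493236093878272],
       [18490002435694170927393123001859085780569435406336,
      13046497313865184604560051343530320657106901925888,
      817130985657198697764884956269724356957653874769920,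
      9087559131774061338983166889131488435939960961368064,
      3117691702647503767665935455443434708453632392560640,
      -25659897735854101339146018831733461317900837849137152,
      1371167872052199366391710505892592153783088227287040,
      11389954873015781466996949086691248302100014438547456,
      440600612438617726926802494439825577541700216160256],
       [-37574799408144894927158412341608531855287231971328,
      -71481143772116762793584699070810514377968065708032,
      -269071151680501114257061672360102305130909607657472,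
      3117691702647503767665935455443434708453632392560640,
      8195582631628007555258763023533081558262856000995328,
      -21026379102934776675943582210503017861001322923294720,
      5865785696318199225029033588999809245087400917467136,
      4303554779979640587184974267020650590715946270195712,
      77381884259899935498199122595393966706918374244352],
       [5380690407463150500991591732256401002208293814272,
      135967503679685417536052326148814871097239236771840,
      -999546013028634027089485635788130514965907025952768,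
      -25659897735854101339146018831733461317900837849137152,
      -21026379102934776675943582210503017861001322923294720,
      91622286800519175216500189055805368704359382768418816,
      -10367347395397934810473276521135529459008513616379904,
      -34631339537649092632620615470924808482245723520237568,
      -1000677900836737869205898332512893005881468021374976],
       [33531395907820554877645603037263208204371570458624,
      -271921558731437834286236084184865099024805438423040,
      -3147085029613273325513390655256758856957967342764032,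
      1371167872052199366391710505892592153783088227287040,
      5865785696318199225029033588999809245087400917467136,
      -10367347395397934810473276521135529459008513616379904,
      11316832317386680308526132134338493945388845106200576,
      -2252129894938685846728087247110300454327511775444992,
      -1509935014439340702732155686865469155927963939635200],
       [-45107598223464948092487503890664271801070443823104,
      117370517237837722092656730004503009915430319947776,
      2797883853195858797444540868790063238355929712820224,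
      11389954873015781466996949086691248302100014438547456,
      4303554779979640587184974267020650590715946270195712,
      -34631339537649092632620615470924808482245723520237568,
      -2252129894938685846728087247110300454327511775444992,
      17059859400872251640118495752059417591780569922928640,
      1272680253021243759664159648316205159710268139241472],
       [21632603415918822972523724784957733514499984457728,
      45957246858489777766997290753666851972395751702528,
      236787331828555488984824393447190551493236093878272,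
      440600612438617726926802494439825577541700216160256,
      77381884259899935498199122595393966706918374244352,
      -1000677900836737869205898332512893005881468021374976,
      -1509935014439340702732155686865469155927963939635200,
      1272680253021243759664159648316205159710268139241472,
      749427943418821152310469652413062331661707038949376]]
  d := 9100613868663090835104442398477919686860891919352
  nus := [(2787593149816327892691964784081045188247552, 0),
      (89202980794122492566142873090593446023921664, 1),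
      (11417981541647679048466287755595961091061972992, 3)]
  ls := 5316911983139663491615228241121378304
  L := [[1754446, 59492480, 781402743, 1499672239, -3878873424, -233779622, 5712734070, -2768426106,
      -517136952],
       [0, 67251715, 909632008, 2092328686, -2938195050, 610374893, 5543053896, -3529492070, -597838573],
       [0, 0, 255595922, 3863984256, 14103477479, 9477943190, -7506629152, -3582105936, -71153718],
       [0, 0, 0, 376009436, 4359804560, 14585635430, 15596903409, 4447068118, 152766270],
       [0, 0, 0, 0, 1335544508, 6629001467, 8106063404, 2336775966, 65079179],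
       [0, 0, 0, 0, 0, 613766430, 1141084586, 291351120, 613155],
       [0, 0, 0, 0, 0, 0, 181899559, 126757574, 7076529],
       [0, 0, 0, 0, 0, 0, 0, 82482788, 9996844],
       [0, 0, 0, 0, 0, 0, 0, 0, 5920327]]
  tau := [86341, 6826, 1131, 319, 143, 100, 114, 238, 1391]

lemma lvS_17 : (List.range ((17 + 1) / 2)).map (sRow 17 12 (kS 17)) = lv17.S := by
  (clear * -; decide +kernel)

lemma lvC_17 : lvlChk 17 ((17 + 1) / 2) lv17 := by
  (clear * -; decide +kernel)

/-- level 18 -/
def lv18 : Lvl where
  S := [[27799557186081273153347118433649837026377203712,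
      123418836678416095067803973495684480836388782080,
      13441811744592189827460646021445594383096209211392,
      -47720646948997898790211127304302789277535338233856,
      40939626773537409133192327825340419704235682168832,
      78626898508052385990953025124756151975046782386176,
      -182158385541406788039831978961515335740203278008320,
      122508960371811788793089521984621918804974759837696,
      -26122081233756476213916386993277885896984893587456],
       [123418836678416095067803973495684480836388782080,
      50998105535994485820709041494367705820473361170432,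
      56037840034504123553977568030163700491622992052224,
      262325176431298120876534559075444937814286543093760,
      -269985855078988392679193706350584284294137864257536,
      -276186792550010773816863410056956221598246031589376,
      572464681742593046451980122814265658814088377008128,
      -1241905492009436785824829949486970214816096406470656,
      801111598449973247930603648659193286193299868090368],
       [13441811744592189827460646021445594383096209211392,
      56037840034504123553977568030163700491622992052224,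
      1078038996067061754267925471899335092225596142387200,
      2980896782160808630140026161223385498839197855776768,
      376409187696667436086536999507297521836414935760896,
      -3139437613597328761213730977497857739453718257991680,
      -9489000318322748038012731344349995851740574069555200,
      4768339827327036511707441681748543393395466926292992,
      3645331654664523070335281712699517674396657704239104],
       [-47720646948997898790211127304302789277535338233856,
      262325176431298120876534559075444937814286543093760,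
      2980896782160808630140026161223385498839197855776768,
      27390275929195121787558005089525400411127523382919168,
      31198958829997464748322923452848059646990719855362048,
      -70962850823812263599926753772841166229080566203940864,
      -58787175448141940475938127222776381461134557495427072,
      49753270653477907920860752873157920412314327987519488,
      17517590726954696050297703762877692323344075787862016],
       [40939626773537409133192327825340419704235682168832,
      -269985855078988392679193706350584284294137864257536,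
      376409187696667436086536999507297521836414935760896,
      31198958829997464748322923452848059646990719855362048,
      78352077514130993947236352902915502314218938819411968,
      -135642682239655095550301982102410498605996883721584640,
      -84178850256828576657615554330062238088739956159676416,
      101715374698746547447368566872671413296647211050860544,
      11189798036713400278331788937453367012395717687771136],
       [78626898508052385990953025124756151975046782386176,
      -276186792550010773816863410056956221598246031589376,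
      -3139437613597328761213730977497857739453718257991680,
      -70962850823812263599926753772841166229080566203940864,
      -135642682239655095550301982102410498605996883721584640,
      255518057140217699555180114030021585835563622516916224,
      167703118973094044598355850438228223615772177314349056,
      -176844399489513049146448149706976445316987382214426624,
      -41183944596165783186400185104039476171962015616598016],
       [-182158385541406788039831978961515335740203278008320,
      572464681742593046451980122814265658814088377008128,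
      -9489000318322748038012731344349995851740574069555200,
      -58787175448141940475938127222776381461134557495427072,
      -84178850256828576657615554330062238088739956159676416,
      167703118973094044598355850438228223615772177314349056,
      167295538308987798267651316770609361746033512772796416,
      -159165312835108248096548627819011472796096083427065856,
      -20656397843131862424159165620251405596526382967422976],
       [122508960371811788793089521984621918804974759837696,
      -1241905492009436785824829949486970214816096406470656,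
      4768339827327036511707441681748543393395466926292992,
      49753270653477907920860752873157920412314327987519488,
      101715374698746547447368566872671413296647211050860544,
      -176844399489513049146448149706976445316987382214426624,
      -159165312835108248096548627819011472796096083427065856,
      176230622048858429453023294859067312942804176738451456,
      3485023574253616284853216784807540016456983484825600],
       [-26122081233756476213916386993277885896984893587456,
      801111598449973247930603648659193286193299868090368,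
      3645331654664523070335281712699517674396657704239104,
      17517590726954696050297703762877692323344075787862016,
      11189798036713400278331788937453367012395717687771136,
      -41183944596165783186400185104039476171962015616598016,
      -20656397843131862424159165620251405596526382967422976,
      3485023574253616284853216784807540016456983484825600,
      25848026763362521862523435746513103898963397232820224]]
  d := 0
  nus := [(1393796574908163946345982392040522594123776, 0),
      (89202980794122492566142873090593446023921664, 1),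
      (11417981541647679048466287755595961091061972992, 3),
      (11972621413014756705924586149611790497021399392059392, 2)]
  ls := 1329227995784915872903807060280344576
  L := [[94939718, 6149299, 104290804, 356377266, -403545312, -797977235, 1308393913, -114308042,
      -382419867],
       [0, 232414701, 3979908803, 14297812462, -11337755402, -25913736632, 46747833258, -7542297782,
      -14763336023],
       [0, 0, 662501907, 12113110330, 57944872686, 64694236104, -36126557738, -44816958588, -4682018987],
       [0, 0, 0, 1667131525, 13016888579, 31244020852, 27885601602, 10336595867, 1466164566],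
       [0, 0, 0, 0, 6550029025, 43547894131, 77713311737, 39523002101, 3895591932],
       [0, 0, 0, 0, 0, 2502026087, 6869539107, 3758749331, 266297432],
       [0, 0, 0, 0, 0, 0, 1096692620, 1026847814, 117976447],
       [0, 0, 0, 0, 0, 0, 0, 553266470, 198384081],
       [0, 0, 0, 0, 0, 0, 0, 0, 87707846]]
  tau := [139632, 10369, 1600, 415, 168, 104, 100, 162, 545]

lemma lvS_18 : (List.range ((18 + 1) / 2)).map (sRow 18 12 (kS 18)) = lv18.S := by
  (clear * -; decide +kernel)

lemma lvC_18 : lvlChk 18 ((18 + 1) / 2) lv18 := by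
  (clear * -; decide +kernel)

/-- level 19 -/
def lv19 : Lvl where
  S := [[37477584068460104232029335790796460022267117568,
      -1083418094218578591830901268895003137968149889024,
      -2392605668151178449575032503883465501121502511104,
      39914864022285478001613183128486156647305798746112,
      63560951277837601652774252490867156464761181306880,
      -355529861523594991449273655132958218612092520366080,
      392164158098521203276872897191785243056220376399872,
      -70315092138298873094003844339798545731684619255808,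
      -145464518898342113052081956067741322303320556044288,
      75580395775492989302951183293697089387048420245504],
       [-1083418094218578591830901268895003137968149889024,
      32659172820202585829264708402835070673590916481024,
      158992017958928321275409006976804232735105228996608,
      374519701572775690564034522027702952997727961612288,
      -557164117537206595329084060045698193288686789984256,
      158932565799626139931214560982485611225046623191040,
      304283476979745668229665131285220401852602145308672,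
      -1797780114547923084446483159700854500297094970998784,
      1012022513912905630436933772147887373371282968018944,
      461170059198529156336646888583407920203473275060224],
       [-2392605668151178449575032503883465501121502511104,
      158992017958928321275409006976804232735105228996608,
      5041734358971286379763803206959955666265510082772992,
      1680071261321249423500399239523413620634779708817408,
      15314028869092415045231322248804273801502305934114816,
      -24098255951442528597896263811958801301268216495996928,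
      1734916304977938930577127966677501316053315193143296,
      -30210763892265893943246638093727532166946958249820160,
      28313770767934444169769625410317814859062120995094528,
      2006091970365174572142978310350378539299585841430528],
       [39914864022285478001613183128486156647305798746112,
      374519701572775690564034522027702952997727961612288,
      1680071261321249423500399239523413620634779708817408,
      110138590835937512609082119069572914692329246990270464,
      59548607949943277150512518967137036412432119005970432,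
      -44866688076819759652588230388866135617461077801959424,
      -380848388156871822276821546961691099267928542106615808,
      110017487465277898143523271638820456804594817133707264,
      128386855373875069921938055467379328758264131936583680,
      16181241263561267528030040740359953644241304198053888],
       [63560951277837601652774252490867156464761181306880,
      -557164117537206595329084060045698193288686789984256,
      15314028869092415045231322248804273801502305934114816,
      59548607949943277150512518967137036412432119005970432,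
      638718129877725266902439474970068604134586101230731264,
      -504177211737986613090127618433747083983239789206831104,
      -904508215554993204645154082114591205712873472724566016,
      375045269211908926892964425795243333695744139442782208,
      324104750236045891923587030343457256658640697504563200,
      -5715016076840427252341600012730789021354292729085952],
       [-355529861523594991449273655132958218612092520366080,
      158932565799626139931214560982485611225046623191040,
      -24098255951442528597896263811958801301268216495996928,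
      -44866688076819759652588230388866135617461077801959424,
      -504177211737986613090127618433747083983239789206831104,
      489024679822091293978245035338240704903477695738806272,
      507833572462835701979969175674715247627355521982398464,
      -107658324264421189521997480956718630662908059532132352,
      -304788500076623679886319787708707889200273610535600128,
      -4230233051209326880831018128864550957591582237261824],
       [392164158098521203276872897191785243056220376399872,
      304283476979745668229665131285220401852602145308672,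
      1734916304977938930577127966677501316053315193143296,
      -380848388156871822276821546961691099267928542106615808,
      -904508215554993204645154082114591205712873472724566016,
      507833572462835701979969175674715247627355521982398464,
      2553403281263169033343048900043810785979426393649315840,
      -1123227611577173836950921752034880167249701888398983168,
      -645320127704940641182848231490944459146813743671803904,
      -21113635173021287762642141921873898968169389550993408],
       [-70315092138298873094003844339798545731684619255808,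
      -1797780114547923084446483159700854500297094970998784,
      -30210763892265893943246638093727532166946958249820160,
      110017487465277898143523271638820456804594817133707264,
      375045269211908926892964425795243333695744139442782208,
      -107658324264421189521997480956718630662908059532132352,
      -1123227611577173836950921752034880167249701888398983168,
      685448407956304808667133673646500591758910165543288832,
      110940357914175788463698369014770115825272341579956224,
      -11106971289637359277011332182518056266591518433738752],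
       [-145464518898342113052081956067741322303320556044288,
      1012022513912905630436933772147887373371282968018944,
      28313770767934444169769625410317814859062120995094528,
      128386855373875069921938055467379328758264131936583680,
      324104750236045891923587030343457256658640697504563200,
      -304788500076623679886319787708707889200273610535600128,
      -645320127704940641182848231490944459146813743671803904,
      110940357914175788463698369014770115825272341579956224,
      341663923461074823141343386374576180473179968473399296,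
      13930438331903543893775119208552364466274335054626816],
       [75580395775492989302951183293697089387048420245504,
      461170059198529156336646888583407920203473275060224,
      2006091970365174572142978310350378539299585841430528,
      16181241263561267528030040740359953644241304198053888,
      -5715016076840427252341600012730789021354292729085952,
      -4230233051209326880831018128864550957591582237261824,
      -21113635173021287762642141921873898968169389550993408,
      -11106971289637359277011332182518056266591518433738752,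
      13930438331903543893775119208552364466274335054626816,
      10125326566661859340071243807645199799559875589046272]]
  d := 38543776384926031772207050158259424556116718717257
  nus := [(1393796574908163946345982392040522594123776, 0),
      (44601490397061246283071436545296723011960832, 1),
      (11417981541647679048466287755595961091061972992, 3)]
  ls := 21267647932558653966460912964485513216
  L := [[1505719, 32683543, 687512791, 3430293091, -766483140, -13008708520, 8988856702, 8723830918,
      -6440085146, -687199325],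
       [0, 65474644, 1383040285, 7033324799, -420599330, -23863248475, 18240709926, 16202604994,
      -13225567397, -1386906541],
       [0, 0, 157468063, 3558498488, 22797303914, 44341809627, 9146553506, -22754869839, -6708958758,
      -130451366],
       [0, 0, 0, 490113768, 4866863975, 18085702701, 27028710271, 16606692448, 3444840594, 120427450],
       [0, 0, 0, 0, 2664654275, 20266472047, 47978248635, 37505335754, 8022763340, 198087467],
       [0, 0, 0, 0, 0, 4087193137, 13248330131, 11493437504, 2285739652, 37755165],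
       [0, 0, 0, 0, 0, 0, 1231373750, 1508391611, 255696916, -2629425],
       [0, 0, 0, 0, 0, 0, 0, 415961608, 268971523, 15338279],
       [0, 0, 0, 0, 0, 0, 0, 0, 127523013, 11543028],
       [0, 0, 0, 0, 0, 0, 0, 0, 0, 11021570]]
  tau := [241849, 16933, 2444, 587, 217, 120, 100, 132, 315, 2059]

lemma lvS_19 : (List.range ((19 + 1) / 2)).map (sRow 19 12 (kS 19)) = lv19.S := by
  (clear * -; decide +kernel)

lemma lvC_19 : lvlChk 19 ((19 + 1) / 2) lv19 := by
  (clear * -; decide +kernel)

/-- level 20 -/
def lv20 : Lvl where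
  S := [[17483683162394338379796750979972970947924721664,
      -329214182829157996199475277024637159812890624000,
      36212807102298161917815213878999433457915442233344,
      -49965484882383139065460022521336600242970895056896,
      -105742862683066653500726077859564904921601111228416,
      77512790825005259776023338761404559366720768180224,
      353665656904469335944956294421297288468559634104320,
      -520166160743024811942834815447425323134005599535104,
      226610426488528613708456182024951497730048628097024,
      -9024161963578057048462182578743264157889252556800],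
       [-329214182829157996199475277024637159812890624000,
      35813865946706338753574555953527393320023244144640,
      181647681392137837482063122309945657394098369200128,
      252862317399629866515719036669462453701739978686464,
      -786259195016877389825376571810678622324385216724992,
      -513713405556994884109994918830180532515630963752960,
      2408464653796110852693813372976748883746421580234752,
      -1540032043554450186582292114570002129198986488184832,
      -1506367135289141063864346906807974821139528665792512,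
      1565818868197744216136913383703901035037828822597632],
       [36212807102298161917815213878999433457915442233344,
      181647681392137837482063122309945657394098369200128,
      4960024590136487241422154931950398105209613536198656,
      15768377296594362365528508184090552557548468132904960,
      -13951275222607042273758025821972615096330086755860480,
      -25286383230808993367946988465245253957880641033863168,
      51529581588866670144070975225678633672305575580401664,
      -58687960701165990676468762249734472582745551773106176,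
      3481932960938751385262793689096896923836136000847872,
      22004654398759272873217778785920942368251629797376000],
       [-49965484882383139065460022521336600242970895056896,
      252862317399629866515719036669462453701739978686464,
      15768377296594362365528508184090552557548468132904960,
      115148173001216180053490965495989244741914807012163584,
      84865945530338489416887715521555187443212719270920192,
      -64040219384083536316310590138458850215337174511910912,
      -193694357270293946634978992256916851463103137047379968,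
      -316328090573988079759473064041528737185979097164021760,
      248362627970669594158976124431646475899093636958126080,
      106940047789986589806653457648935795859228050885443584],
       [-105742862683066653500726077859564904921601111228416,
      -786259195016877389825376571810678622324385216724992,
      -13951275222607042273758025821972615096330086755860480,
      84865945530338489416887715521555187443212719270920192,
      1122863162542115657486677429147980854008070054048956416,
      248401412909004606325315789989888857843971568990945280,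
      -2873375178310555337255779859251579491578548954066845696,
      229614801865901846536004381744349286392973497257164800,
      1129298310257706978531203469843697273767562446284783616,
      80008372785767532452538326277328799726766612503592960],
       [77512790825005259776023338761404559366720768180224,
      -513713405556994884109994918830180532515630963752960,
      -25286383230808993367946988465245253957880641033863168,
      -64040219384083536316310590138458850215337174511910912,
      248401412909004606325315789989888857843971568990945280,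
      496633779555688647341820302852048863857716344028921856,
      -1340227786313761180237313592240678286769222963467124736,
      509430966540477587380703529088264058872827952559554560,
      351579275791973963964914161533364031762164038148030464,
      -180954939945283784974870573654702341598802912181485568],
       [353665656904469335944956294421297288468559634104320,
      2408464653796110852693813372976748883746421580234752,
      51529581588866670144070975225678633672305575580401664,
      -193694357270293946634978992256916851463103137047379968,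
      -2873375178310555337255779859251579491578548954066845696,
      -1340227786313761180237313592240678286769222963467124736,
      8726447860501586970344262478399357095617498377994895360,
      -1319824762087224226615194515993227998886910327047323648,
      -3032352005114452442672255261201443652676483495764164608,
      -18709899137017100255067413990556953816939590575980544],
       [-520166160743024811942834815447425323134005599535104,
      -1540032043554450186582292114570002129198986488184832,
      -58687960701165990676468762249734472582745551773106176,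
      -316328090573988079759473064041528737185979097164021760,
      229614801865901846536004381744349286392973497257164800,
      509430966540477587380703529088264058872827952559554560,
      -1319824762087224226615194515993227998886910327047323648,
      1911161832755401345391184176759845789099431110343917568,
      -714088110036630218949825248672941293456731273863102464,
      -246096514363895465616111249718647956569971556180033536],
       [226610426488528613708456182024951497730048628097024,
      -1506367135289141063864346906807974821139528665792512,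
      3481932960938751385262793689096896923836136000847872,
      248362627970669594158976124431646475899093636958126080,
      1129298310257706978531203469843697273767562446284783616,
      351579275791973963964914161533364031762164038148030464,
      -3032352005114452442672255261201443652676483495764164608,
      -714088110036630218949825248672941293456731273863102464,
      1954937543760550089800338227973821394779660011314348032,
      66347167438469645307422508863067324562926817549221888],
       [-9024161963578057048462182578743264157889252556800,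
      1565818868197744216136913383703901035037828822597632,
      22004654398759272873217778785920942368251629797376000,
      106940047789986589806653457648935795859228050885443584,
      80008372785767532452538326277328799726766612503592960,
      -180954939945283784974870573654702341598802912181485568,
      -18709899137017100255067413990556953816939590575980544,
      -246096514363895465616111249718647956569971556180033536,
      66347167438469645307422508863067324562926817549221888,
      168006804963327749493770557119705090064448749987430400]]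
  d := 0
  nus := [(696898287454081973172991196020261297061888, 0),
      (22300745198530623141535718272648361505980416, 1),
      (5708990770823839524233143877797980545530986496, 3),
      (47890485652059026823698344598447161988085597568237568, 2)]
  ls := 5316911983139663491615228241121378304
  L := [[94911715, 1382313, 35519542, 242819254, 208971022, -1033223289, -84782452, 1388414150,
      -403241434, -259547057],
       [0, 128960418, 3315869048, 22950968173, 21949497657, -89762702727, -4057378932, 126071848796,
      -40053688185, -24385085610],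
       [0, 0, 285603089, 7672862314, 61379508538, 166567330858, 107671283853, -73746443609, -55943337814,
      -4558009832],
       [0, 0, 0, 1075911565, 13734070768, 57763373328, 99039971759, 73420933906, 22680718671, 2156702105],
       [0, 0, 0, 0, 5275503774, 55433234424, 177328201335, 201532061359, 74178242182, 5857138249],
       [0, 0, 0, 0, 0, 7538174031, 34827570417, 45161819668, 16754561983, 1109231504],
       [0, 0, 0, 0, 0, 0, 5309896834, 10185705819, 3540314147, 70674174],
       [0, 0, 0, 0, 0, 0, 0, 1784888834, 1140207041, 103585863],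
       [0, 0, 0, 0, 0, 0, 0, 0, 948551953, 230214921],
       [0, 0, 0, 0, 0, 0, 0, 0, 0, 148848684]]
  tau := [398448, 26388, 3578, 800, 272, 136, 100, 112, 206, 778]

lemma lvS_20 : (List.range ((20 + 1) / 2)).map (sRow 20 12 (kS 20)) = lv20.S := by
  (clear * -; decide +kernel)

lemma lvC_20 : lvlChk 20 ((20 + 1) / 2) lv20 := by
  (clear * -; decide +kernel)

/-- level 21 -/
def lv21 : Lvl where
  S := [[409787826788584411232349400358361832013401423872,
      2663609340855907548079310756574199768058683195392,
      -45248798025913201787046260665820704497466469253120,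
      43335445153338879781318249001699034060993501069312,
      -1765923835408768470481395754301347196985724108800,
      318611064692407216822550341423130621294879742885888,
      -559710422192375836284510923231890629372342077227008,
      88138672645126934978672923577780372148652194398208,
      296605007542854293509762442446562871806870849323008,
      -183457030324087660104438857350281851518085725421568,
      43941966682277406894710615423226802305331145736192],
       [2663609340855907548079310756574199768058683195392,
      55270685756272722809193738810400464255362040594432,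
      -212807275932463956780132903598851782218921587769344,
      249349886792426848149515033056952122050605746225152,
      -188851222497862366862234960721816959307244193710080,
      1043548327104068575018513319793259675594885347409920,
      -582180559188292981090397310711191130946644668841984,
      -1733382862424504150982327916439605640724040353054720,
      1481978104759689561010441173130217365990149596381184,
      -266205510604242474664810585540726274387716822007808,
      225122344740987449891592122612267056057476037214208],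
       [-45248798025913201787046260665820704497466469253120,
      -212807275932463956780132903598851782218921587769344,
      7629125247673730580114551535753827974769641783296000,
      4526765102380737510669857299291867707252123258322944,
      -15549431670215721365029020943695614424651713136820224,
      -46953744503193305300340226879897062431401181586653184,
      91353962560313082590438038271200366623038828181454848,
      -10871414296591399044747907719089934872924129731805184,
      -64492478870202015624045193488456876583797138829344768,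
      36295864035713189981470985649766369666974208518782976,
      -2422287223954741762459698310956144377793433131024384],
       [43335445153338879781318249001699034060993501069312,
      249349886792426848149515033056952122050605746225152,
      4526765102380737510669857299291867707252123258322944,
      73129593789687019662362590810892856104859100992503808,
      -18527976569106539065912828560535854208049172656947200,
      -49805227977201563736132022266710533855557274155614208,
      75479566079073169597511881284508851599873701450874880,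
      -178576341071426367377434396575952067651492977588568064,
      -32533881769948979545643843497251794895178435255074816,
      111372863554716599272338505425374402098883278852325376,
      13405092369663352471923903524088391419749422306689024],
       [-1765923835408768470481395754301347196985724108800,
      -188851222497862366862234960721816959307244193710080,
      -15549431670215721365029020943695614424651713136820224,
      -18527976569106539065912828560535854208049172656947200,
      670211044901253333154508512337843707907681451887296512,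
      253734132109335798556182382792228211905738117918752768,
      -1194191264458897921886899309598794671915595780501536768,
      -625874844685136587654725180561961209852207648970113024,
      684330908377917845029593270914911262530624628088373248,
      235175060031967637435158396212086400920395617165901824,
      16444050653777081662815412718431843170044529692639232],
       [318611064692407216822550341423130621294879742885888,
      1043548327104068575018513319793259675594885347409920,
      -46953744503193305300340226879897062431401181586653184,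
      -49805227977201563736132022266710533855557274155614208,
      253734132109335798556182382792228211905738117918752768,
      2094863495994093568125321497075912507986660853387624448,
      -3153500593792405144585358316005448645691362275663806464,
      -794825975922766662283702604530786454099049966351679488,
      1992775788765145169233399309601964641897280003674996736,
      -266594808545219243824225100277366353789055404970344448,
      -33587473742336118561663308200714667484683594593468416],
       [-559710422192375836284510923231890629372342077227008,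
      -582180559188292981090397310711191130946644668841984,
      91353962560313082590438038271200366623038828181454848,
      75479566079073169597511881284508851599873701450874880,
      -1194191264458897921886899309598794671915595780501536768,
      -3153500593792405144585358316005448645691362275663806464,
      6227915434628898107168571393286920642218040471765123072,
      832233908458307966433486666680062313142024216332206080,
      -2824848334177189269797641224512820393257353743232401408,
      -48896070289512906634841908381078931957481924112416768,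
      -11108582555112616607982230338024322597570534065569792],
       [88138672645126934978672923577780372148652194398208,
      -1733382862424504150982327916439605640724040353054720,
      -10871414296591399044747907719089934872924129731805184,
      -178576341071426367377434396575952067651492977588568064,
      -625874844685136587654725180561961209852207648970113024,
      -794825975922766662283702604530786454099049966351679488,
      832233908458307966433486666680062313142024216332206080,
      4003440872415148360318093983196689241541890456959320064,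
      -3047713074257215156835948242733311197133029991010795520,
      -195989663425834399922187305387071117597697992097267712,
      30020245658113317204327761223580187700414108426829824],
       [296605007542854293509762442446562871806870849323008,
      1481978104759689561010441173130217365990149596381184,
      -64492478870202015624045193488456876583797138829344768,
      -32533881769948979545643843497251794895178435255074816,
      684330908377917845029593270914911262530624628088373248,
      1992775788765145169233399309601964641897280003674996736,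
      -2824848334177189269797641224512820393257353743232401408,
      -3047713074257215156835948242733311197133029991010795520,
      3806629080467668007987316259337984952105404429399752704,
      -494946208700996248304950601762973522241472158758862848,
      -27965902700829372006964314711261932361348392914255872],
       [-183457030324087660104438857350281851518085725421568,
      -266205510604242474664810585540726274387716822007808,
      36295864035713189981470985649766369666974208518782976,
      111372863554716599272338505425374402098883278852325376,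
      235175060031967637435158396212086400920395617165901824,
      -266594808545219243824225100277366353789055404970344448,
      -48896070289512906634841908381078931957481924112416768,
      -195989663425834399922187305387071117597697992097267712,
      -494946208700996248304950601762973522241472158758862848,
      625116694923409909526087553251224825463736488052129792,
      1449566740274431842124411614555273483623957161574400],
       [43941966682277406894710615423226802305331145736192,
      225122344740987449891592122612267056057476037214208,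
      -2422287223954741762459698310956144377793433131024384,
      13405092369663352471923903524088391419749422306689024,
      16444050653777081662815412718431843170044529692639232,
      -33587473742336118561663308200714667484683594593468416,
      -11108582555112616607982230338024322597570534065569792,
      30020245658113317204327761223580187700414108426829824,
      -27965902700829372006964314711261932361348392914255872,
      1449566740274431842124411614555273483623957161574400,
      13644602056434470323159894158578475168297917519757312]]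
  d := 131454563670695097833632465802905826907177019625174
  nus := [(348449143727040986586495598010130648530944, 0),
      (22300745198530623141535718272648361505980416, 1),
      (5708990770823839524233143877797980545530986496, 3)]
  ls := 21267647932558653966460912964485513216
  L := [[2547883, 16871170, 514598029, 4584082970, 8968017386, -17378063709, -22705668237, 36209920978,
      5721976331, -13592385214, -926863876],
       [0, 77295864, 2374212617, 21255640925, 43136301683, -73198272139, -97892332309, 162738897828,
      20777348033, -63501663836, -4280669790],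
       [0, 0, 179754502, 5377125355, 51422116133, 176908907277, 173497396700, -85040645755,
      -139412382164, -27779100319, -503560236],
       [0, 0, 0, 1293361468, 15721904596, 62825367553, 81957549773, 11632098483, -20330567079,
      -3730976520, 6817624],
       [0, 0, 0, 0, 3455754472, 40572611416, 159001285885, 241754783583, 136145313749, 22464082203,
      462663053],
       [0, 0, 0, 0, 0, 7950737633, 46040511918, 81624521433, 48083071189, 7582317830, 143814547],
       [0, 0, 0, 0, 0, 0, 4466945624, 10846809999, 6624263655, 863503008, 6946930],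
       [0, 0, 0, 0, 0, 0, 0, 1702655857, 1268767472, 82976500, -9683553],
       [0, 0, 0, 0, 0, 0, 0, 0, 639499729, 142277040, 3300049],
       [0, 0, 0, 0, 0, 0, 0, 0, 0, 239444915, 14113336],
       [0, 0, 0, 0, 0, 0, 0, 0, 0, 0, 17870353]]
  tau := [650663, 40880, 5226, 1093, 344, 157, 103, 100, 151, 402, 2912]

lemma lvS_21 : (List.range ((21 + 1) / 2)).map (sRow 21 12 (kS 21)) = lv21.S := by
  (clear * -; decide +kernel)

lemma lvC_21 : lvlChk 21 ((21 + 1) / 2) lv21 := by
  (clear * -; decide +kernel)

/-- the certificate of each level -/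
def lvT : ℕ → Lvl
  | 0 => lv0
  | 1 => lv1
  | 2 => lv2
  | 3 => lv3
  | 4 => lv4
  | 5 => lv5
  | 6 => lv6
  | 7 => lv7
  | 8 => lv8
  | 9 => lv9
  | 10 => lv10
  | 11 => lv11
  | 12 => lv12
  | 13 => lv13
  | 14 => lv14
  | 15 => lv15
  | 16 => lv16
  | 17 => lv17
  | 18 => lv18
  | 19 => lv19
  | 20 => lv20
  | 21 => lv21
  | _ => lv0

lemma lvS_all : ∀ e < 22, (List.range ((e + 1) / 2)).map (sRow e 12 (kS e)) = (lvT e).S := by
  intro e he
  interval_cases e
  · exact lvS_0
  · exact lvS_1
  · exact lvS_2
  · exact lvS_3
  · exact lvS_4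
  · exact lvS_5
  · exact lvS_6
  · exact lvS_7
  · exact lvS_8
  · exact lvS_9
  · exact lvS_10
  · exact lvS_11
  · exact lvS_12
  · exact lvS_13
  · exact lvS_14
  · exact lvS_15
  · exact lvS_16
  · exact lvS_17
  · exact lvS_18
  · exact lvS_19
  · exact lvS_20
  · exact lvS_21

lemma lvC_all : ∀ e < 22, lvlChk e ((e + 1) / 2) (lvT e) := by
  intro e he
  interval_cases e
  · exact lvC_0
  · exact lvC_1
  · exact lvC_2
  · exact lvC_3
  · exact lvC_4
  · exact lvC_5
  · exact lvC_6
  · exact lvC_7
  · exact lvC_8
  · exact lvC_9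
  · exact lvC_10
  · exact lvC_11
  · exact lvC_12
  · exact lvC_13
  · exact lvC_14
  · exact lvC_15
  · exact lvC_16
  · exact lvC_17
  · exact lvC_18
  · exact lvC_19
  · exact lvC_20
  · exact lvC_21

end Vale.Agent.P359
end
end

section

section

/-!
The crossing certificate: combination of the blocks and the level certificates.
-/

namespace Vale.Agent.P359

open Finset MvPolynomial

lemma dot_comm (l l' : List ℤ) : dot l l' = dot l' l := by
  induction l generalizing l' with
  | nil => cases l' <;> simp [dot]
  | cons a l ih =>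
    cases l' with
    | nil => simp [dot]
    | cons b l' => rw [dot, dot, ih, mul_comm]

lemma pr_comm (x y : Ent) : x.pr y = y.pr x := by
  rw [Ent.pr, Ent.pr, dot_comm]; ring

lemma getD_kpair_symm (th : ℕ → ℕ → List ℤ) (wg : List ℤ) (D m m' : ℕ) (x x' : Ent) (e : ℕ) :
    (kpair th wg D m m' x x').getD e 0 = (kpair th wg D m' m x' x).getD e 0 := by
  rw [kpair, kpair, getD_smulL, getD_smulL, getD_mulL, getD_mulL, getD_mulL, getD_mulL, pr_comm,
    show D + x'.a + x.a = D + x.a + x'.a by ring]
  ring

lemma getD_block_symm (th : ℕ → ℕ → List ℤ) (wg : List ℤ) (D m m' : ℕ) (ents : ℕ → List Ent)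
    (e : ℕ) :
    (lsumL (fun x => lsumL (fun x' => kpair th wg D m m' x x') (ents m')) (ents m)).getD e 0
      = (lsumL (fun x => lsumL (fun x' => kpair th wg D m' m x x') (ents m)) (ents m')).getD e 0 := by
  rw [getD_lsumL, getD_lsumL]
  simp only [getD_lsumL]
  rw [lsum_comm]
  apply lsum_congr; intro x _
  apply lsum_congr; intro x' _
  exact getD_kpair_symm th wg D m m' x' x e

lemma kcomp_symm (m m' e : ℕ) : (kcomp m m').getD e 0 = (kcomp m' m).getD e 0 := by
  rw [kcomp, kcomp, getD_addL, getD_addL, getD_block_symm thf wgL 0, getD_block_symm thf wgL 1]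

lemma kcomp_kS (e m m' : ℕ) (hm : m < 12) (hm' : m' < 12) : (kcomp m m').getD e 0 = kS e m m' := by
  unfold kS
  split_ifs with h
  · rw [kcomp_ok m hm m' hm' h]
  · rw [kcomp_symm, kcomp_ok m' hm' m hm (by omega)]

/-- bounds on the generator data -/
def entOK (D ρ m : ℕ) (x : Ent) : Prop :=
  x.col.length ≤ ρ ∧ x.a < 11 ∧ m ≤ D + x.a ∧ D + x.a < 12 + m

instance (D ρ m : ℕ) (x : Ent) : Decidable (entOK D ρ m x) := by unfold entOK; infer_instance

lemma ents0_ok : ∀ m < 12, ∀ x ∈ ents0 m, entOK 0 18 m x := by (clear * -; decide +kernel)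

lemma ents1_ok : ∀ m < 12, ∀ x ∈ ents1 m, entOK 1 23 m x := by (clear * -; decide +kernel)

lemma kpair_table (D ρ m m' : ℕ) (x x' : Ent) (h : entOK D ρ m x) (h' : entOK D ρ m' x') :
    kpair (thl (-3) 1) wgt D m m' x x' = kpair thf wgL D m m' x x' := by
  obtain ⟨-, h1, h2, h3⟩ := h
  obtain ⟨-, h1', h2', h3'⟩ := h'
  rw [kpair, kpair, wgL_eq, thf_eq _ _ h1' (by omega), thf_eq _ _ h1 (by omega)]

lemma lsumL_congr {α : Type*} (f g : α → List ℤ) (l : List α) (h : ∀ x ∈ l, f x = g x) :
    lsumL f l = lsumL g l := by
  induction l with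
  | nil => rfl
  | cons a l ih =>
    rw [lsumL, lsumL, h a (by simp), ih (fun x hx => h x (by simp [hx]))]

lemma block_table (D ρ : ℕ) (ents : ℕ → List Ent) (hok : ∀ m < 12, ∀ x ∈ ents m, entOK D ρ m x)
    (m m' : ℕ) (hm : m < 12) (hm' : m' < 12) :
    lsumL (fun x => lsumL (fun x' => kpair (thl (-3) 1) wgt D m m' x x') (ents m')) (ents m)
      = lsumL (fun x => lsumL (fun x' => kpair thf wgL D m m' x x') (ents m')) (ents m) := by
  apply lsumL_congr; intro x hx
  apply lsumL_congr; intro x' hx'
  exact kpair_table D ρ m m' x x' (hok m hm x hx) (hok m' hm' x' hx')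

/-- twice `m! (3/2)^m` times the coefficient of the channel in `X^D x^a` -/
def kpZ : ℕ → ℕ → ℕ → ℤ
  | 0, a, m => 2 * (-1) ^ m * (a.descFactorial m : ℤ)
  | _ + 1, a, m => (-1) ^ m * (2 * (a.descFactorial m : ℤ)
      - (match m with
        | 0 => 0
        | k + 1 => ((k : ℤ) + 1) * (a.descFactorial k : ℤ)))

/-- scaled integer version of `v3c` -/
def v3Z (D : ℕ) (ents : ℕ → List Ent) (al : List ℤ) (m : ℕ) : ℤ :=
  isum (fun x : Ent => (2 ^ 12 * (x.sc * dot al x.col) * kpZ D x.a m
    + isum (fun x' : Ent => if x.a = x'.a then (x.a.factorial : ℤ) * x.pr x' else 0) (ents m)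
      * ((m.factorial : ℤ) * 3 ^ m * 2 ^ (12 - m)))
    * (((D + x.a - m).factorial : ℤ) * 3 ^ (11 - (D + x.a - m)))) (ents m)

noncomputable section

/-- channel coefficients -/
def kapR : ℕ → ℕ → ℕ → ℝ
  | 0, a, m => (a.choose m : ℝ) * (-(2 / 3)) ^ m
  | _ + 1, a, m => kap1 a m

lemma desc_eq (a m : ℕ) : ((a.descFactorial m : ℕ) : ℝ) = (m.factorial : ℝ) * (a.choose m : ℝ) := by
  rw [Nat.descFactorial_eq_factorial_mul_choose]; push_cast; ring

lemma kpZ_eq0 (a m : ℕ) :
    ((kpZ 0 a m : ℤ) : ℝ) = 2 * ((m.factorial : ℝ) * (3 / 2) ^ m) * kapR 0 a m := by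
  have h : ((3 : ℝ) / 2) ^ m * (-(2 / 3)) ^ m = (-1) ^ m := by rw [← mul_pow]; norm_num
  rw [kpZ, kapR]
  push_cast
  rw [desc_eq, ← h]; ring

lemma kpZ_eq1 (a m : ℕ) :
    ((kpZ 1 a m : ℤ) : ℝ) = 2 * ((m.factorial : ℝ) * (3 / 2) ^ m) * kapR 1 a m := by
  cases m with
  | zero => simp only [kpZ, Int.reduceNeg, pow_zero, Nat.descFactorial_zero, Nat.cast_one, mul_one, sub_zero, one_mul, Int.cast_ofNat, Nat.factorial_zero, kapR, kap1, Nat.choose_zero_right, ↓reduceIte, add_zero]
  | succ k =>
    have h : ((3 : ℝ) / 2) ^ k * (-(2 / 3)) ^ k = (-1) ^ k := by rw [← mul_pow]; (clear * -; norm_num)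
    simp only [kpZ, kapR, kap1]
    rw [if_neg (by omega), Nat.add_sub_cancel, Nat.factorial_succ]
    push_cast
    rw [desc_eq, desc_eq, Nat.factorial_succ]
    push_cast
    rw [pow_succ (-1 : ℝ), ← h, pow_succ, pow_succ]
    ring

variable {lam : ℝ} (st : PlanarState lam)

lemma v3_eq (D ρ : ℕ) (ents : ℕ → List Ent) (al : List ℤ)
    (hkp : ∀ a m, ((kpZ D a m : ℤ) : ℝ) = 2 * ((m.factorial : ℝ) * (3 / 2) ^ m) * kapR D a m)
    (hok : ∀ m < 12, ∀ x ∈ ents m, entOK D ρ m x) (m : ℕ) (hm : m < 12) :
    v3c D ents al (kapR D) m * gam st m = (v3Z D ents al m : ℝ) / (2 ^ 12 * 3 ^ 11) * gh st m := by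
  rw [gam_eq, ← mul_assoc, v3c, v3Z, isum_eq]
  congr 1
  have hc := map_lsum (Int.castRingHom ℝ) (ents m) (fun x : Ent => (2 ^ 12 * (x.sc * dot al x.col)
    * kpZ D x.a m
    + isum (fun x' : Ent => if x.a = x'.a then (x.a.factorial : ℤ) * x.pr x' else 0) (ents m)
      * ((m.factorial : ℤ) * 3 ^ m * 2 ^ (12 - m)))
    * (((D + x.a - m).factorial : ℤ) * 3 ^ (11 - (D + x.a - m))))
  simp only [eq_intCast] at hc
  rw [hc, div_eq_mul_inv _ ((2 : ℝ) ^ 12 * 3 ^ 11), ← lsum_mul_right, ← lsum_mul_right]
  apply lsum_congr; intro x hx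
  obtain ⟨-, h1, h2, h3⟩ := hok m hm x hx
  have hc2 : ((isum (fun x' : Ent => if x.a = x'.a then (x.a.factorial : ℤ) * x.pr x' else 0)
      (ents m) : ℤ) : ℝ)
      = lsum (ents m) (fun x' => if x.a = x'.a then
          (x.a.factorial : ℝ) * ((x.pr x' : ℤ) : ℝ) else 0) := by
    rw [isum_eq]
    have := map_lsum (Int.castRingHom ℝ) (ents m)
      (fun x' : Ent => if x.a = x'.a then (x.a.factorial : ℤ) * x.pr x' else 0)
    simp only [eq_intCast] at this
    rw [this]
    apply lsum_congr; intro x' _
    split_ifs <;> simp
  simp only [Int.cast_mul, Int.cast_add, Int.cast_pow, Int.cast_ofNat, Int.cast_natCast]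
  rw [hc2, hkp]
  have e1 : (3 : ℝ) ^ 11 = 3 ^ (11 - (D + x.a - m)) * 3 ^ (D + x.a - m) := by
    rw [← pow_add]; congr 1; omega
  have e2 : (2 : ℝ) ^ 12 = 2 ^ (12 - m) * 2 ^ m := by
    rw [← pow_add]; congr 1; omega
  have e3 : ((3 : ℝ) / 2) ^ m = 3 ^ m / 2 ^ m := div_pow _ _ _
  rw [e3]
  generalize lsum (ents m) (fun x' => if x.a = x'.a then
          (x.a.factorial : ℝ) * ((x.pr x' : ℤ) : ℝ) else 0) = Y
  rw [e1, e2]
  field_simp

theorem planar_core :
    0 ≤ ((dot al0 al0 : ℝ) + (dot al1 al1 : ℝ) / 2) / 4 ^ 37
      + ∑ m ∈ range 12, ((v3Z 0 ents0 al0 m + v3Z 1 ents1 al1 m : ℤ) : ℝ)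
          / (2 ^ 12 * 3 ^ 11 * 4 ^ 37) * gh st m
      + ∑ e ∈ range 22, (if e % 2 = 1 then 19999 / 10000 / ((e - 1).factorial : ℝ) * ph st (e - 1)
          else 0) := by
  have hb0 := vblock st 0 ents0 al0 18 11 12 (kapR 0) (by (clear * -; decide +kernel))
    (fun m hm x hx => ⟨(ents0_ok m hm x hx).1, (ents0_ok m hm x hx).2.1, (ents0_ok m hm x hx).2.2.1⟩)
    (by
      intro a m hm
      rw [pow_zero, one_mul, gen, B3_X1, if_pos (by omega)]
      rfl)
  have hb1 := vblock st 1 ents1 al1 23 11 12 (kapR 1) (by decide +kernel)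
    (fun m hm x hx => ⟨(ents1_ok m hm x hx).1, (ents1_ok m hm x hx).2.1, (ents1_ok m hm x hx).2.2.1⟩)
    (by
      intro a m hm
      rw [pow_one, gen, B3_X0X1 st a (1 + a - m) m (by omega)]
      rfl)
  have hl0 := block_levels st 0 ents0 21 12 (fun m hm x hx => (ents0_ok m hm x hx).2.2.1)
    (fun m hm x hx m' hm' x' hx' => by
      have := (ents0_ok m hm x hx).2.1
      have := (ents0_ok m' hm' x' hx').2.1
      omega) (by norm_num)
  have hl1 := block_levels st 1 ents1 21 12 (fun m hm x hx => (ents1_ok m hm x hx).2.2.1)
    (fun m hm x hx m' hm' x' hx' => by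
      have := (ents1_ok m hm x hx).2.1
      have := (ents1_ok m' hm' x' hx').2.1
      omega) (by norm_num)
  set T0 := ∑ m ∈ range 12, lsum (ents0 m) (fun x => ∑ m' ∈ range 12, lsum (ents0 m') fun x' =>
          ((x.pr x' : ℤ) : ℝ) * B4 st (X 2 ^ x'.a * emb (gen (0 + x.a - m) m))
            (X 2 ^ x.a * emb (gen (0 + x'.a - m') m'))) with hT0
  set T1 := ∑ m ∈ range 12, lsum (ents1 m) (fun x => ∑ m' ∈ range 12, lsum (ents1 m') fun x' =>
          ((x.pr x' : ℤ) : ℝ) * B4 st (X 2 ^ x'.a * emb (gen (1 + x.a - m) m))
            (X 2 ^ x.a * emb (gen (1 + x'.a - m') m'))) with hT1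
  have hT : (4 : ℝ) ^ 22 * (T0 + T1) = ∑ e ∈ range 22, ∑ m ∈ range 12, ∑ m' ∈ range 12,
      (kS e m m' : ℝ) * B4 st (rel (e - m) m) (rel (e - m') m') := by
    rw [mul_add, hl0, hl1, ← sum_add_distrib]
    apply sum_congr rfl; intro e _
    rw [← sum_add_distrib]
    apply sum_congr rfl; intro m hm
    rw [← sum_add_distrib]
    apply sum_congr rfl; intro m' hm'
    rw [mem_range] at hm hm'
    rw [block_table 0 18 ents0 ents0_ok m m' hm hm', block_table 1 23 ents1 ents1_ok m m' hm hm',
      ← add_mul, ← Int.cast_add, ← getD_addL, ← kcomp, kcomp_kS e m m' hm hm']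
  have hK0 : ∀ e < 22, ∀ m < 12, ∀ m' < 12, ¬ (m ≤ e ∧ m' ≤ e) → kS e m m' = 0 := by
    decide +kernel
  have hd : ∀ e < 22, (lvT e).d * (10000 * ((e - 1).factorial : ℤ))
      ≤ (if e % 2 = 1 then 19999 * 4 ^ 59 * 36 ^ e else 0) := by
    decide +kernel
  have hlev : ∀ e ∈ range 22, -(4 : ℝ) ^ 59 * (if e % 2 = 1 then
      19999 / 10000 / ((e - 1).factorial : ℝ) * ph st (e - 1) else 0)
      ≤ ∑ m ∈ range 12, ∑ m' ∈ range 12,
        (kS e m m' : ℝ) * B4 st (rel (e - m) m) (rel (e - m') m') := by
    intro e he
    rw [mem_range] at he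
    rw [level_form st e 12 (kS e) (hK0 e he)]
    have h := lvl_sound st e 12 (kS e) (lvT e) (lvS_all e he) (lvC_all e he)
    set Sg := ∑ i ∈ range ((e + 1) / 2), ∑ j ∈ range ((e + 1) / 2),
      (smat e 12 (kS e) i j : ℝ) * gm st e i j with hSg
    have hf : (0 : ℝ) < (1 / 36) ^ e := by positivity
    have h36 : ((1 : ℝ) / 36) ^ e * 36 ^ e = 1 := by rw [← mul_pow]; norm_num
    have h2 := mul_nonneg hf.le h
    have hde : ((lvT e).d : ℝ) * (10000 * ((e - 1).factorial : ℝ))
      ≤ (if e % 2 = 1 then 19999 * 4 ^ 59 * 36 ^ e else 0) := by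
      have := hd e he
      split_ifs at this ⊢ with h0 <;> exact_mod_cast this
    have hfac : (0 : ℝ) < ((e - 1).factorial : ℝ) := by positivity
    by_cases he0 : e = 0
    · rw [if_neg (by omega), mul_zero]
      rw [if_pos he0, zero_add] at h2
      exact h2
    · rw [if_neg he0] at h2
      have hg : gm st e 0 0 = ph st (e - 1) := by
        rw [gm, pb, ph]; simp only [mul_zero, zero_add, pow_one]
      rw [hg] at h2
      have hph := ph_nonneg st (e - 1)
      have key : (1 / 36 : ℝ) ^ e * ((lvT e).d : ℝ) ≤ 4 ^ 59 * (if e % 2 = 1 then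
          19999 / 10000 / ((e - 1).factorial : ℝ) else 0) := by
        split_ifs at hde ⊢ with h0
        · have h3 : ((lvT e).d : ℝ) ≤ 19999 * 4 ^ 59 * 36 ^ e / (10000 * ((e - 1).factorial : ℝ)) := by
            rw [le_div_iff₀ (by positivity)]; exact hde
          calc (1 / 36 : ℝ) ^ e * ((lvT e).d : ℝ)
              ≤ (1 / 36 : ℝ) ^ e * (19999 * 4 ^ 59 * 36 ^ e / (10000 * ((e - 1).factorial : ℝ))) :=
                mul_le_mul_of_nonneg_left h3 hf.le
            _ = ((1 / 36 : ℝ) ^ e * 36 ^ e) * (4 ^ 59 * (19999 / 10000 / ((e - 1).factorial : ℝ))) := by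
                field_simp
            _ = _ := by rw [h36, one_mul]
        · have h3 : ((lvT e).d : ℝ) ≤ 0 := by
            by_contra hcon
            push Not at hcon
            have : 0 < ((lvT e).d : ℝ) * (10000 * ((e - 1).factorial : ℝ)) := by (clear * - hcon; positivity)
            linarith only [hde, this]
          rw [mul_zero]
          exact mul_nonpos_of_nonneg_of_nonpos hf.le h3
      have h4 := mul_le_mul_of_nonneg_right key hph
      have h5 : (if e % 2 = 1 then 19999 / 10000 / ((e - 1).factorial : ℝ) * ph st (e - 1) else 0)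
          = (if e % 2 = 1 then 19999 / 10000 / ((e - 1).factorial : ℝ) else 0) * ph st (e - 1) := by
        split_ifs <;> simp
      rw [h5]
      nlinarith only [h2, h4]
  have hsum := sum_le_sum hlev
  rw [← hT, ← mul_sum] at hsum
  -- channel coefficients
  have hv0 : ∑ m ∈ range 12, v3c 0 ents0 al0 (kapR 0) m * gam st m
      = ∑ m ∈ range 12, (v3Z 0 ents0 al0 m : ℝ) / (2 ^ 12 * 3 ^ 11) * gh st m :=
    sum_congr rfl fun m hm => v3_eq st 0 18 ents0 al0 kpZ_eq0 ents0_ok m (mem_range.1 hm)
  have hv1 : ∑ m ∈ range 12, v3c 1 ents1 al1 (kapR 1) m * gam st m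
      = ∑ m ∈ range 12, (v3Z 1 ents1 al1 m : ℝ) / (2 ^ 12 * 3 ^ 11) * gh st m :=
    sum_congr rfl fun m hm => v3_eq st 1 23 ents1 al1 kpZ_eq1 ents1_ok m (mem_range.1 hm)
  rw [hv0] at hb0
  rw [hv1] at hb1
  have hV : ∑ m ∈ range 12, ((v3Z 0 ents0 al0 m + v3Z 1 ents1 al1 m : ℤ) : ℝ)
          / (2 ^ 12 * 3 ^ 11 * 4 ^ 37) * gh st m
      = (∑ m ∈ range 12, (v3Z 0 ents0 al0 m : ℝ) / (2 ^ 12 * 3 ^ 11) * gh st m
        + ∑ m ∈ range 12, (v3Z 1 ents1 al1 m : ℝ) / (2 ^ 12 * 3 ^ 11) * gh st m) / 4 ^ 37 := by
    rw [← sum_add_distrib, sum_div]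
    apply sum_congr rfl; intro m _
    push_cast
    ring
  rw [hV]
  set V0 := ∑ m ∈ range 12, (v3Z 0 ents0 al0 m : ℝ) / (2 ^ 12 * 3 ^ 11) * gh st m
  set V1 := ∑ m ∈ range 12, (v3Z 1 ents1 al1 m : ℝ) / (2 ^ 12 * 3 ^ 11) * gh st m
  set PH := ∑ e ∈ range 22, (if e % 2 = 1 then
      19999 / 10000 / ((e - 1).factorial : ℝ) * ph st (e - 1) else 0)
  have h59 : (4 : ℝ) ^ 59 = 4 ^ 22 * 4 ^ 37 := by rw [← pow_add]
  rw [h59] at hsum
  have h37 : (0 : ℝ) < 4 ^ 37 := by positivity
  have h22 : (0 : ℝ) < 4 ^ 22 := by positivity
  have h6 : -(4 : ℝ) ^ 37 * PH ≤ T0 + T1 := by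
    have : (4 : ℝ) ^ 22 * (-(4 : ℝ) ^ 37 * PH) ≤ 4 ^ 22 * (T0 + T1) := by
      calc _ = -(4 ^ 22 * 4 ^ 37) * PH := by ring
        _ ≤ _ := hsum
    exact le_of_mul_le_mul_left this h22
  have h7 : 0 ≤ (dot al0 al0 : ℝ) + (dot al1 al1 : ℝ) / 2 + (V0 + V1) + 4 ^ 37 * PH := by
    simp only [Nat.factorial_zero, Nat.factorial_one, Nat.cast_one, pow_zero, pow_one, div_one,
      mul_one] at hb0 hb1
    linarith only [hsum, hb0, hb1]
  have h8 := div_nonneg h7 h37.le
  have h9 : ((dot al0 al0 : ℝ) + (dot al1 al1 : ℝ) / 2 + (V0 + V1) + 4 ^ 37 * PH) / 4 ^ 37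
      = ((dot al0 al0 : ℝ) + (dot al1 al1 : ℝ) / 2) / 4 ^ 37 + (V0 + V1) / 4 ^ 37 + PH := by
    (clear * -; field_simp)
  rw [h9] at h8
  exact h8

end

end Vale.Agent.P359
end
end

section

section

/-!
Bounds on the high three-body channels and the tail of the energy.
-/

namespace Vale.Agent.P359

open Finset MvPolynomial

/-- upper bounds (in units of `10^(-6)`) for the tail terms -/
def tailB : List ℤ := [0, 30303, 0, 9399, 0, 2916, 0, 838, 0, 244, 0, 72, 0, 20, 0, 6, 0, 2, 0, 1,
  0, 1, 0, 1, 0, 1, 0, 1, 0, 1, 0, 1, 0, 1, 0, 1, 0, 1, 0, 1, 0, 1, 0, 1, 0, 1, 0, 1, 0, 1, 0, 1,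
  0, 1, 0, 1, 0, 1, 0, 1, 0, 1, 0, 1, 0, 1, 0, 1, 0, 1]

lemma tailB_ok : ∀ k < 70, 0 ≤ tailB.getD k 0 ∧
    -(tZl.getD (k + 12) 0) * ((3 : ℤ) ^ (k + 12) * (((k + 13) / 3).factorial : ℤ)
      * ((k + 12 - (k + 13) / 3).factorial : ℤ) * 10 ^ 6)
    ≤ tailB.getD k 0 * ((2 : ℤ) ^ (k + 12 - (k + 13) / 3) * ((k + 12).factorial : ℤ) * 3 ^ 81) := by
  (clear * -; decide +kernel)

lemma tailB_sum : sumTo 70 (fun k => tailB.getD k 0) ≤ 44000 := by (clear * -; decide +kernel)

noncomputable section

variable {lam : ℝ} (st : PlanarState lam)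

lemma B3_c3_w3 (p : P3) (m : ℕ) : B3 st (c3 * p) (w3 ^ m) = 0 := by
  have h := B3_adj' st (w3 ^ m) p
  rw [dl3_w3_pow, map_zero, LinearMap.zero_apply] at h
  rw [B3_symm]
  linarith

lemma B3_mix1 (a : ℕ) : ∀ j : ℕ, B3 st (X 1 ^ a * w3 ^ j) (w3 ^ (a + j))
    = (-(2 / 3)) ^ a * gam st (a + j) := by
  induction a with
  | zero => intro j; simp only [Fin.isValue, pow_zero, one_mul, zero_add, gam]
  | succ a ih =>
    intro j
    have e : (X 1 ^ (a + 1) * w3 ^ j : P3)
        = c3 * (X 1 ^ a * w3 ^ j) + (-(2 / 3) : ℝ) • (X 1 ^ a * w3 ^ (j + 1)) := by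
      rw [pow_succ (X 1 : P3)]
      conv_lhs => rw [mul_assoc (X 1 ^ a) (X 1) (w3 ^ j)]
      nth_rewrite 2 [X1_eq]
      simp only [MvPolynomial.smul_eq_C_mul]
      ring
    rw [e, map_add, LinearMap.add_apply, B3_c3_w3, zero_add, map_smul, LinearMap.smul_apply,
      smul_eq_mul, show a + 1 + j = a + (j + 1) by ring, ih (j + 1), pow_succ]
    ring

lemma B3_mix (s a : ℕ) : ∀ j : ℕ, B3 st (X 0 ^ s * X 1 ^ a * w3 ^ j) (w3 ^ (s + a + j))
    = (1 / 3) ^ s * (-(2 / 3)) ^ a * gam st (s + a + j) := by
  induction s with
  | zero =>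
    intro j
    have := B3_mix1 st a j
    simpa only [Fin.isValue, pow_zero, one_mul, zero_add, one_div] using this
  | succ s ih =>
    intro j
    have e : (X 0 ^ (s + 1) * X 1 ^ a * w3 ^ j : P3)
        = c3 * (X 0 ^ s * X 1 ^ a * w3 ^ j) + (1 / 3 : ℝ) • (X 0 ^ s * X 1 ^ a * w3 ^ (j + 1)) := by
      have h0 := X0_eq
      calc (X 0 ^ (s + 1) * X 1 ^ a * w3 ^ j : P3) = X 0 ^ s * X 1 ^ a * w3 ^ j * X 0 := by ring
        _ = X 0 ^ s * X 1 ^ a * w3 ^ j * (c3 + (1 / 3 : ℝ) • w3) := by rw [← h0]
        _ = _ := by
          simp only [MvPolynomial.smul_eq_C_mul]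
          ring
    rw [e, map_add, LinearMap.add_apply, B3_c3_w3, zero_add, map_smul, LinearMap.smul_apply,
      smul_eq_mul, show s + 1 + a + j = s + a + (j + 1) by ring, ih (j + 1), pow_succ]
    ring

/-- bound on the weight of the channel `s + a` -/
theorem gh_bound (s a : ℕ) : gh st (s + a)
    ≤ 3 ^ (s + a) * ((s.factorial : ℝ) * (a.factorial : ℝ)) / (2 ^ a * ((s + a).factorial : ℝ)) := by
  set m := s + a with hm
  rcases (gam_nonneg st m).eq_or_lt with h0 | h0
  · have : gh st m = 0 := by rw [gh, ← h0]; simp
    rw [this]; positivity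
  -- Cauchy-Schwarz
  set p : P3 := X 0 ^ s * X 1 ^ a with hp
  have hpq : B3 st p (w3 ^ m) = (1 / 3) ^ s * (-(2 / 3)) ^ a * gam st m := by
    have := B3_mix st s a 0
    simpa only [hp, Fin.isValue, hm, one_div, inv_pow, pow_zero, mul_one, add_zero] using this
  have hpp : B3 st p p ≤ (s.factorial : ℝ) * (a.factorial : ℝ) / 2 ^ s := by
    have h1 : p = m3 (s, a) := by rw [m3_eq]
    rw [h1, B3_m3]
    exact st.bound3 s a
  set k : ℝ := (1 / 3) ^ s * (-(2 / 3)) ^ a with hk
  have hcs : k ^ 2 * gam st m ≤ B3 st p p := by
    have h1 := B3_nonneg st (p - k • w3 ^ m)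
    simp only [map_sub, map_smul, LinearMap.sub_apply, LinearMap.smul_apply, smul_eq_mul] at h1
    rw [B3_symm st (w3 ^ m) p, hpq] at h1
    have h2 : B3 st (w3 ^ m) (w3 ^ m) = gam st m := rfl
    rw [h2] at h1
    linarith
  have hk2 : k ^ 2 = (1 / 9) ^ s * (4 / 9) ^ a := by
    rw [hk, mul_pow, ← pow_mul, ← pow_mul, mul_comm s 2, mul_comm a 2, pow_mul, pow_mul]
    norm_num
  have h3 : gam st m ≤ (s.factorial : ℝ) * (a.factorial : ℝ) / 2 ^ s / ((1 / 9) ^ s * (4 / 9) ^ a) := by
    rw [le_div_iff₀ (by positivity), ← hk2]
    linarith only [hpp, hcs]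
  rw [gh, div_le_div_iff₀ (by positivity) (by positivity)]
  have h4 := mul_le_mul_of_nonneg_right h3
    (by positivity : (0 : ℝ) ≤ (2 / 3) ^ m * (2 ^ a * (m.factorial : ℝ)))
  have e1 : (s.factorial : ℝ) * (a.factorial : ℝ) / 2 ^ s / ((1 / 9) ^ s * (4 / 9) ^ a)
      * ((2 / 3) ^ m * (2 ^ a * (m.factorial : ℝ)))
      = 3 ^ m * ((s.factorial : ℝ) * (a.factorial : ℝ)) * (m.factorial : ℝ) := by
    have e2 : ((2 : ℝ) / 3) ^ m * 2 ^ a = 3 ^ m * 2 ^ s * ((1 / 9) ^ s * (4 / 9) ^ a) := by
      rw [hm, pow_add, pow_add]
      have a1 : ((2 : ℝ) / 3) ^ s = 3 ^ s * 2 ^ s * (1 / 9) ^ s := by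
        rw [← mul_pow, ← mul_pow]; norm_num
      have a2 : ((2 : ℝ) / 3) ^ a * 2 ^ a = 3 ^ a * (4 / 9) ^ a := by
        rw [← mul_pow, ← mul_pow]; norm_num
      calc ((2 : ℝ) / 3) ^ s * (2 / 3) ^ a * 2 ^ a
          = (2 / 3) ^ s * ((2 / 3) ^ a * 2 ^ a) := by ring
        _ = _ := by rw [a1, a2]; ring
    have e3 : (0 : ℝ) < (1 / 9) ^ s * (4 / 9) ^ a := by positivity
    have e4 : (0 : ℝ) < 2 ^ s := by positivity
    calc (s.factorial : ℝ) * (a.factorial : ℝ) / 2 ^ s / ((1 / 9) ^ s * (4 / 9) ^ a)
          * ((2 / 3) ^ m * (2 ^ a * (m.factorial : ℝ)))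
        = (s.factorial : ℝ) * (a.factorial : ℝ) / 2 ^ s / ((1 / 9) ^ s * (4 / 9) ^ a)
          * (((2 / 3) ^ m * 2 ^ a) * (m.factorial : ℝ)) := by ring
      _ = (s.factorial : ℝ) * (a.factorial : ℝ) / 2 ^ s / ((1 / 9) ^ s * (4 / 9) ^ a)
          * ((3 ^ m * 2 ^ s * ((1 / 9) ^ s * (4 / 9) ^ a)) * (m.factorial : ℝ)) := by rw [e2]
      _ = _ := by field_simp
  rw [e1] at h4
  calc gam st m * (2 / 3) ^ m * (2 ^ a * (m.factorial : ℝ))
      = gam st m * ((2 / 3) ^ m * (2 ^ a * (m.factorial : ℝ))) := by ring
    _ ≤ _ := h4

theorem tail_bound : -(44 / 1000 : ℝ) ≤ ∑ m ∈ Ico 12 82, tcoef m * gh st m := by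
  have h1 : ∑ m ∈ Ico 12 82, tcoef m * gh st m
      = ∑ k ∈ range 70, tcoef (k + 12) * gh st (k + 12) := by
    rw [sum_Ico_eq_sum_range]
    apply sum_congr rfl; intro k _; rw [add_comm 12 k]
  rw [h1]
  have h2 : ∀ k ∈ range 70, -((tailB.getD k 0 : ℤ) : ℝ) / 10 ^ 6
      ≤ tcoef (k + 12) * gh st (k + 12) := by
    intro k hk
    obtain ⟨b0, b1⟩ := tailB_ok k (mem_range.1 hk)
    have b0' : (0 : ℝ) ≤ ((tailB.getD k 0 : ℤ) : ℝ) := by exact_mod_cast b0
    have hg := gh_nonneg st (k + 12)
    rcases le_or_gt 0 (tZl.getD (k + 12) 0) with h0 | h0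
    · have : (0 : ℝ) ≤ ((tZl.getD (k + 12) 0 : ℤ) : ℝ) := by exact_mod_cast h0
      have h3 : 0 ≤ tcoef (k + 12) * gh st (k + 12) := by
        unfold tcoef
        exact mul_nonneg (div_nonneg this (by positivity)) hg
      have h4 : -((tailB.getD k 0 : ℤ) : ℝ) / 10 ^ 6 ≤ 0 := by
        apply div_nonpos_of_nonpos_of_nonneg _ (by positivity)
        linarith only [b0']
      linarith only [b0', h3]
    · have h0' : ((tZl.getD (k + 12) 0 : ℤ) : ℝ) < 0 := by exact_mod_cast h0
      have hb := gh_bound st ((k + 13) / 3) (k + 12 - (k + 13) / 3)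
      rw [show (k + 13) / 3 + (k + 12 - (k + 13) / 3) = k + 12 by omega] at hb
      have b1' : -((tZl.getD (k + 12) 0 : ℤ) : ℝ) * ((3 : ℝ) ^ (k + 12)
          * (((k + 13) / 3).factorial : ℝ) * ((k + 12 - (k + 13) / 3).factorial : ℝ) * 10 ^ 6)
          ≤ ((tailB.getD k 0 : ℤ) : ℝ) * ((2 : ℝ) ^ (k + 12 - (k + 13) / 3)
            * ((k + 12).factorial : ℝ) * 3 ^ 81) := by exact_mod_cast b1
      set S := (((k + 13) / 3).factorial : ℝ)
      set A := ((k + 12 - (k + 13) / 3).factorial : ℝ)
      set M := ((k + 12).factorial : ℝ)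
      set t := ((tZl.getD (k + 12) 0 : ℤ) : ℝ)
      set b := ((tailB.getD k 0 : ℤ) : ℝ)
      set P3' := (3 : ℝ) ^ (k + 12)
      set P2 := (2 : ℝ) ^ (k + 12 - (k + 13) / 3)
      have hP2 : 0 < P2 := by positivity
      have hM : 0 < M := by positivity
      have h81 : (0 : ℝ) < 3 ^ 81 := by positivity
      have h3 : tcoef (k + 12) * (P3' * (S * A) / (P2 * M)) ≤ tcoef (k + 12) * gh st (k + 12) := by
        apply mul_le_mul_of_nonpos_left hb
        unfold tcoef
        exact div_nonpos_of_nonpos_of_nonneg h0'.le h81.le
      refine le_trans ?_ h3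
      have h4 : tcoef (k + 12) * (P3' * (S * A) / (P2 * M))
          = t * (P3' * S * A * 10 ^ 6) / (P2 * M * 3 ^ 81) / 10 ^ 6 := by
        change t / 3 ^ 81 * (P3' * (S * A) / (P2 * M)) = _
        generalize (3 : ℝ) ^ 81 = W at *
        (clear * - hM hP2 h81; field_simp)
      rw [h4]
      apply div_le_div_of_nonneg_right _ (by positivity)
      rw [le_div_iff₀ (by positivity)]
      linarith only [b1']
  have h3 := sum_le_sum h2
  refine le_trans ?_ h3
  have h4 : ((sumTo 70 (fun k => tailB.getD k 0) : ℤ) : ℝ) ≤ 44000 := by exact_mod_cast tailB_sum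
  rw [sumTo_eq] at h4
  push_cast at h4
  have h5 : ∑ k ∈ range 70, -((tailB.getD k 0 : ℤ) : ℝ) / 10 ^ 6
      = -(∑ k ∈ range 70, ((tailB.getD k 0 : ℤ) : ℝ)) / 10 ^ 6 := by
    rw [← sum_div, sum_neg_distrib]
  rw [h5, le_div_iff₀ (by norm_num)]
  linarith only [h4]

end

end Vale.Agent.P359
end
end

section

section

/-!
The planar theorem: every planar limit state has energy at least `1 / 50`.
-/

namespace Vale.Agent.P359

open Finset MvPolynomial

lemma coef_ok : ∀ m < 12, m ≠ 0 → m ≠ 1 → m ≠ 3 →
    (v3Z 0 ents0 al0 m + v3Z 1 ents1 al1 m) * 3 ^ 70 ≤ tZl.getD m 0 * (2 ^ 12 * 4 ^ 37) := by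
  (clear * -; decide +kernel)

lemma const_ok : (2 * dot al0 al0 + dot al1 al1) * 1000 ≤ 914 * (2 * 4 ^ 37) := by
  (clear * -; decide +kernel)

theorem planar_bound_state {lam : ℝ} (st : PlanarState lam) : 1 / 50 ≤ lam := by
  have h1 := planar_core st
  have h2 := energy_side st
  have h3 := tail_bound st
  -- split the three-body sum
  have h4 : ∑ m ∈ range 82, tcoef m * gh st m
      = ∑ m ∈ range 12, tcoef m * gh st m + ∑ m ∈ Ico 12 82, tcoef m * gh st m := by
    rw [range_eq_Ico, ← sum_Ico_consecutive _ (by norm_num : 0 ≤ 12) (by norm_num : 12 ≤ 82),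
      ← range_eq_Ico]
  -- compare channel coefficients
  have h5 : ∑ m ∈ range 12, ((v3Z 0 ents0 al0 m + v3Z 1 ents1 al1 m : ℤ) : ℝ)
          / (2 ^ 12 * 3 ^ 11 * 4 ^ 37) * gh st m ≤ ∑ m ∈ range 12, tcoef m * gh st m := by
    apply sum_le_sum
    intro m hm
    rw [mem_range] at hm
    by_cases hm0 : m = 0
    · have : gh st m = 0 := by rw [hm0, gh, gam0]; simp
      rw [this]; simp
    by_cases hm1 : m = 1
    · have : gh st m = 0 := by rw [hm1, gh, gam1]; simp
      rw [this]; simp
    by_cases hm3 : m = 3
    · have : gh st m = 0 := by rw [hm3, gh, gam3]; simp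
      rw [this]; simp
    apply mul_le_mul_of_nonneg_right _ (gh_nonneg st m)
    have h := coef_ok m hm hm0 hm1 hm3
    have hr : ((v3Z 0 ents0 al0 m + v3Z 1 ents1 al1 m : ℤ) : ℝ) * 3 ^ 70
        ≤ (tZl.getD m 0 : ℝ) * (2 ^ 12 * 4 ^ 37) := by exact_mod_cast h
    rw [tcoef, div_le_div_iff₀ (by positivity) (by positivity)]
    have e : (3 : ℝ) ^ 81 = 3 ^ 70 * 3 ^ 11 := by rw [← pow_add]
    rw [e]
    nlinarith only [hr]
  -- compare pair coefficients
  have h6 : ∑ e ∈ range 22, (if e % 2 = 1 then
      19999 / 10000 / ((e - 1).factorial : ℝ) * ph st (e - 1) else 0)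
      ≤ ∑ l ∈ range 81, dcoef l * ph st l := by
    have e1 : ∑ e ∈ range 22, (if e % 2 = 1 then
        19999 / 10000 / ((e - 1).factorial : ℝ) * ph st (e - 1) else 0)
        = ∑ l ∈ range 21, (if (l + 1) % 2 = 1 then
        19999 / 10000 / (l.factorial : ℝ) * ph st l else 0) := by
      rw [sum_range_succ' _ 21]
      simp only [add_tsub_cancel_right, Nat.zero_mod, zero_ne_one, ↓reduceIte, add_zero]
    have e2 : ∑ l ∈ range 21, dcoef l * ph st l ≤ ∑ l ∈ range 81, dcoef l * ph st l := by
      apply sum_le_sum_of_subset_of_nonneg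
      · intro l hl; rw [mem_range] at hl ⊢; omega
      · intro l hl _
        exact mul_nonneg (dcoef_nonneg l (mem_range.1 hl)) (ph_nonneg st l)
    rw [e1]
    refine le_trans (sum_le_sum fun l hl => ?_) e2
    rw [mem_range] at hl
    split_ifs with h0
    · exact mul_le_mul_of_nonneg_right (dcoef_ge l (by omega)) (ph_nonneg st l)
    · exact mul_nonneg (dcoef_nonneg l (by omega)) (ph_nonneg st l)
  have h7 : ((dot al0 al0 : ℝ) + (dot al1 al1 : ℝ) / 2) / 4 ^ 37 ≤ 914 / 1000 := by
    have hc : ((2 * dot al0 al0 + dot al1 al1 : ℤ) : ℝ) * 1000 ≤ 914 * (2 * 4 ^ 37) := by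
      exact_mod_cast const_ok
    push_cast at hc
    rw [div_le_div_iff₀ (by positivity) (by norm_num)]
    linarith only [hc]
  rw [h4] at h2
  linarith only [h1, h2, h3, h5, h6, h7]

theorem planar_bound (lam : ℝ) (h : Nonempty (PlanarState lam)) : 1 / 50 ≤ lam :=
  planar_bound_state h.some

end Vale.Agent.P359
end
end

section

section

/-!
Transfer of the gap theorem to the coordinate statement.
-/

namespace Vale.Agent.P359

open Matrix Finset

lemma casimir_eq (Q : ℕ) : casimir Q = spinSq Q := rfl

lemma laughlin_eq (N : ℕ) : laughlin N = WithLp.toLp 2 (laughlinVec N) := rfl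

lemma mem_spinComponent (Q : ℕ) (v : EuclideanSpace ℂ (Fin (Q + 1) × Fin (Q + 1))) :
    v ∈ spinComponent Q ((Q : ℂ) - 1) ↔ casimir Q *ᵥ v.ofLp = (((Q : ℂ) - 1) * Q) • v.ofLp := by
  have h1 : ((Q : ℂ) - 1) * (((Q : ℂ) - 1) + 1) = ((Q : ℂ) - 1) * Q := by ring
  rw [spinComponent, LinearMap.mem_ker, h1, ← casimir_eq]
  have h2 : Matrix.toEuclideanLin (casimir Q - (((Q : ℂ) - 1) * Q) • (1 : Matrix _ _ ℂ)) v
      = WithLp.toLp 2 ((casimir Q - (((Q : ℂ) - 1) * Q) • (1 : Matrix _ _ ℂ)) *ᵥ v.ofLp) := rfl
  rw [h2, WithLp.toLp_eq_zero, Matrix.sub_mulVec, Matrix.smul_mulVec, Matrix.one_mulVec, sub_eq_zero]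

lemma inner_eq_braket {ι : Type} [Fintype ι] (φ ψ : EuclideanSpace ℂ ι) :
    inner ℂ φ ψ = braket φ.ofLp ψ.ofLp := by
  rw [PiLp.inner_apply, braket]
  apply sum_congr rfl; intro i _
  rw [RCLike.inner_apply, mul_comm]
  rfl

lemma braket_mulVec {ι : Type} [Fintype ι] (P : Matrix ι ι ℂ) (φ ψ : ι → ℂ) :
    braket φ (P *ᵥ ψ) = braket (Pᴴ *ᵥ φ) ψ := by
  have h1 : braket φ (P *ᵥ ψ) = star φ ⬝ᵥ (P *ᵥ ψ) := rfl
  have h2 : braket (Pᴴ *ᵥ φ) ψ = star (Pᴴ *ᵥ φ) ⬝ᵥ ψ := rfl
  rw [h1, h2, Matrix.star_mulVec, Matrix.conjTranspose_conjTranspose, Matrix.dotProduct_mulVec]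

lemma IsPairProj.apply {Q : ℕ} {P : Matrix (Fin (Q + 1) × Fin (Q + 1)) (Fin (Q + 1) × Fin (Q + 1)) ℂ}
    (hP : IsPairProj Q P) (ψ : EuclideanSpace ℂ (Fin (Q + 1) × Fin (Q + 1))) :
    pairProj Q ψ = WithLp.toLp 2 (P *ᵥ ψ.ofLp) := by
  obtain ⟨h1, h2, h3⟩ := hP
  unfold pairProj
  apply Submodule.eq_starProjection_of_mem_of_inner_eq_zero
  · rw [mem_spinComponent]
    refine (h3 _).1 ?_
    rw [Matrix.mulVec_mulVec, h1]
  · intro w hw
    rw [mem_spinComponent] at hw
    have hw' := (h3 _).2 hw
    rw [inner_eq_braket]
    change braket (ψ.ofLp - P *ᵥ ψ.ofLp) w.ofLp = 0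
    rw [← hw', braket_mulVec, h2, Matrix.mulVec_sub, Matrix.mulVec_mulVec, h1, sub_self]
    simp only [braket, Pi.zero_apply, star_zero, zero_mul, sum_const_zero]

/-- matrix entries of the pair projection -/
noncomputable def projMat (Q : ℕ) (q p : Fin (Q + 1) × Fin (Q + 1)) : ℂ :=
  pairProj Q (EuclideanSpace.single p 1) q

lemma pairProj_eq_sum' {Q : ℕ} (ψ : EuclideanSpace ℂ (Fin (Q + 1) × Fin (Q + 1)))
    (q : Fin (Q + 1) × Fin (Q + 1)) : pairProj Q ψ q = ∑ p, projMat Q q p * ψ p := by
  have h : ψ = ∑ p, ψ p • (EuclideanSpace.single p 1 :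
      EuclideanSpace ℂ (Fin (Q + 1) × Fin (Q + 1))) := by
    ext r
    simp [Finset.sum_apply, Pi.single_apply]
  conv_lhs => rw [h, map_sum]
  simp only [map_smul, projMat]
  simp [Finset.sum_apply, mul_comm]

lemma projMat_conj {Q : ℕ} (q p : Fin (Q + 1) × Fin (Q + 1)) :
    (starRingEnd ℂ) (projMat Q q p) = projMat Q p q := by
  have h : inner ℂ (pairProj Q (EuclideanSpace.single p 1 :
        EuclideanSpace ℂ (Fin (Q + 1) × Fin (Q + 1)))) (EuclideanSpace.single q 1)
      = inner ℂ (EuclideanSpace.single p 1 : EuclideanSpace ℂ (Fin (Q + 1) × Fin (Q + 1)))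
        (pairProj Q (EuclideanSpace.single q 1)) := by
    unfold pairProj
    rw [Submodule.inner_starProjection_left_eq_right]
  rw [EuclideanSpace.inner_single_left, EuclideanSpace.inner_single_right] at h
  simpa only [projMat, one_mul, map_one] using h

lemma exists_pairProj (Q : ℕ) : IsPairProj Q (Matrix.of (projMat Q)) := by
  have hap : ∀ ψ : Fin (Q + 1) × Fin (Q + 1) → ℂ,
      Matrix.of (projMat Q) *ᵥ ψ = (pairProj Q (WithLp.toLp 2 ψ)).ofLp := by
    intro ψ
    funext q
    rw [pairProj_eq_sum']
    rfl
  refine ⟨?_, ?_, ?_⟩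
  · apply Matrix.toLin'.injective
    apply LinearMap.ext; intro ψ
    rw [Matrix.toLin'_mul, LinearMap.comp_apply, Matrix.toLin'_apply, Matrix.toLin'_apply, hap, hap]
    change (pairProj Q (pairProj Q (WithLp.toLp 2 ψ))).ofLp = (pairProj Q (WithLp.toLp 2 ψ)).ofLp
    have : pairProj Q (pairProj Q (WithLp.toLp 2 ψ)) = pairProj Q (WithLp.toLp 2 ψ) := by
      unfold pairProj
      rw [Submodule.starProjection_eq_self_iff]
      exact Submodule.starProjection_apply_mem _ _
    rw [this]
  · ext q p
    rw [Matrix.conjTranspose_apply, Matrix.of_apply, Matrix.of_apply]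
    exact projMat_conj p q
  · intro ψ
    rw [hap, ← mem_spinComponent Q (WithLp.toLp 2 ψ), ← Submodule.starProjection_eq_self_iff]
    constructor
    · intro h
      exact (WithLp.ofLp_injective 2) h
    · intro h
      exact congrArg WithLp.ofLp h

lemma unique_pairProj (Q : ℕ) : ∃! P, IsPairProj Q P := by
  refine ⟨Matrix.of (projMat Q), exists_pairProj Q, ?_⟩
  intro P hP
  apply Matrix.toLin'.injective
  apply LinearMap.ext; intro ψ
  rw [Matrix.toLin'_apply, Matrix.toLin'_apply]
  have h1 := hP.apply (WithLp.toLp 2 ψ)
  have h2 := (exists_pairProj Q).apply (WithLp.toLp 2 ψ)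
  have h3 := h1.symm.trans h2
  exact (WithLp.toLp_injective 2) h3

lemma pairSum_eq {N Q : ℕ} {P : Matrix (Fin (Q + 1) × Fin (Q + 1)) (Fin (Q + 1) × Fin (Q + 1)) ℂ}
    (hP : IsPairProj Q P) (Ψ : (Fin N → Fin (Q + 1)) → ℂ) :
    hamiltonian N Q (WithLp.toLp 2 Ψ) = WithLp.toLp 2 (pairSum P Ψ) := by
  ext x
  rw [hamiltonian]
  simp only [WithLp.ofLp_sum, Finset.sum_apply]
  rw [pairSum]
  apply sum_congr rfl; intro i _
  apply sum_congr rfl; intro j _
  rw [pairTerm, PiLp.toLp_apply, hP.apply, PiLp.toLp_apply, Matrix.mulVec, dotProduct,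
    Fintype.sum_prod_type]
  rfl

lemma perp_eq {N : ℕ} (Ψ : (Fin N → Fin (3 * (N - 1) + 1)) → ℂ) :
    WithLp.toLp 2 Ψ - (Submodule.span ℂ {laughlin N}).starProjection (WithLp.toLp 2 Ψ)
      = WithLp.toLp 2 (perpPart Ψ) := by
  rw [Submodule.starProjection_singleton, perpPart]
  have h1 : (((‖laughlin N‖ ^ 2 : ℝ)) : ℂ) = braket (laughlinVec N) (laughlinVec N) := by
    have := inner_self_eq_norm_sq_to_K (𝕜 := ℂ) (laughlin N)
    rw [inner_eq_braket, laughlin_eq] at this
    rw [laughlin_eq]
    push_cast
    exact this.symm
  have h2 : inner ℂ (laughlin N) (WithLp.toLp 2 Ψ) = braket (laughlinVec N) Ψ := by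
    rw [inner_eq_braket, laughlin_eq]
  have h3 : ((RCLike.ofReal (‖laughlin N‖ ^ 2) : ℂ)) = braket (laughlinVec N) (laughlinVec N) := h1
  rw [h2, h3]
  rfl

/-- The uniform gap of the spherical Laughlin Hamiltonian, in coordinates. -/
theorem laughlin_gap :
    (∀ Q : ℕ, 1 ≤ Q → ∃! P, IsPairProj Q P) ∧
    ∃ δ : ℝ, 1 / 100 ≤ δ ∧ ∃ N₀ : ℕ, ∀ N : ℕ, N₀ ≤ N → ∀ P, IsPairProj (3 * (N - 1)) P →
      IsFermionic (laughlinVec N) ∧ laughlinVec N ≠ 0 ∧ pairSum P (laughlinVec N) = 0 ∧
      ∀ Ψ, IsFermionic Ψ →
        δ * (braket (perpPart Ψ) (perpPart Ψ)).re ≤ (braket Ψ (pairSum P Ψ)).re := by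
  refine ⟨fun Q _ => unique_pairProj Q, ?_⟩
  obtain ⟨N₀, h⟩ := laughlin_gap_of_planar (1 / 100) (by norm_num)
    (fun lam hlam => lt_of_lt_of_le (by norm_num) (planar_bound lam hlam))
  refine ⟨1 / 100, le_rfl, N₀, fun N hN P hP => ⟨laughlin_mem N, ?_, ?_, ?_⟩⟩
  · intro h0
    apply laughlin_ne_zero N
    rw [laughlin_eq, h0]; rfl
  · have h1 := hamiltonian_laughlin N
    rw [laughlin_eq, pairSum_eq hP, WithLp.toLp_eq_zero] at h1
    exact h1
  · intro Ψ hΨ
    have h1 := h N hN (WithLp.toLp 2 Ψ) hΨ
    rw [perp_eq, pairSum_eq hP, inner_eq_braket] at h1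
    have h2 : ‖(WithLp.toLp 2 (perpPart Ψ) : EuclideanSpace ℂ (Fin N → Fin (3 * (N - 1) + 1)))‖ ^ 2
        = (braket (perpPart Ψ) (perpPart Ψ)).re := by
      have h3 := inner_self_eq_norm_sq_to_K (𝕜 := ℂ)
        (WithLp.toLp 2 (perpPart Ψ) : EuclideanSpace ℂ (Fin N → Fin (3 * (N - 1) + 1)))
      rw [inner_eq_braket] at h3
      change braket (perpPart Ψ) (perpPart Ψ) = _ at h3
      rw [h3]
      norm_cast
    rw [h2] at h1
    exact h1

end Vale.Agent.P359
end
end
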